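import Vale.Agent.P078.Finite.Diagonal

/-!
The public statement, from paving in tracial inclusions.
-/

noncomputable section

open scoped InnerProductSpace

namespace Vale.Agent.P078.Finite

universe u v

variable {H : Type u} [NormedAddCommGroup H] [InnerProductSpace ℂ H] [CompleteSpace H]

theorem one_le_of_bound {C ε : ℝ} {r : ℕ} (hC : 0 < C) (hε : 0 < ε) (hr : C / ε ^ 2 ≤ r) :
    1 ≤ r := by
  have h : (0 : ℝ) < r := (div_pos hC (pow_pos hε 2)).trans_le hr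
  exact_mod_cast h

theorem soPaving_constant {C0 : ℝ} (h : Paving.{u} C0) :
    ∃ C : ℝ, 0 < C ∧
      (∀ (H : Type u) [NormedAddCommGroup H] [InnerProductSpace ℂ H] [CompleteSpace H]
        (M : VonNeumannAlgebra H) (A : StarSubalgebra ℂ (H →L[ℂ] H)),
        IsMasaIn M A → HasTraceCorners M A →
        ∀ ε : ℝ, 0 < ε → ∀ r : ℕ, C / ε ^ 2 ≤ r → ∀ x ∈ M, IsSelfAdjoint x →
          SoPavableIn M A ε r x) ∧
      (∀ (H : Type u) [NormedAddCommGroup H] [InnerProductSpace ℂ H] [CompleteSpace H]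
        (ι : Type v) (b : HilbertBasis ι ℂ H), ∀ ε : ℝ, 0 < ε → ∀ r : ℕ, C / ε ^ 2 ≤ r →
        ∀ x : H →L[ℂ] H, IsSelfAdjoint x → SoPavableIn (allOps H) (diagAlg b) ε r x) ∧
      (∀ (H : Type u) [NormedAddCommGroup H] [InnerProductSpace ℂ H] [CompleteSpace H]
        (ι : Type v) [Fintype ι] (b : OrthonormalBasis ι ℂ H), ∀ ε : ℝ, 0 < ε → ∀ r : ℕ,
        C / ε ^ 2 ≤ r → ∀ x : H →L[ℂ] H, IsSelfAdjoint x → (∀ k, ⟪b k, x (b k)⟫_ℂ = 0) →
          ∃ c : ι → Fin r, ∀ i,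
            ‖(∑ k with c k = i, InnerProductSpace.rankOne ℂ (b k) (b k)) * x *
              ∑ k with c k = i, InnerProductSpace.rankOne ℂ (b k) (b k)‖ ≤ ε * ‖x‖) := by
  set C : ℝ := 4 * (4 * C0 ^ 2 + 1)
  have hC : 0 < C := by positivity
  have hbd : ∀ (ε : ℝ), 0 < ε → ∀ r : ℕ, C / ε ^ 2 ≤ r →
      4 * C0 ^ 2 ≤ ε ^ 2 * r ∧ 4 * C0 ^ 2 ≤ (ε / 2) ^ 2 * r := by
    intro ε hε r hr
    rw [div_le_iff₀ (by positivity)] at hr
    have : 0 ≤ ε ^ 2 * (r : ℝ) := by positivity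
    have e : (ε / 2) ^ 2 * (r : ℝ) = ε ^ 2 * r / 4 := by ring
    rw [e]
    simp only [C] at hr
    constructor <;> nlinarith [sq_nonneg C0]
  refine ⟨C, hC, fun H _ _ _ M A hA hM ε hε r hr x hxM hx => ?_,
    fun H _ _ _ ι b ε hε r hr x hx => ?_, fun H _ _ _ ι _ b ε hε r hr x hx hd => ?_⟩
  · exact soPavableIn_of_paving h hA hM hε (one_le_of_bound hC hε hr) (hbd ε hε r hr).1 hxM hx
  · exact soPavableIn_of_paving h (isMasaIn_diag b) (hasTraceCorners_diag b) hε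
      (one_le_of_bound hC hε hr) (hbd ε hε r hr).1 (mem_allOps x) hx
  · have e : ∀ k, b.toHilbertBasis k = b k := fun k => by rw [OrthonormalBasis.coe_toHilbertBasis]
    have hsp := soPavableIn_of_paving h (isMasaIn_diag b.toHilbertBasis)
      (hasTraceCorners_diag b.toHilbertBasis) (half_pos hε) (one_le_of_bound hC hε hr)
      (hbd ε hε r hr).2 (mem_allOps x) hx
    obtain ⟨c, hc⟩ := norm_paving_of_soPavable b.toHilbertBasis (fun k => by rw [e]; exact hd k) hsp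
    refine ⟨c, fun i => ?_⟩
    have := hc i
    simpa only [e] using this

end Vale.Agent.P078.Finite
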