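import Vale.Agent.P078.Finite.Amplify

/-!
Atomic maximal abelian algebras of all bounded operators have finite-trace corners;
norm paving in finite dimensions.
-/

noncomputable section

open scoped InnerProductSpace
open Filter Topology

namespace Vale.Agent.P078.Finite

universe u

variable {H : Type u} [NormedAddCommGroup H] [InnerProductSpace ℂ H] [CompleteSpace H]

/-- All bounded operators. -/
def allOps (H : Type u) [NormedAddCommGroup H] [InnerProductSpace ℂ H] [CompleteSpace H] :
    VonNeumannAlgebra H where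
  toStarSubalgebra := ⊤
  centralizer_centralizer' := by
    change Set.centralizer (Set.centralizer (Set.univ : Set (H →L[ℂ] H))) = Set.univ
    rw [Set.centralizer_univ]
    exact Set.centralizer_eq_top_iff_subset.2 subset_rfl

theorem mem_allOps (T : H →L[ℂ] H) : T ∈ allOps H := trivial

variable {ι : Type*}

/-- The rank one projection at a basis vector. -/
def atom (b : HilbertBasis ι ℂ H) (k : ι) : H →L[ℂ] H := InnerProductSpace.rankOne ℂ (b k) (b k)

/-- The operators diagonal in `b`. -/
def diagAlg (b : HilbertBasis ι ℂ H) : StarSubalgebra ℂ (H →L[ℂ] H) :=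
  StarSubalgebra.centralizer ℂ (Set.range (atom b))

variable (b : HilbertBasis ι ℂ H)

omit [CompleteSpace H] in
theorem atom_apply (k : ι) (v : H) : atom b k v = ⟪b k, v⟫_ℂ • b k := by
  simp [atom, InnerProductSpace.rankOne_apply]

omit [CompleteSpace H] in
theorem atom_basis [DecidableEq ι] (k l : ι) : atom b k (b l) = if k = l then b l else 0 := by
  rw [atom_apply, orthonormal_iff_ite.1 b.orthonormal k l]
  split_ifs with h
  · rw [h, one_smul]
  · rw [zero_smul]

omit [CompleteSpace H] in
theorem ext_basis {S T : H →L[ℂ] H} (h : ∀ k, S (b k) = T (b k)) : S = T :=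
  ContinuousLinearMap.ext_on (Submodule.dense_iff_topologicalClosure_eq_top.2 b.dense_span)
    (by rintro _ ⟨k, rfl⟩; exact h k)

theorem atom_star (k : ι) : star (atom b k) = atom b k := by
  rw [ContinuousLinearMap.star_eq_adjoint]
  refine ((ContinuousLinearMap.eq_adjoint_iff _ _).2 fun v w => ?_).symm
  rw [atom_apply, atom_apply, inner_smul_left, inner_smul_right, inner_conj_symm]
  exact mul_comm _ _

omit [CompleteSpace H] in
theorem atom_idem (k : ι) : atom b k * atom b k = atom b k := by
  classical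
  refine ext_basis b fun l => ?_
  change atom b k (atom b k (b l)) = _
  rw [atom_basis]
  split_ifs with h
  · rw [atom_basis, if_pos h]
  · simp

omit [CompleteSpace H] in
theorem atom_orth {k l : ι} (h : k ≠ l) : atom b k * atom b l = 0 := by
  classical
  refine ext_basis b fun m => ?_
  change atom b k (atom b l (b m)) = 0
  rw [atom_basis]
  split_ifs with h1
  · rw [atom_basis, if_neg (fun e => h (e.trans h1.symm))]
  · simp

theorem atom_mem (k : ι) : atom b k ∈ diagAlg b := by
  rw [diagAlg, StarSubalgebra.mem_centralizer_iff]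
  rintro _ ⟨l, rfl⟩
  rw [atom_star]
  have : atom b l * atom b k = atom b k * atom b l := by
    rcases eq_or_ne l k with rfl | h
    · rfl
    · rw [atom_orth b h, atom_orth b h.symm]
  exact ⟨this, this⟩

theorem diag_basis {T : H →L[ℂ] H} (hT : T ∈ diagAlg b) (k : ι) :
    T (b k) = ⟪b k, T (b k)⟫_ℂ • b k := by
  classical
  rw [diagAlg, StarSubalgebra.mem_centralizer_iff] at hT
  have h := congrArg (fun R : H →L[ℂ] H => R (b k)) (hT _ ⟨k, rfl⟩).1
  change atom b k (T (b k)) = T (atom b k (b k)) at h
  rw [atom_basis, if_pos rfl, atom_apply] at h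
  exact h.symm

theorem isMasaIn_diag : IsMasaIn (allOps H) (diagAlg b) := by
  refine ⟨fun a _ => mem_allOps a, fun T _ => ⟨fun hT a ha => ext_basis b fun k => ?_, fun h => ?_⟩⟩
  · change T (a (b k)) = a (T (b k))
    conv_lhs => rw [diag_basis b ha k, map_smul, diag_basis b hT k]
    conv_rhs => rw [diag_basis b hT k, map_smul, diag_basis b ha k]
    rw [smul_comm]
  · rw [diagAlg, StarSubalgebra.mem_centralizer_iff]
    rintro _ ⟨k, rfl⟩
    rw [atom_star]
    exact ⟨(h _ (atom_mem b k)).symm, (h _ (atom_mem b k)).symm⟩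

theorem isStarProjection_sum_atom (s : Finset ι) : IsStarProjection (∑ k ∈ s, atom b k) := by
  classical
  induction s using Finset.induction_on with
  | empty => simp [IsStarProjection.zero]
  | @insert k s hk ih =>
    rw [Finset.sum_insert hk]
    refine IsStarProjection.add ⟨atom_idem b k, atom_star b k⟩ ih ?_
    rw [Finset.mul_sum]
    exact Finset.sum_eq_zero fun l hl => atom_orth b fun e => hk (e ▸ hl)

theorem hasTraceCorners_diag : HasTraceCorners (allOps H) (diagAlg b) := by
  classical
  intro F δ hδ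
  have hev : ∀ᶠ s : Finset ι in atTop, ∀ v ∈ F, ‖(1 - ∑ k ∈ s, atom b k) v‖ < δ := by
    refine (Finset.eventually_all F).2 fun v _ => ?_
    filter_upwards [(b.hasSum_repr v).eventually (Metric.ball_mem_nhds v hδ)] with s hs
    rw [sub_apply, one_apply_eq_self, sum_apply]
    simp only [atom_apply]
    rw [dist_eq_norm'] at hs
    simpa [b.repr_apply_apply] using hs
  obtain ⟨s, hs⟩ := hev.exists
  set p := ∑ k ∈ s, atom b k with hp
  have hpb : ∀ k ∈ s, p (b k) = b k := fun k hk => by
    rw [hp, sum_apply]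
    simp only [atom_basis]
    rw [Finset.sum_ite_eq' s k fun _ => b k, if_pos hk]
  set ξ : ℕ → H := fun n => if h : n < s.card then b (s.equivFin.symm ⟨n, h⟩) else 0 with hξ
  have hfin : ∀ f : H → ℂ, f 0 = 0 → ∑' n, f (ξ n) = ∑ k ∈ s, f (b k) := by
    intro f hf
    rw [tsum_eq_sum (s := Finset.range s.card) fun n hn => by
        simp only [hξ, dif_neg (Finset.mem_range.not.1 hn), hf],
      Finset.sum_range fun n => f (ξ n), ← Finset.sum_attach s]
    refine (Fintype.sum_equiv s.equivFin _ _ fun k => ?_).symm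
    simp only [hξ, dif_pos (s.equivFin k).2, Fin.eta, Equiv.symm_apply_apply]
  refine ⟨p, sum_mem fun k _ => atom_mem b k, isStarProjection_sum_atom b s, hs, ξ, fun n => ?_,
    summable_of_ne_finset_zero (s := Finset.range s.card) fun n hn => by
      simp [hξ, dif_neg (Finset.mem_range.not.1 hn)], fun x _ y _ hx hy => ?_, fun x _ hx h => ?_⟩
  · simp only [hξ]
    split_ifs
    · exact hpb _ (Subtype.coe_prop _)
    · simp
  · have key : ∀ u w : H →L[ℂ] H, p * w * p = w →
        ∑' n, ⟪ξ n, (u * w) (ξ n)⟫_ℂ =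
          ∑ k ∈ s, ∑ l ∈ s, ⟪b l, w (b k)⟫_ℂ * ⟪b k, u (b l)⟫_ℂ := by
      intro u w hw
      rw [hfin (fun v => ⟪v, (u * w) v⟫_ℂ) (by simp)]
      refine Finset.sum_congr rfl fun k _ => ?_
      have e : w (b k) = ∑ l ∈ s, ⟪b l, w (b k)⟫_ℂ • b l := by
        have e1 : p * w = w := by
          conv_rhs => rw [← hw]
          conv_lhs => rw [← hw]
          simp only [← mul_assoc, (isStarProjection_sum_atom b s).isIdempotentElem.eq, hp]
        conv_lhs => rw [← e1]
        change p (w (b k)) = _
        rw [hp, sum_apply]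
        simp only [atom_apply]
      change ⟪b k, u (w (b k))⟫_ℂ = _
      conv_lhs => rw [e]
      rw [map_sum, inner_sum]
      refine Finset.sum_congr rfl fun l _ => ?_
      rw [map_smul, inner_smul_right]
    rw [key x y hy, key y x hx, Finset.sum_comm]
    exact Finset.sum_congr rfl fun k _ => Finset.sum_congr rfl fun l _ => mul_comm _ _
  · have hxb : ∀ k ∈ s, x (b k) = 0 := fun k hk => by
      have := h (s.equivFin ⟨k, hk⟩ : ℕ)
      simpa [hξ] using this
    have : x * p = 0 := by
      rw [hp, Finset.mul_sum]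
      refine Finset.sum_eq_zero fun k hk => ContinuousLinearMap.ext fun v => ?_
      change x (atom b k v) = 0
      rw [atom_apply, map_smul, hxb k hk, smul_zero]
    rw [← hx, mul_assoc, this, mul_zero]

/-- Norm paving of matrices with zero diagonal, from so-paving of the diagonal algebra. -/
theorem norm_paving_of_soPavable [Fintype ι] {ε : ℝ} {r : ℕ}
    {T : H →L[ℂ] H} (hd : ∀ k, ⟪b k, T (b k)⟫_ℂ = 0)
    (h : SoPavableIn (allOps H) (diagAlg b) (ε / 2) r T) :
    ∃ c : ι → Fin r, ∀ i,
      ‖(∑ k with c k = i, InnerProductSpace.rankOne ℂ (b k) (b k)) * T *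
        ∑ k with c k = i, InnerProductSpace.rankOne ℂ (b k) (b k)‖ ≤ ε * ‖T‖ := by
  classical
  obtain ⟨p, a, q, hp, horth, hsum, ha, -, -, -, hq, hqF, hn⟩ :=
    h (Finset.univ.image fun k => b k) (1 / (Fintype.card ι + 1)) (by positivity)
  have hq1 : 1 - q = 0 := by
    by_contra hne
    have hP : IsStarProjection (1 - q) := hq.one_sub
    have hN : ‖1 - q‖ = 1 := by
      have h1 : ‖star (1 - q) * (1 - q)‖ = ‖1 - q‖ * ‖1 - q‖ := CStarRing.norm_star_mul_self
      rw [hP.isSelfAdjoint.star_eq, hP.isIdempotentElem.eq] at h1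
      exact mul_right_cancel₀ (norm_ne_zero_iff.2 hne) (h1.symm.trans (one_mul _).symm)
    have hle : ‖1 - q‖ ≤ Fintype.card ι * (1 / (Fintype.card ι + 1) : ℝ) := by
      refine ContinuousLinearMap.opNorm_le_bound _ (by positivity) fun v => ?_
      have hv : v = ∑ k, ⟪b k, v⟫_ℂ • b k := by
        have := b.hasSum_repr v
        simp only [b.repr_apply_apply] at this
        exact this.unique (hasSum_fintype _)
      conv_lhs => rw [hv, map_sum]
      refine (norm_sum_le _ _).trans ((Finset.sum_le_card_nsmul _ _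
        (‖v‖ * (1 / (Fintype.card ι + 1) : ℝ)) fun k _ => ?_).trans (le_of_eq ?_))
      · rw [map_smul, norm_smul]
        refine mul_le_mul ?_ (hqF _ (Finset.mem_image_of_mem _ (Finset.mem_univ k))).le
          (norm_nonneg _) (norm_nonneg _)
        exact (norm_inner_le_norm _ _).trans (by rw [b.orthonormal.1 k, one_mul])
      · rw [nsmul_eq_mul, Finset.card_univ]; ring
    rw [hN, mul_one_div, one_le_div (by positivity)] at hle
    linarith
  rw [← sub_eq_zero.1 hq1, one_mul, mul_one] at hn
  set S := ∑ i, p i * T * p i - a with hS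
  set t : Fin r → ι → ℂ := fun i k => ⟪b k, p i (b k)⟫_ℂ with htdef
  have hpb : ∀ i k, p i (b k) = t i k • b k := fun i k => diag_basis b (hp i).1 k
  have hexists : ∀ k, ∃ i, t i k ≠ 0 := by
    intro k
    by_contra hall
    push Not at hall
    have := congrArg (fun R : H →L[ℂ] H => R (b k)) hsum
    rw [sum_apply, one_apply_eq_self, Finset.sum_eq_zero fun i _ => by
      rw [hpb, hall i, zero_smul]] at this
    exact b.orthonormal.ne_zero k this.symm
  choose c hc using hexists
  have hoff : ∀ i k, i ≠ c k → p i (b k) = 0 := by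
    intro i k hik
    have := congrArg (fun R : H →L[ℂ] H => R (b k)) (horth i (c k) hik)
    change p i (p (c k) (b k)) = (0 : H →L[ℂ] H) (b k) at this
    rw [hpb, map_smul, zero_apply, smul_eq_zero] at this
    exact this.resolve_left (hc k)
  have hon : ∀ k, p (c k) (b k) = b k := by
    intro k
    have := congrArg (fun R : H →L[ℂ] H => R (b k)) hsum
    rw [sum_apply, Finset.sum_eq_single (c k) (fun i _ hi => hoff i k hi) (by simp)] at this
    exact this
  refine ⟨c, fun i => ?_⟩
  have hQ : (∑ k with c k = i, InnerProductSpace.rankOne ℂ (b k) (b k)) = p i := by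
    refine ext_basis b fun l => ?_
    change (∑ k ∈ Finset.univ.filter (fun k => c k = i), atom b k) (b l) = _
    rw [sum_apply]
    simp only [atom_basis, Finset.sum_ite_eq', Finset.mem_filter, Finset.mem_univ, true_and]
    split_ifs with e
    · rw [← e, hon]
    · rw [hoff i l fun e' => e e'.symm]
  rw [hQ]
  have hpi : ‖p i‖ ≤ 1 := norm_starProjection_le_one (hp i).2
  have hsub : ∀ v, ‖a v‖ ≤ ε / 2 * ‖T‖ * ‖v‖ := by
    intro v
    have hak : ∀ k, ‖⟪b k, a (b k)⟫_ℂ‖ ≤ ε / 2 * ‖T‖ := by
      intro k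
      have hpT : ∀ j, ⟪b k, (p j * T * p j) (b k)⟫_ℂ = 0 := by
        intro j
        change ⟪b k, p j (T (p j (b k)))⟫_ℂ = 0
        rw [← ContinuousLinearMap.adjoint_inner_left, ← ContinuousLinearMap.star_eq_adjoint,
          (hp j).2.isSelfAdjoint.star_eq]
        rcases eq_or_ne j (c k) with rfl | hj
        · rw [hon, hd]
        · rw [hoff j k hj, map_zero, inner_zero_left]
      have : ⟪b k, S (b k)⟫_ℂ = -⟪b k, a (b k)⟫_ℂ := by
        rw [hS, sub_apply, inner_sub_right, sum_apply, inner_sum,
          Finset.sum_eq_zero fun j _ => hpT j, zero_sub]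
      rw [← norm_neg, ← this]
      refine (norm_inner_le_norm _ _).trans ?_
      rw [b.orthonormal.1 k, one_mul]
      exact (S.le_opNorm _).trans (by rw [b.orthonormal.1 k, mul_one]; exact hn)
    have hB : ∀ w : H, ‖w‖ ^ 2 = ∑ k, ‖⟪b k, w⟫_ℂ‖ ^ 2 := fun w => by
      have := lp.norm_rpow_eq_tsum (p := 2) (by norm_num) (b.repr w)
      rw [b.repr.norm_map, tsum_fintype] at this
      simpa [b.repr_apply_apply] using this
    have h0 : 0 ≤ ε / 2 * ‖T‖ := (norm_nonneg _).trans hn
    refine (pow_le_pow_iff_left₀ (norm_nonneg _) (by positivity) two_ne_zero).1 ?_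
    rw [mul_pow, hB, hB v, Finset.mul_sum]
    refine Finset.sum_le_sum fun k _ => ?_
    have hav : ⟪b k, a v⟫_ℂ = ⟪b k, a (b k)⟫_ℂ * ⟪b k, v⟫_ℂ := by
      have h1 := ha
      rw [diagAlg, StarSubalgebra.mem_centralizer_iff] at h1
      have h2 := congrArg (fun R : H →L[ℂ] H => R v) (h1 _ ⟨k, rfl⟩).1
      change atom b k (a v) = a (atom b k v) at h2
      rw [atom_apply, atom_apply, map_smul] at h2
      have h3 := congrArg (fun w => ⟪b k, w⟫_ℂ) h2
      simpa [inner_smul_right, inner_self_eq_norm_sq_to_K, b.orthonormal.1 k, mul_comm] using h3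
    rw [hav, norm_mul, mul_pow]
    exact mul_le_mul_of_nonneg_right (pow_le_pow_left₀ (norm_nonneg _) (hak k) 2) (sq_nonneg _)
  have hE0 : 0 ≤ ε / 2 * ‖T‖ := (norm_nonneg _).trans hn
  have hna : ‖a‖ ≤ ε / 2 * ‖T‖ := ContinuousLinearMap.opNorm_le_bound _ hE0 hsub
  have hsplit : p i * T * p i = p i * (S + a) * p i := by
    rw [hS, sub_add_cancel, Finset.mul_sum, Finset.sum_mul, Finset.sum_eq_single i]
    · have := (hp i).2.isIdempotentElem.eq
      simp only [← mul_assoc, this]
      rw [mul_assoc (p i * T), this]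
    · intro j _ hj
      rw [← mul_assoc, ← mul_assoc, horth i j (Ne.symm hj)]
      simp
    · simp
  rw [hsplit]
  calc ‖p i * (S + a) * p i‖ ≤ ‖p i‖ * ‖S + a‖ * ‖p i‖ :=
        (norm_mul_le _ _).trans (mul_le_mul_of_nonneg_right (norm_mul_le _ _) (norm_nonneg _))
    _ ≤ 1 * ‖S + a‖ * 1 := by gcongr
    _ ≤ ε * ‖T‖ := by linarith [norm_add_le S a]

end Vale.Agent.P078.Finite
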