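import Vale.Agent.P078.Finite.Ops

/-!
Operators on `L` extending bounded real-linear maps of real symbols, and sign patterns.
-/

noncomputable section

open scoped InnerProductSpace
open Filter Topology

namespace Vale.Agent.P078.Finite

universe u

variable {K : Type u} [NormedAddCommGroup K] [InnerProductSpace ℂ K] [CompleteSpace K]

/-- A sign pattern doing no worse than the average. -/
theorem exists_signs {ι : Type*} [DecidableEq ι] (t : Finset ι) (B : ι → ι → ℝ) :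
    ∃ e : ι → ℝ, (∀ i, e i = 1 ∨ e i = -1) ∧
      ∑ k ∈ t, ∑ l ∈ t, e k * e l * B k l ≤ ∑ k ∈ t, B k k := by
  induction t using Finset.induction_on with
  | empty => exact ⟨fun _ => 1, fun _ => Or.inl rfl, by simp⟩
  | @insert a t ha ih =>
    obtain ⟨e, he, hle⟩ := ih
    set c := ∑ l ∈ t, e l * (B a l + B l a)
    obtain ⟨σ, hσ, hσc⟩ : ∃ σ : ℝ, (σ = 1 ∨ σ = -1) ∧ σ * c ≤ 0 := by
      rcases le_total c 0 with h | h
      · exact ⟨1, Or.inl rfl, by linarith⟩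
      · exact ⟨-1, Or.inr rfl, by linarith⟩
    refine ⟨fun i => if i = a then σ else e i, fun i => ?_, ?_⟩
    · dsimp only
      split_ifs
      exacts [hσ, he i]
    have hne : ∀ i ∈ t, (if i = a then σ else e i) = e i := fun i hi =>
      if_neg fun h => ha (by rwa [h] at hi)
    simp only [Finset.sum_insert ha, if_true]
    rw [Finset.sum_add_distrib]
    have e1 : ∑ l ∈ t, σ * (if l = a then σ else e l) * B a l = σ * ∑ l ∈ t, e l * B a l := by
      rw [Finset.mul_sum]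
      exact Finset.sum_congr rfl fun l hl => by rw [hne l hl]; ring
    have e2 : ∑ k ∈ t, (if k = a then σ else e k) * σ * B k a = σ * ∑ k ∈ t, e k * B k a := by
      rw [Finset.mul_sum]
      exact Finset.sum_congr rfl fun l hl => by rw [hne l hl]; ring
    have e3 : ∑ k ∈ t, ∑ l ∈ t, (if k = a then σ else e k) * (if l = a then σ else e l) * B k l =
        ∑ k ∈ t, ∑ l ∈ t, e k * e l * B k l :=
      Finset.sum_congr rfl fun k hk => Finset.sum_congr rfl fun l hl => by rw [hne k hk, hne l hl]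
    rw [e1, e2, e3]
    have hσσ : σ * σ = 1 := by rcases hσ with h | h <;> rw [h] <;> norm_num
    have hc : c = ∑ l ∈ t, e l * B a l + ∑ l ∈ t, e l * B l a := by
      rw [← Finset.sum_add_distrib]
      exact Finset.sum_congr rfl fun l _ => by ring
    rw [hc, mul_add] at hσc
    rw [hσσ, one_mul]
    linarith

namespace Ctx

variable (C : Ctx K)

theorem vec_add (f g : C(C.Spec, ℝ)) : C.vec (f + g) = C.vec f + C.vec g := by
  refine Subtype.ext ?_
  rw [Submodule.coe_add, vec_coe, vec_coe, vec_coe, map_add]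
  rfl

theorem vec_smul (c : ℝ) (f : C(C.Spec, ℝ)) : C.vec (c • f) = c • C.vec f := by
  refine Subtype.ext ?_
  rw [vec_coe, map_smul]
  rfl

theorem vec_zero : C.vec 0 = 0 := by
  refine Subtype.ext ?_
  rw [vec_coe, map_zero]
  rfl

theorem vec_sum {ι : Type*} (t : Finset ι) (f : ι → C(C.Spec, ℝ)) :
    C.vec (∑ i ∈ t, f i) = ∑ i ∈ t, C.vec (f i) := by
  classical
  induction t using Finset.induction_on with
  | empty => simp [C.vec_zero]
  | @insert i t hi ih => rw [Finset.sum_insert hi, Finset.sum_insert hi, C.vec_add, ih]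

theorem tr_op (f : C(C.Spec, ℝ)) : C.tr (C.op f) = (C.intA f : ℂ) := by
  have h := C.tr_star (C.op f)
  rw [(C.op_sa f).star_eq, eq_comm, Complex.conj_eq_iff_re] at h
  exact h.symm

theorem inner_vec (f g : C(C.Spec, ℝ)) : ⟪C.vec f, C.vec g⟫_ℂ = (C.intA (f * g) : ℂ) := by
  rw [Submodule.coe_inner, vec_coe, vec_coe, C.inner_apply, (C.op_sa f).star_eq, ← map_mul,
    C.tr_op]

theorem sq_norm_vec (f : C(C.Spec, ℝ)) : ‖C.vec f‖ ^ 2 = C.intA (f * f) := by
  rw [← inner_self_eq_norm_sq (𝕜 := ℂ), C.inner_vec]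
  exact Complex.ofReal_re _

theorem em_decomp (a : C.A) :
    C.em a = C.vec (C.re a) + Complex.I • C.vec (C.im a) := by
  refine Subtype.ext ?_
  rw [Submodule.coe_add, Submodule.coe_smul, em_coe, vec_coe, vec_coe]
  conv_lhs => rw [C.decomp a.2]
  rfl

theorem sq_norm_vec_le (f : C(C.Spec, ℝ)) : ‖C.vec f‖ ^ 2 ≤ ‖f‖ ^ 2 * ‖C.Ω‖ ^ 2 := by
  rw [C.sq_norm_vec, ← C.intA_const]
  refine C.intA_mono fun χ => ?_
  change f χ * f χ ≤ ‖f‖ ^ 2
  rw [← sq, ← sq_abs (f χ)]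
  exact pow_le_pow_left₀ (abs_nonneg _) (f.norm_coe_le_norm χ) 2

/-- `X` extends the real-linear map `T` on real symbols. -/
def Lifts (X : C.L →L[ℂ] C.L) (T : C(C.Spec, ℝ) →L[ℝ] C(C.Spec, ℝ)) : Prop :=
  ∀ v, X (C.vec v) = C.vec (T v)

variable {C}

theorem Lifts.zero : C.Lifts 0 0 := fun _ => (C.vec_zero).symm

theorem Lifts.one : C.Lifts 1 1 := fun _ => rfl

theorem Lifts.add {X Y : C.L →L[ℂ] C.L} {S T : C(C.Spec, ℝ) →L[ℝ] C(C.Spec, ℝ)}
    (hX : C.Lifts X S) (hY : C.Lifts Y T) : C.Lifts (X + Y) (S + T) := fun v => by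
  rw [add_apply, add_apply, hX v, hY v, C.vec_add]

theorem Lifts.smul (c : ℝ) {X : C.L →L[ℂ] C.L} {S : C(C.Spec, ℝ) →L[ℝ] C(C.Spec, ℝ)}
    (hX : C.Lifts X S) : C.Lifts (c • X) (c • S) := fun v => by
  rw [smul_apply, smul_apply, hX v, C.vec_smul]

theorem Lifts.sub {X Y : C.L →L[ℂ] C.L} {S T : C(C.Spec, ℝ) →L[ℝ] C(C.Spec, ℝ)}
    (hX : C.Lifts X S) (hY : C.Lifts Y T) : C.Lifts (X - Y) (S - T) := by
  rw [sub_eq_add_neg, sub_eq_add_neg, ← neg_one_smul ℝ Y, ← neg_one_smul ℝ T]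
  exact hX.add (hY.smul _)

theorem Lifts.mul {X Y : C.L →L[ℂ] C.L} {S T : C(C.Spec, ℝ) →L[ℝ] C(C.Spec, ℝ)}
    (hX : C.Lifts X S) (hY : C.Lifts Y T) : C.Lifts (X * Y) (S * T) := fun v =>
  (congrArg X (hY v)).trans (hX _)

theorem Lifts.pow {X : C.L →L[ℂ] C.L} {S : C(C.Spec, ℝ) →L[ℝ] C(C.Spec, ℝ)}
    (hX : C.Lifts X S) : ∀ n : ℕ, C.Lifts (X ^ n) (S ^ n)
  | 0 => by simpa using Lifts.one
  | n + 1 => by rw [pow_succ, pow_succ]; exact (hX.pow n).mul hX

theorem Lifts.sum {ι : Type*} (t : Finset ι) {X : ι → C.L →L[ℂ] C.L}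
    {S : ι → C(C.Spec, ℝ) →L[ℝ] C(C.Spec, ℝ)} (h : ∀ i ∈ t, C.Lifts (X i) (S i)) :
    C.Lifts (∑ i ∈ t, X i) (∑ i ∈ t, S i) := by
  classical
  induction t using Finset.induction_on with
  | empty => simpa using Lifts.zero
  | @insert i t hi ih =>
    rw [Finset.sum_insert hi, Finset.sum_insert hi]
    exact (h i (Finset.mem_insert_self i t)).add
      (ih fun j hj => h j (Finset.mem_insert_of_mem hj))

theorem Lifts.inner {X : C.L →L[ℂ] C.L} {S : C(C.Spec, ℝ) →L[ℝ] C(C.Spec, ℝ)}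
    (hX : C.Lifts X S) (v w : C(C.Spec, ℝ)) :
    ⟪C.vec v, X (C.vec w)⟫_ℂ = (C.intA (v * S w) : ℂ) := by rw [hX w, C.inner_vec]

/-- A selfadjoint lift is symmetric on symbols. -/
theorem Lifts.symm {X : C.L →L[ℂ] C.L} {S : C(C.Spec, ℝ) →L[ℝ] C(C.Spec, ℝ)}
    (hX : C.Lifts X S) (hs : IsSelfAdjoint X) (v w : C(C.Spec, ℝ)) :
    C.intA (v * S w) = C.intA (S v * w) := by
  have h := hs.isSymmetric (C.vec v) (C.vec w)
  change ⟪X (C.vec v), C.vec w⟫_ℂ = ⟪C.vec v, X (C.vec w)⟫_ℂ at h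
  rw [hX.inner, hX v, C.inner_vec] at h
  exact_mod_cast h.symm

/-- Positivity of a selfadjoint lift can be tested on real symbols. -/
theorem Lifts.nonneg {X : C.L →L[ℂ] C.L} {S : C(C.Spec, ℝ) →L[ℝ] C(C.Spec, ℝ)}
    (hX : C.Lifts X S) (hs : IsSelfAdjoint X) (h : ∀ v, 0 ≤ C.intA (v * S v)) : 0 ≤ X := by
  rw [ContinuousLinearMap.nonneg_iff_isPositive, ContinuousLinearMap.isPositive_def']
  refine ⟨hs, fun x => ?_⟩
  rw [ContinuousLinearMap.reApplyInnerSelf_apply]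
  refine C.denseRange_em.induction_on x
    (isClosed_le continuous_const (RCLike.continuous_re.comp
      (X.continuous.inner continuous_id))) fun a => ?_
  rw [C.em_decomp a, map_add, map_smul]
  have e : ∀ v w : C(C.Spec, ℝ), ⟪X (C.vec v), C.vec w⟫_ℂ = (C.intA (S v * w) : ℂ) := fun v w => by
    rw [hX v, C.inner_vec]
  simp only [inner_add_left, inner_add_right, inner_smul_left, inner_smul_right, e,
    Complex.conj_I, hX.symm hs (C.re a) (C.im a) |>.symm]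
  have h1 := h (C.re a)
  have h2 := h (C.im a)
  rw [hX.symm hs] at h1 h2
  simp only [RCLike.re_to_complex, Complex.add_re, Complex.mul_re, Complex.mul_im, Complex.add_im, Complex.neg_re,
    Complex.neg_im, Complex.I_re, Complex.I_im, Complex.ofReal_re, Complex.ofReal_im]
  linarith

theorem norm_apply_vec_le {X : C.L →L[ℂ] C.L} {S : C(C.Spec, ℝ) →L[ℝ] C(C.Spec, ℝ)}
    (hX : C.Lifts X S) (hs : IsSelfAdjoint X) {k : ℝ} (hk : ‖S‖ ≤ k) (v : C(C.Spec, ℝ)) :
    ‖X (C.vec v)‖ ≤ k * ‖C.vec v‖ := by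
  have hk0 : 0 ≤ k := (norm_nonneg S).trans hk
  set a := ‖C.vec v‖
  set b := ‖X (C.vec v)‖
  have hmono : ∀ m : ℕ, 0 < m → b ^ (2 ^ m) ≤ a ^ (2 ^ m - 1) * ‖(X ^ (2 ^ m)) (C.vec v)‖ := by
    intro m hm
    induction m, hm using Nat.le_induction with
    | base =>
      have := norm_inner_le_norm (𝕜 := ℂ) (C.vec v) (X (X (C.vec v)))
      have e : ⟪C.vec v, X (X (C.vec v))⟫_ℂ = ⟪X (C.vec v), X (C.vec v)⟫_ℂ :=
        (hs.isSymmetric _ _).symm
      rw [e, inner_self_eq_norm_sq_to_K, norm_pow, RCLike.norm_ofReal, abs_norm] at this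
      simpa [b, a, pow_two] using this
    | succ m hm ih =>
      set N := 2 ^ m
      have hN : 1 ≤ N := Nat.one_le_two_pow
      set w := (X ^ N) (C.vec v)
      have hself : ∀ (j : ℕ) (x y : C.L), ⟪(X ^ j) x, y⟫_ℂ = ⟪x, (X ^ j) y⟫_ℂ := by
        intro j
        induction j with
        | zero => intro x y; simp
        | succ j ihj =>
          intro x y
          calc ⟪(X ^ (j + 1)) x, y⟫_ℂ = ⟪X x, (X ^ j) y⟫_ℂ := by rw [pow_succ]; exact ihj (X x) y
            _ = ⟪x, X ((X ^ j) y)⟫_ℂ := hs.isSymmetric _ _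
            _ = _ := by rw [pow_succ']; rfl
      have h2 : ‖w‖ ^ 2 ≤ a * ‖(X ^ (2 ^ (m + 1))) (C.vec v)‖ := by
        have := norm_inner_le_norm (𝕜 := ℂ) (C.vec v) ((X ^ N) w)
        have e : ⟪C.vec v, (X ^ N) w⟫_ℂ = ⟪w, w⟫_ℂ := (hself N _ _).symm
        rw [e, inner_self_eq_norm_sq_to_K, norm_pow, RCLike.norm_ofReal, abs_norm] at this
        have e2 : (X ^ (2 ^ (m + 1))) (C.vec v) = (X ^ N) w := by
          rw [pow_succ, mul_two, pow_add]
          rfl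
        rw [e2]
        exact this
      calc b ^ (2 ^ (m + 1)) = (b ^ N) ^ 2 := by rw [← pow_mul, pow_succ]
        _ ≤ (a ^ (N - 1) * ‖w‖) ^ 2 := pow_le_pow_left₀ (pow_nonneg (norm_nonneg _) _) ih 2
        _ = (a ^ (N - 1)) ^ 2 * ‖w‖ ^ 2 := mul_pow _ _ _
        _ ≤ (a ^ (N - 1)) ^ 2 * (a * ‖(X ^ (2 ^ (m + 1))) (C.vec v)‖) :=
            mul_le_mul_of_nonneg_left h2 (sq_nonneg _)
        _ = _ := by
            rw [← mul_assoc, ← pow_mul, ← pow_succ]
            congr 2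
            rw [pow_succ]
            omega
  rcases (norm_nonneg (C.vec v)).eq_or_lt with h0 | h0
  · have : C.vec v = 0 := norm_eq_zero.1 h0.symm
    simp [b, a, this]
  by_contra hlt
  push Not at hlt
  set c := ‖v‖ * ‖C.Ω‖ / a
  have hS : ∀ n : ℕ, ‖(S ^ n) v‖ ≤ k ^ n * ‖v‖ := by
    intro n
    induction n with
    | zero => simp
    | succ n ih =>
      rw [pow_succ']
      change ‖S ((S ^ n) v)‖ ≤ _
      calc ‖S ((S ^ n) v)‖ ≤ k * ‖(S ^ n) v‖ := S.le_of_opNorm_le hk _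
        _ ≤ k * (k ^ n * ‖v‖) := mul_le_mul_of_nonneg_left ih hk0
        _ = _ := by ring
  have hb : ∀ m : ℕ, 0 < m → (b / a) ^ (2 ^ m) ≤ k ^ (2 ^ m) * c := by
    intro m hm
    have h3 : ‖(X ^ (2 ^ m)) (C.vec v)‖ ≤ k ^ (2 ^ m) * ‖v‖ * ‖C.Ω‖ := by
      rw [(hX.pow _) v]
      refine le_trans ?_ (mul_le_mul_of_nonneg_right (hS _) (norm_nonneg _))
      refine (pow_le_pow_iff_left₀ (norm_nonneg _) (by positivity) two_ne_zero).1 ?_
      rw [mul_pow]
      exact C.sq_norm_vec_le _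
    have h4 := (hmono m hm).trans (mul_le_mul_of_nonneg_left h3 (pow_nonneg h0.le _))
    have hN : 1 ≤ 2 ^ m := Nat.one_le_two_pow
    rw [div_pow, div_le_iff₀ (pow_pos h0 _)]
    refine h4.trans_eq ?_
    rw [show a ^ (2 ^ m) = a ^ (2 ^ m - 1) * a by rw [← pow_succ]; congr 1; omega]
    simp only [c]
    have ha0 : a ≠ 0 := h0.ne'
    field_simp
  have hq : k < b / a := by rwa [lt_div_iff₀ h0]
  rcases hk0.eq_or_lt with hk1 | hk1
  · have := hb 1 one_pos
    rw [← hk1, zero_pow (by norm_num), zero_mul] at this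
    exact absurd this (not_le.2 (pow_pos (hk1 ▸ hq) _))
  · have hgt : 1 < b / a / k := (one_lt_div hk1).2 hq
    obtain ⟨m, hm⟩ := pow_unbounded_of_one_lt c hgt
    have h5 := hb (m + 1) (Nat.succ_pos m)
    have hle : m ≤ 2 ^ (m + 1) := (Nat.le_succ m).trans (Nat.lt_two_pow_self).le
    have h6 : c < (b / a / k) ^ (2 ^ (m + 1)) := hm.trans_le (pow_le_pow_right₀ hgt.le hle)
    rw [div_pow, lt_div_iff₀ (pow_pos hk1 _)] at h6
    linarith

theorem norm_le_of_lifts {X : C.L →L[ℂ] C.L} {S : C(C.Spec, ℝ) →L[ℝ] C(C.Spec, ℝ)}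
    (hX : C.Lifts X S) (hs : IsSelfAdjoint X) {k : ℝ} (hk : ‖S‖ ≤ k) : ‖X‖ ≤ k := by
  have hk0 : 0 ≤ k := (norm_nonneg S).trans hk
  refine X.opNorm_le_bound hk0 fun x => ?_
  refine C.denseRange_em.induction_on x
    (isClosed_le X.continuous.norm (continuous_const.mul continuous_norm)) fun a => ?_
  have hsq : ∀ v w : C(C.Spec, ℝ),
      ‖C.vec v + Complex.I • C.vec w‖ ^ 2 = ‖C.vec v‖ ^ 2 + ‖C.vec w‖ ^ 2 := fun v w => by
    rw [norm_add_sq (𝕜 := ℂ), inner_smul_right, C.inner_vec, norm_smul]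
    simp
  refine (pow_le_pow_iff_left₀ (norm_nonneg _) (by positivity) two_ne_zero).1 ?_
  rw [C.em_decomp a, map_add, map_smul, hX (C.re a), hX (C.im a), mul_pow, hsq, hsq, mul_add,
    ← mul_pow, ← mul_pow, ← hX (C.re a), ← hX (C.im a)]
  exact add_le_add (pow_le_pow_left₀ (norm_nonneg _) (norm_apply_vec_le hX hs hk _) 2)
    (pow_le_pow_left₀ (norm_nonneg _) (norm_apply_vec_le hX hs hk _) 2)

end Ctx

end Vale.Agent.P078.Finite
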