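import Mathlib

/-!
The resolvent expressions of the potential, in an abstract operator algebra.
-/

noncomputable section

namespace Vale.Agent.P078.Finite

variable {𝔸 : Type*} [CStarAlgebra 𝔸]

/-- The resolvent `(z - σ B)⁻¹` of a selfadjoint element with spectrum inside the gap. -/
def res (z σ : ℝ) (B : 𝔸) : 𝔸 := cfc (fun t : ℝ => (z - σ * t)⁻¹) B

/-- `z⁻¹ y r (z - σ r y r)⁻¹ r y`. -/
def Zo (z σ : ℝ) (r y : 𝔸) : 𝔸 := z⁻¹ • (y * r * res z σ (r * y * r) * r * y)

/-- `(σ y / z) (1 - r r σ y / z)⁻¹`, written without an inverse. -/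
def Zf (z σ : ℝ) (r y : 𝔸) : 𝔸 := (σ / z) • y + Zo z σ r y

/-- The clamp to `[-w, w]`. -/
def clamp (w t : ℝ) : ℝ := max (-w) (min w t)

/-- The coefficient removed by a cut at level `w`. -/
def cutFun (w t : ℝ) : ℝ := (t - clamp w t) / t ^ 2

/-- The cut element: its compression by `r` has norm at most `w`. -/
def cutY (w : ℝ) (r y : 𝔸) : 𝔸 := y - y * r * cfc (cutFun w) (r * y * r) * r * y

/-- The bound for the change made by a cut. -/
def cutP (w : ℝ) (r y : 𝔸) : 𝔸 :=
  y * r * cfc (fun t => |cutFun w t|) (r * y * r) * r * y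

end Vale.Agent.P078.Finite
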