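import Vale.Agent.P078.Resolvent
import Vale.Agent.P078.Finite.ResDefs

/-!
Functional calculus facts for the resolvent expressions: bounds, perturbation of the weight,
monotonicity in the weight and the cut.
-/

noncomputable section

namespace Vale.Agent.P078.Finite

variable {𝔸 : Type*} [CStarAlgebra 𝔸]

theorem norm_one_le_one : ‖(1 : 𝔸)‖ ≤ 1 := by
  have h := CStarRing.norm_star_mul_self (x := (1 : 𝔸))
  rw [star_one, one_mul] at h
  nlinarith [norm_nonneg (1 : 𝔸)]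

theorem real_smul_mem {S : StarSubalgebra ℂ 𝔸} {a : 𝔸} (ha : a ∈ S) (t : ℝ) : t • a ∈ S := by
  rw [← Complex.coe_smul t a]
  exact S.smul_mem ha _

/-- `r y r` has norm at most `z - gam`. -/
structure Gap (z gam : ℝ) (r y : 𝔸) : Prop where
  hr : IsSelfAdjoint r
  hy : IsSelfAdjoint y
  pos : 0 < gam
  le : gam ≤ z
  norm_le : ‖r * y * r‖ ≤ z - gam

theorem isSelfAdjoint_ryr {r y : 𝔸} (hr : IsSelfAdjoint r) (hy : IsSelfAdjoint y) :
    IsSelfAdjoint (r * y * r) := by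
  rw [IsSelfAdjoint, star_mul, star_mul, hr.star_eq, hy.star_eq, mul_assoc]

theorem star_ry {r y : 𝔸} (hr : IsSelfAdjoint r) (hy : IsSelfAdjoint y) : star (r * y) = y * r := by
  rw [star_mul, hr.star_eq, hy.star_eq]

theorem abs_le_of_mem_spectrum {a : 𝔸} (ha : IsSelfAdjoint a) {t : ℝ}
    (ht : t ∈ spectrum ℝ a) : |t| ≤ ‖a‖ := by
  have h := norm_apply_le_norm_cfc (fun x : ℝ => x) a ht (ha := ha)
  rwa [cfc_id' ℝ a ha, Real.norm_eq_abs] at h

namespace Gap

variable {z gam σ : ℝ} {r y : 𝔸}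

theorem z_pos (h : Gap z gam r y) : 0 < z := h.pos.trans_le h.le

theorem sa (h : Gap z gam r y) : IsSelfAdjoint (r * y * r) := isSelfAdjoint_ryr h.hr h.hy

theorem gam_le (h : Gap z gam r y) (hσ : |σ| = 1) {t : ℝ}
    (ht : t ∈ spectrum ℝ (r * y * r)) : gam ≤ z - σ * t := by
  have h1 : σ * t ≤ |t| := by
    refine (le_abs_self _).trans_eq ?_
    rw [abs_mul, hσ, one_mul]
  linarith [abs_le_of_mem_spectrum h.sa ht, h.norm_le]

theorem contOn (h : Gap z gam r y) (hσ : |σ| = 1) :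
    ContinuousOn (fun t : ℝ => (z - σ * t)⁻¹) (spectrum ℝ (r * y * r)) :=
  ContinuousOn.inv₀ (by fun_prop) fun _ ht => (h.pos.trans_le (h.gam_le hσ ht)).ne'

theorem affine_eq (h : Gap z gam r y) :
    cfc (fun t : ℝ => z - σ * t) (r * y * r) = z • (1 : 𝔸) - σ • (r * y * r) := by
  rw [cfc_sub (fun _ => z) (fun t => σ * t) (r * y * r), cfc_const z (r * y * r) h.sa,
    cfc_const_mul σ (fun t : ℝ => t) (r * y * r), cfc_id' ℝ (r * y * r) h.sa,
    Algebra.algebraMap_eq_smul_one]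

theorem isResolvent (h : Gap z gam r y) (hσ : |σ| = 1) :
    IsResolvent z σ y r (res z σ (r * y * r)) := by
  have hc := h.contOn hσ
  have key : ∀ t ∈ spectrum ℝ (r * y * r), (z - σ * t)⁻¹ * (z - σ * t) = 1 := fun t ht =>
    inv_mul_cancel₀ (h.pos.trans_le (h.gam_le hσ ht)).ne'
  constructor
  · rw [← h.affine_eq, res, ← cfc_mul _ _ (r * y * r) hc (by fun_prop),
      cfc_congr key, cfc_const_one ℝ (r * y * r) h.sa]
  · rw [← h.affine_eq, res, ← cfc_mul _ _ (r * y * r) (by fun_prop) hc,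
      cfc_congr (fun t ht => (mul_comm _ _).trans (key t ht)), cfc_const_one ℝ (r * y * r) h.sa]

theorem commute_res (σ : ℝ) (h : Gap z gam r y) :
    Commute (r * y * r) (res z σ (r * y * r)) := by
  have := cfc_commute_cfc (fun t : ℝ => t) (fun t : ℝ => (z - σ * t)⁻¹) (r * y * r)
  rwa [cfc_id' ℝ (r * y * r) h.sa] at this

end Gap

section

variable {z σ : ℝ} {r y : 𝔸}

theorem res_sa (z σ : ℝ) (B : 𝔸) : IsSelfAdjoint (res z σ B) := cfc_predicate _ _

theorem star_conj_eq (hr : IsSelfAdjoint r) (hy : IsSelfAdjoint y) {T : 𝔸} (hT : star T = T) :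
    star (y * r * T * r * y) = y * r * T * r * y := by
  simp only [star_mul, hr.star_eq, hy.star_eq, hT, mul_assoc]

theorem star_cfc (f : ℝ → ℝ) (a : 𝔸) : star (cfc f a) = cfc f a := (cfc_predicate f a).star_eq

theorem Zo_sa (hr : IsSelfAdjoint r) (hy : IsSelfAdjoint y) : IsSelfAdjoint (Zo z σ r y) := by
  rw [Zo, IsSelfAdjoint]
  simp only [star_smul, star_trivial, star_mul, hr.star_eq, hy.star_eq, (res_sa _ _ _).star_eq,
    mul_assoc]

theorem Zf_sa (hr : IsSelfAdjoint r) (hy : IsSelfAdjoint y) : IsSelfAdjoint (Zf z σ r y) := by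
  rw [Zf, IsSelfAdjoint, star_add, star_smul, star_trivial, hy.star_eq, (Zo_sa hr hy).star_eq]

theorem cutY_sa (w : ℝ) (hr : IsSelfAdjoint r) (hy : IsSelfAdjoint y) :
    IsSelfAdjoint (cutY w r y) := by
  rw [cutY, IsSelfAdjoint, star_sub, star_conj_eq hr hy (star_cfc _ _), hy.star_eq]

theorem cutP_sa (w : ℝ) (hr : IsSelfAdjoint r) (hy : IsSelfAdjoint y) :
    IsSelfAdjoint (cutP w r y) := by
  rw [cutP, IsSelfAdjoint, star_conj_eq hr hy (star_cfc _ _)]

theorem Zf_eq_resZ (z σ : ℝ) (r y : 𝔸) :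
    Zf z σ r y = resZ z σ y r (res z σ (r * y * r)) := by
  rw [Zf, Zo, resZ, one_div]

theorem Zf_sub_Zo (z σ : ℝ) (r r' y : 𝔸) :
    Zf z σ r' y - Zo z σ r' y = Zf z σ r y - Zo z σ r y := by
  simp [Zf]

variable {S : StarSubalgebra ℂ 𝔸}

theorem cfc_mem_closed (hS : IsClosed (S : Set 𝔸)) {a : 𝔸} (f : ℝ → ℝ) (ha : a ∈ S) :
    cfc f a ∈ S :=
  cfc_mem (𝕜' := ℂ) (hs := hS) f ha

theorem res_mem (hS : IsClosed (S : Set 𝔸)) {B : 𝔸} (hB : B ∈ S) (z σ : ℝ) : res z σ B ∈ S :=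
  cfc_mem_closed hS _ hB

theorem Zo_mem (hS : IsClosed (S : Set 𝔸)) (hr : r ∈ S) (hy : y ∈ S) (z σ : ℝ) :
    Zo z σ r y ∈ S :=
  real_smul_mem (mul_mem (mul_mem (mul_mem (mul_mem hy hr)
    (res_mem hS (mul_mem (mul_mem hr hy) hr) z σ)) hr) hy) _

theorem Zf_mem (hS : IsClosed (S : Set 𝔸)) (hr : r ∈ S) (hy : y ∈ S) (z σ : ℝ) :
    Zf z σ r y ∈ S :=
  add_mem (real_smul_mem hy _) (Zo_mem hS hr hy z σ)

theorem cutY_mem (hS : IsClosed (S : Set 𝔸)) (hr : r ∈ S) (hy : y ∈ S) (w : ℝ) :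
    cutY w r y ∈ S :=
  sub_mem hy (mul_mem (mul_mem (mul_mem (mul_mem hy hr)
    (cfc_mem_closed hS _ (mul_mem (mul_mem hr hy) hr))) hr) hy)

theorem cutP_mem (hS : IsClosed (S : Set 𝔸)) (hr : r ∈ S) (hy : y ∈ S) (w : ℝ) :
    cutP w r y ∈ S :=
  mul_mem (mul_mem (mul_mem (mul_mem hy hr)
    (cfc_mem_closed hS _ (mul_mem (mul_mem hr hy) hr))) hr) hy

end

/-! ### Order -/

variable [PartialOrder 𝔸] [StarOrderedRing 𝔸]
variable {z gam σ : ℝ} {r y : 𝔸}

theorem conj_mono (hr : IsSelfAdjoint r) (hy : IsSelfAdjoint y) {a b : 𝔸} (h : a ≤ b) :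
    y * r * a * r * y ≤ y * r * b * r * y := by
  have := star_left_conjugate_le_conjugate h (r * y)
  simpa only [star_ry hr hy, ← mul_assoc] using this

theorem conj_nonneg' (hr : IsSelfAdjoint r) (hy : IsSelfAdjoint y) {a : 𝔸} (h : 0 ≤ a) :
    0 ≤ y * r * a * r * y := by
  simpa using conj_mono hr hy h

namespace Gap

theorem res_nonneg (h : Gap z gam r y) (hσ : |σ| = 1) : 0 ≤ res z σ (r * y * r) :=
  cfc_nonneg fun _ ht => (inv_pos.2 (h.pos.trans_le (h.gam_le hσ ht))).le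

theorem res_le (h : Gap z gam r y) (hσ : |σ| = 1) :
    res z σ (r * y * r) ≤ gam⁻¹ • (1 : 𝔸) := by
  rw [← Algebra.algebraMap_eq_smul_one]
  exact cfc_le_algebraMap _ _ _ (fun t ht => inv_anti₀ h.pos (h.gam_le hσ ht)) (h.contOn hσ) h.sa

omit [PartialOrder 𝔸] [StarOrderedRing 𝔸] in
theorem norm_res_le (h : Gap z gam r y) (hσ : |σ| = 1) : ‖res z σ (r * y * r)‖ ≤ gam⁻¹ := by
  refine norm_cfc_le (inv_nonneg.2 h.pos.le) fun t ht => ?_
  rw [Real.norm_eq_abs, abs_of_pos (inv_pos.2 (h.pos.trans_le (h.gam_le hσ ht)))]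
  exact inv_anti₀ h.pos (h.gam_le hσ ht)

theorem res_sq_le (h : Gap z gam r y) (hσ : |σ| = 1) :
    res z σ (r * y * r) * res z σ (r * y * r) ≤ gam⁻¹ • res z σ (r * y * r) := by
  have hc := h.contOn hσ
  rw [res, ← cfc_mul _ _ (r * y * r) hc hc, ← cfc_smul gam⁻¹ _ (r * y * r) hc]
  refine cfc_mono (fun t ht => ?_) (hc.mul hc) (hc.const_smul gam⁻¹)
  exact mul_le_mul_of_nonneg_right (inv_anti₀ h.pos (h.gam_le hσ ht))
    (inv_pos.2 (h.pos.trans_le (h.gam_le hσ ht))).le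

theorem Zo_nonneg (h : Gap z gam r y) (hσ : |σ| = 1) : 0 ≤ Zo z σ r y :=
  smul_nonneg (inv_nonneg.2 h.z_pos.le) (conj_nonneg' h.hr h.hy (h.res_nonneg hσ))

theorem sigma_sq (hσ : |σ| = 1) : σ * σ = 1 := by rw [← abs_mul_abs_self, hσ, one_mul]

omit [PartialOrder 𝔸] [StarOrderedRing 𝔸] in
theorem r_Zf_r (h : Gap z gam r y) (hσ : |σ| = 1) :
    r * Zf z σ r y * r = z • res z σ (r * y * r) - 1 := by
  rw [Zf_eq_resZ]
  exact (h.isResolvent hσ).r_resZ_r h.z_pos.ne' (sigma_sq hσ)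

theorem Zf_rr_Zf_le (h : Gap z gam r y) (hσ : |σ| = 1) :
    Zf z σ r y * (r * r) * Zf z σ r y ≤ (z / gam) • Zo z σ r y := by
  rw [Zf_eq_resZ, (h.isResolvent hσ).resZ_R_resZ h.z_pos.ne' (sigma_sq hσ)]
  refine (conj_mono h.hr h.hy (h.res_sq_le hσ)).trans_eq ?_
  rw [Zo, mul_smul_comm, smul_mul_assoc, smul_mul_assoc, smul_smul]
  congr 1
  field_simp [h.z_pos.ne']

omit [PartialOrder 𝔸] [StarOrderedRing 𝔸] in
theorem norm_r_Zf_r_le (h : Gap z gam r y) (hσ : |σ| = 1) :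
    ‖r * Zf z σ r y * r‖ ≤ 2 * (z / gam) := by
  rw [h.r_Zf_r hσ]
  have h1 : 1 ≤ z / gam := (one_le_div h.pos).2 h.le
  calc ‖z • res z σ (r * y * r) - 1‖ ≤ ‖z • res z σ (r * y * r)‖ + ‖(1 : 𝔸)‖ := norm_sub_le _ _
    _ ≤ z * gam⁻¹ + 1 := by
        gcongr
        · rw [norm_smul, Real.norm_eq_abs, abs_of_pos h.z_pos]
          exact mul_le_mul_of_nonneg_left (h.norm_res_le hσ) h.z_pos.le
        · exact norm_one_le_one
    _ ≤ 2 * (z / gam) := by rw [← div_eq_mul_inv]; linarith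

/-- The form `Zf r X r Zf` is controlled by `Zo`. -/
theorem Zf_conj_le (h : Gap z gam r y) (hσ : |σ| = 1) {X : 𝔸} (hX : IsSelfAdjoint X) :
    -((‖X‖ * (z / gam)) • Zo z σ r y) ≤ Zf z σ r y * r * X * r * Zf z σ r y ∧
      Zf z σ r y * r * X * r * Zf z σ r y ≤ (‖X‖ * (z / gam)) • Zo z σ r y := by
  set Z := Zf z σ r y with hZ
  have hZs : star Z = Z := (Zf_sa h.hr h.hy).star_eq
  have hst : star (r * Z) = Z * r := by rw [star_mul, hZs, h.hr.star_eq]
  have e : ∀ t : ℝ, star (r * Z) * algebraMap ℝ 𝔸 t * (r * Z) = t • (Z * (r * r) * Z) := fun t => by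
    rw [hst, Algebra.algebraMap_eq_smul_one]
    simp only [mul_smul_comm, smul_mul_assoc, mul_one, mul_assoc]
  have e' : star (r * Z) * X * (r * Z) = Z * r * X * r * Z := by
    rw [hst]; simp only [mul_assoc]
  have hb := smul_le_smul_of_nonneg_left (h.Zf_rr_Zf_le hσ) (norm_nonneg X)
  rw [smul_smul, ← hZ] at hb
  constructor
  · have h1 := star_left_conjugate_le_conjugate hX.neg_algebraMap_norm_le_self (r * Z)
    rw [← map_neg, e, e', neg_smul] at h1
    exact (neg_le_neg hb).trans h1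
  · have h1 := star_left_conjugate_le_conjugate hX.le_algebraMap_norm_self (r * Z)
    rw [e, e'] at h1
    exact h1.trans hb

omit [PartialOrder 𝔸] [StarOrderedRing 𝔸] in
theorem mul_gap {c : 𝔸} (h : Gap z gam r y) (hc : IsSelfAdjoint c) (hrc : Commute r c)
    {gam' : ℝ} (h0 : 0 < gam') (h1 : gam' ≤ z) (h2 : ‖c‖ ^ 2 * (z - gam) ≤ z - gam') :
    Gap z gam' (r * c) y ∧ r * c * y * (r * c) = c * (r * y * r) * c := by
  have e : r * c * y * (r * c) = c * (r * y * r) * c := by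
    conv_lhs => rw [hrc.eq]
    rw [← hrc.eq]
    conv_lhs => arg 1; arg 1; rw [hrc.eq]
    simp only [mul_assoc]
  refine ⟨⟨?_, h.hy, h0, h1, ?_⟩, e⟩
  · rw [IsSelfAdjoint, star_mul, hc.star_eq, h.hr.star_eq, hrc.eq]
  · rw [e]
    calc ‖c * (r * y * r) * c‖ ≤ ‖c‖ * ‖r * y * r‖ * ‖c‖ :=
          (norm_mul_le _ _).trans (mul_le_mul_of_nonneg_right (norm_mul_le _ _) (norm_nonneg _))
      _ = ‖c‖ ^ 2 * ‖r * y * r‖ := by ring
      _ ≤ ‖c‖ ^ 2 * (z - gam) := mul_le_mul_of_nonneg_left h.norm_le (sq_nonneg _)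
      _ ≤ z - gam' := h2

omit [PartialOrder 𝔸] [StarOrderedRing 𝔸] in
theorem gap_perturb {c : 𝔸} (h : Gap z gam r y) (hc : IsSelfAdjoint c) (hrc : Commute r c)
    (hx : ‖c * c - 1‖ * (2 * (z / gam)) ≤ 1 / 2) :
    Gap z (gam / 2) (r * c) y ∧ r * c * y * (r * c) = c * (r * y * r) * c := by
  refine h.mul_gap hc hrc (half_pos h.pos) (by linarith [h.pos, h.le]) ?_
  have h1 : ‖c * c‖ = ‖c‖ ^ 2 := by
    conv_lhs => enter [1, 1]; rw [← hc.star_eq]
    rw [CStarRing.norm_star_mul_self, sq]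
  have h2 : ‖c‖ ^ 2 ≤ 1 + ‖c * c - 1‖ := by
    rw [← h1]
    calc ‖c * c‖ = ‖(c * c - 1) + 1‖ := by rw [sub_add_cancel]
      _ ≤ ‖c * c - 1‖ + ‖(1 : 𝔸)‖ := norm_add_le _ _
      _ ≤ 1 + ‖c * c - 1‖ := by linarith [norm_one_le_one (𝔸 := 𝔸)]
  have h3 : ‖c * c - 1‖ * z ≤ gam / 4 := by
    have := hx
    rw [← mul_div_assoc, ← mul_div_assoc, div_le_iff₀ h.pos] at this
    linarith
  nlinarith [h.norm_le, norm_nonneg (r * y * r), h.pos, norm_nonneg (c * c - 1)]

omit [PartialOrder 𝔸] [StarOrderedRing 𝔸] in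
/-- Second order expansion in the weight, with a cubic remainder. -/
theorem perturb {c : 𝔸} (h : Gap z gam r y) (hσ : |σ| = 1) (hc : IsSelfAdjoint c)
    (hrc : Commute r c) (hx : ‖c * c - 1‖ * (2 * (z / gam)) ≤ 1 / 2) :
    ∃ Q : 𝔸, IsSelfAdjoint Q ∧ ‖Q‖ ≤ 8 * (z / gam) ^ 2 * ‖c * c - 1‖ ^ 3 ∧
      Zf z σ (r * c) y = Zf z σ r y + Zf z σ r y * r * (c * c - 1) * r * Zf z σ r y
        + Zf z σ r y * r * ((c * c - 1) * (r * Zf z σ r y * r) * (c * c - 1)) * r * Zf z σ r y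
        + Zf z σ r y * r * Q * r * Zf z σ r y := by
  obtain ⟨h', -⟩ := h.gap_perturb hc hrc hx
  set x := c * c - 1 with hxdef
  have hW : IsSelfAdjoint (Zf z σ (r * c) y) := Zf_sa h'.hr h'.hy
  have hZ : IsSelfAdjoint (Zf z σ r y) := Zf_sa h.hr h.hy
  have hxs : star x = x := by rw [hxdef, star_sub, star_mul, star_one, hc.star_eq]
  set Z := Zf z σ r y with hZdef
  set W := Zf z σ (r * c) y with hWdef
  have hX : r * c * (r * c) - r * r = r * x * r := by
    rw [hxdef, mul_sub, sub_mul, mul_one]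
    congr 1
    conv_lhs => arg 2; rw [hrc.eq]
    simp only [mul_assoc]
  have h1 : W - Z = W * (r * x * r) * Z := by
    rw [hWdef, hZdef, Zf_eq_resZ, Zf_eq_resZ, ← hX]
    exact (h.isResolvent hσ).resZ_sub (h'.isResolvent hσ) h.z_pos.ne' (sigma_sq hσ)
  have h2 : W = Z + Z * (r * x * r) * W := by
    have := congrArg star h1
    simp only [star_sub, star_mul, hW.star_eq, hZ.star_eq, h.hr.star_eq, hxs] at this
    rw [sub_eq_iff_eq_add'] at this
    simpa only [mul_assoc] using this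
  set N := r * Z * r with hN
  set N' := r * W * r with hN'
  have hNN : N' = N + N * x * N' := by
    rw [hN']
    conv_lhs => rw [h2]
    simp only [hN, mul_add, add_mul, mul_assoc]
  set Q₀ := (x + x * N' * x) * N * x * N * x with hQ₀
  have h3 : W * (r * x * r) * Z * (r * x * r) * Z * (r * x * r) * Z = Z * r * Q₀ * r * Z := by
    have e : W * (r * x * r) = Z * r * (x + x * N' * x) * r := by
      conv_lhs => rw [h2]
      simp only [hN', mul_add, add_mul, mul_assoc]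
    rw [e, hQ₀, hN]
    simp only [mul_assoc]
  have h4 : Z * (r * x * r) * Z * (r * x * r) * Z = Z * r * (x * N * x) * r * Z := by
    simp only [hN, mul_assoc]
  have h5 : W = Z + Z * r * x * r * Z + Z * r * (x * N * x) * r * Z + Z * r * Q₀ * r * Z := by
    have := expand_two h1
    rw [h3, h4] at this
    simpa only [mul_assoc] using this
  have hT : star (Z * r * Q₀ * r * Z) = Z * r * Q₀ * r * Z := by
    have e : Z * r * Q₀ * r * Z = W - Z - Z * r * x * r * Z - Z * r * (x * N * x) * r * Z := by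
      rw [h5]; abel
    rw [e]
    simp only [hN, star_sub, star_mul, hW.star_eq, hZ.star_eq, h.hr.star_eq, hxs, mul_assoc]
  refine ⟨(1 / 2 : ℝ) • (Q₀ + star Q₀), (IsSelfAdjoint.all (1 / 2 : ℝ)).smul
    (IsSelfAdjoint.add_star_self Q₀), ?_, ?_⟩
  · have hN2 : ‖N‖ ≤ 2 * (z / gam) := h.norm_r_Zf_r_le hσ
    have hNx : ‖N‖ * ‖x‖ ≤ 1 / 2 :=
      (mul_le_mul_of_nonneg_right hN2 (norm_nonneg _)).trans (by linarith)
    have hN'2 : ‖N'‖ ≤ 2 * ‖N‖ := by
      have : ‖N'‖ ≤ ‖N‖ + ‖N‖ * ‖x‖ * ‖N'‖ := by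
        conv_lhs => rw [hNN]
        refine (norm_add_le _ _).trans (add_le_add le_rfl ?_)
        exact (norm_mul_le _ _).trans
          (mul_le_mul_of_nonneg_right (norm_mul_le _ _) (norm_nonneg _))
      nlinarith [norm_nonneg N', norm_nonneg N, norm_nonneg x]
    have hQ : ‖Q₀‖ ≤ 8 * (z / gam) ^ 2 * ‖x‖ ^ 3 := by
      have a : ‖x + x * N' * x‖ ≤ 2 * ‖x‖ := by
        have b : ‖N'‖ * ‖x‖ ≤ 1 :=
          (mul_le_mul_of_nonneg_right hN'2 (norm_nonneg _)).trans (by linarith)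
        calc ‖x + x * N' * x‖ ≤ ‖x‖ + ‖x‖ * ‖N'‖ * ‖x‖ :=
              (norm_add_le _ _).trans (add_le_add le_rfl ((norm_mul_le _ _).trans
                (mul_le_mul_of_nonneg_right (norm_mul_le _ _) (norm_nonneg _))))
          _ ≤ 2 * ‖x‖ := by nlinarith [norm_nonneg x]
      calc ‖Q₀‖ ≤ ‖x + x * N' * x‖ * ‖N‖ * ‖x‖ * ‖N‖ * ‖x‖ :=
            (norm_mul_le _ _).trans (mul_le_mul_of_nonneg_right ((norm_mul_le _ _).trans
              (mul_le_mul_of_nonneg_right ((norm_mul_le _ _).trans (mul_le_mul_of_nonneg_right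
                (norm_mul_le _ _) (norm_nonneg _))) (norm_nonneg _))) (norm_nonneg _))
        _ = ‖x + x * N' * x‖ * ‖N‖ ^ 2 * ‖x‖ ^ 2 := by ring
        _ ≤ 2 * ‖x‖ * (2 * (z / gam)) ^ 2 * ‖x‖ ^ 2 := by gcongr
        _ = 8 * (z / gam) ^ 2 * ‖x‖ ^ 3 := by ring
    calc ‖(1 / 2 : ℝ) • (Q₀ + star Q₀)‖ = 1 / 2 * ‖Q₀ + star Q₀‖ := by
          rw [norm_smul]; norm_num
      _ ≤ 1 / 2 * (‖Q₀‖ + ‖Q₀‖) := by
          gcongr
          exact (norm_add_le _ _).trans_eq (by rw [norm_star])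
      _ ≤ 8 * (z / gam) ^ 2 * ‖x‖ ^ 3 := by linarith
  · have e : Z * r * ((1 / 2 : ℝ) • (Q₀ + star Q₀)) * r * Z = Z * r * Q₀ * r * Z := by
      have e' : Z * r * star Q₀ * r * Z = star (Z * r * Q₀ * r * Z) := by
        simp only [star_mul, hZ.star_eq, h.hr.star_eq, mul_assoc]
      simp only [mul_add, add_mul, mul_smul_comm, smul_mul_assoc, e', hT]
      rw [← two_smul ℝ, smul_smul]
      norm_num
    rw [e]
    exact h5

/-- Compressing the weight by a contraction commuting with it decreases `Zo`. -/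
theorem Zo_mul_le {c : 𝔸} (h : Gap z gam r y) (hσ : |σ| = 1) (hc : IsSelfAdjoint c)
    (hrc : Commute r c) (hc1 : ‖c‖ ≤ 1) :
    Gap z gam (r * c) y ∧ Zo z σ (r * c) y ≤ Zo z σ r y := by
  obtain ⟨h', e⟩ := h.mul_gap hc hrc h.pos h.le (by
    have : ‖c‖ ^ 2 ≤ 1 := pow_le_one₀ (norm_nonneg _) hc1
    nlinarith [(norm_nonneg (r * y * r)).trans h.norm_le])
  refine ⟨h', ?_⟩
  set B := r * y * r with hB
  have hR := h.isResolvent hσ
  have hR' := h'.isResolvent hσ
  set A := z • (1 : 𝔸) - σ • B with hA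
  set G := res z σ (r * c * y * (r * c)) with hG
  set I := res z σ B with hI
  have hA0 : 0 ≤ A := by
    rw [hA, hB, ← h.affine_eq]
    exact cfc_nonneg fun t ht => (h.pos.trans_le (h.gam_le hσ ht)).le
  have hcc : 0 ≤ 1 - c * c := by
    have h0 : 0 ≤ c * c := hc.mul_self_nonneg
    rw [sub_nonneg, ← CStarAlgebra.norm_le_one_iff_of_nonneg _ h0]
    calc ‖c * c‖ ≤ ‖c‖ * ‖c‖ := norm_mul_le _ _
      _ ≤ 1 := mul_le_one₀ hc1 (norm_nonneg _) hc1
  have hGs : star G = G := (res_sa _ _ _).star_eq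
  have hIs : star I = I := (res_sa _ _ _).star_eq
  set D := c * G * c - I with hD
  have hDs : star D = D := by
    simp only [hD, star_sub, star_mul, hGs, hIs, hc.star_eq, mul_assoc]
  have key : I - c * G * c = star D * A * D + z • (star (G * c) * (1 - c * c) * (G * c)) := by
    have hAI : A * I = 1 := hR.right
    have hIA : I * A = 1 := hR.left
    have hGD : (z • (1 : 𝔸) - σ • (c * B * c)) * G = 1 := by
      rw [← e]
      exact hR'.right
    have e1 : c * A * c = (z • (1 : 𝔸) - σ • (c * B * c)) - z • (1 - c * c) := by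
      simp only [hA, mul_sub, sub_mul, smul_sub, mul_smul_comm, smul_mul_assoc, mul_one]
      abel
    have e2 : star D * A * D =
        c * G * (c * A * c) * G * c - c * G * c * (A * I) - I * A * (c * G * c) + I * (A * I) := by
      rw [hDs, hD]
      simp only [mul_sub, sub_mul, mul_assoc]
      abel
    have e3 : c * G * (c * A * c) * G * c =
        c * G * c - z • (star (G * c) * (1 - c * c) * (G * c)) := by
      rw [e1]
      simp only [mul_sub, sub_mul, star_mul, hGs, hc.star_eq, mul_smul_comm, smul_mul_assoc]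
      have : c * G * (z • (1 : 𝔸) - σ • (c * B * c)) * G * c = c * G * c := by
        rw [mul_assoc (c * G), hGD, mul_one]
      simp only [mul_sub, sub_mul, mul_smul_comm, smul_mul_assoc, mul_one, smul_sub,
        ← mul_assoc] at this ⊢
      rw [this]
    rw [e2, e3, hAI, hIA]
    simp only [one_mul, mul_one]
    abel
  have h0 : c * G * c ≤ I := by
    rw [← sub_nonneg, key]
    exact add_nonneg (star_left_conjugate_nonneg hA0 D)
      (smul_nonneg h.z_pos.le (star_left_conjugate_nonneg hcc (G * c)))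
  have := smul_le_smul_of_nonneg_left (conj_mono h.hr h.hy h0) (inv_nonneg.2 h.z_pos.le)
  refine le_of_eq_of_le ?_ this
  rw [Zo, ← hG]
  congr 1
  conv_lhs => arg 1; arg 2; rw [hrc.eq]
  simp only [mul_assoc]

end Gap

/-! ### The cut -/

section cut

variable {w t : ℝ}

theorem clamp_abs_le (hw : 0 ≤ w) : |clamp w t| ≤ w :=
  abs_le.2 ⟨le_max_left _ _, max_le (by linarith) (min_le_left _ _)⟩

theorem clamp_of_abs_le (h : |t| ≤ w) : clamp w t = t := by
  rw [abs_le] at h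
  rw [clamp, min_eq_right h.2, max_eq_right h.1]

theorem continuous_cutFun (hw : 0 < w) : Continuous (cutFun w) := by
  have e : cutFun w = fun t => (t - clamp w t) / max (t ^ 2) (w ^ 2) := by
    funext t
    rcases le_total |t| w with h | h
    · simp [cutFun, clamp_of_abs_le h]
    · rw [cutFun, max_eq_left]
      nlinarith [sq_abs t]
  rw [e]
  refine Continuous.div ?_ (by fun_prop) fun t => ?_
  · unfold clamp; fun_prop
  · exact (lt_of_lt_of_le (by positivity) (le_max_right _ _)).ne'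

theorem mul_theta (hw : 0 < w) (t : ℝ) : t * (1 - t * cutFun w t) = clamp w t := by
  rcases eq_or_ne t 0 with rfl | h
  · rw [zero_mul, clamp_of_abs_le]
    simpa using hw.le
  · unfold cutFun
    field_simp
    ring

theorem theta_mem (hw : 0 < w) (t : ℝ) :
    0 ≤ 1 - t * cutFun w t ∧ 1 - t * cutFun w t ≤ 1 := by
  rcases le_total |t| w with h | h
  · simp [cutFun, clamp_of_abs_le h]
  · have ht : t ≠ 0 := fun h0 => by simp [h0] at h; linarith
    have e : 1 - t * cutFun w t = clamp w t / t := by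
      rw [eq_div_iff ht, mul_comm, mul_theta hw]
    rw [e]
    rcases le_total 0 t with h0 | h0
    · rw [abs_of_nonneg h0] at h
      rw [clamp, min_eq_left h, max_eq_right (by linarith)]
      exact ⟨div_nonneg hw.le h0, div_le_one_of_le₀ h h0⟩
    · rw [abs_of_nonpos h0] at h
      rw [clamp, min_eq_right (by linarith), max_eq_left (by linarith), neg_div, ← div_neg]
      exact ⟨div_nonneg hw.le (by linarith), div_le_one_of_le₀ h (by linarith)⟩

/-- The one variable inequality behind monotonicity of the cut. -/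
theorem theta_sq_le {θ : ℝ} (h0 : 0 ≤ θ) (h1 : θ ≤ 1) {z s : ℝ} (hz : 0 < z) (hs : s < z) :
    θ ^ 2 * (z - θ * s)⁻¹ ≤ (z - s)⁻¹ := by
  have hp : 0 < z - θ * s := by
    rcases le_total 0 s with h | h <;> nlinarith [mul_le_mul_of_nonneg_right h1 (abs_nonneg s)]
  rw [← div_eq_mul_inv, inv_eq_one_div, div_le_div_iff₀ hp (by linarith)]
  nlinarith [mul_nonneg (sub_nonneg.2 h1) (show 0 ≤ z * (1 + θ) - θ * s by nlinarith)]

theorem theta_sq_le' (hw : 0 < w) {z σ : ℝ} (hσ : |σ| = 1) (hz : 0 < z) (ht : |t| < z) :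
    (1 - t * cutFun w t) ^ 2 * (z - σ * clamp w t)⁻¹ ≤ (z - σ * t)⁻¹ := by
  have hs : σ * t < z := by
    refine (le_abs_self _).trans_lt ?_
    rwa [abs_mul, hσ, one_mul]
  have := theta_sq_le (theta_mem hw t).1 (theta_mem hw t).2 hz hs
  rwa [show (1 - t * cutFun w t) * (σ * t) = σ * clamp w t by rw [← mul_theta hw t]; ring] at this

/-- The removed coefficient is at most `2 gam` times the drop of the two resolvents. -/
theorem cutFun_abs_le {z gam : ℝ} (hg : 0 < gam) (hg2 : gam ≤ z / 2) (ht : |t| < z) :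
    |cutFun (z - gam) t| ≤ 2 * gam * z⁻¹ *
      (((z - 1 * t)⁻¹ - (1 - t * cutFun (z - gam) t) ^ 2 * (z - 1 * clamp (z - gam) t)⁻¹) +
      ((z - (-1) * t)⁻¹ - (1 - t * cutFun (z - gam) t) ^ 2 *
        (z - (-1) * clamp (z - gam) t)⁻¹)) := by
  set w := z - gam with hw'
  have hw : 0 < w := by linarith
  have hz : 0 < z := by linarith
  have hp := theta_sq_le' hw (σ := 1) (by norm_num) hz ht
  have hn := theta_sq_le' hw (σ := -1) (by norm_num) hz ht
  have hθ : (1 - t * cutFun w t) ^ 2 ≤ 1 :=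
    pow_le_one₀ (theta_mem hw t).1 (theta_mem hw t).2
  have hc : 0 ≤ 2 * gam * z⁻¹ := by positivity
  rcases le_or_gt |t| w with h | h
  · rw [show cutFun w t = 0 by simp [cutFun, clamp_of_abs_le h], abs_zero]
    simp [clamp_of_abs_le h]
  -- the key estimate for `|t|` above the cut
  have key : ∀ s, w < s → s < z →
      (s - w) / s ^ 2 ≤ 2 * gam * z⁻¹ * ((z - s)⁻¹ - (z - w)⁻¹) := by
    intro s hs1 hs2
    have hzs : 0 < z - s := by linarith
    have e : (z - s)⁻¹ - (z - w)⁻¹ = (s - w) / ((z - s) * gam) := by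
      rw [inv_sub_inv hzs.ne' (by linarith : z - w ≠ 0), show z - w = gam by linarith]
      congr 1
      linarith
    rw [e, show 2 * gam * z⁻¹ * ((s - w) / ((z - s) * gam)) = 2 * (s - w) / (z * (z - s)) by
      field_simp, div_le_div_iff₀ (by nlinarith) (mul_pos hz hzs)]
    have : z * (z - s) ≤ 2 * s ^ 2 := by nlinarith
    nlinarith [mul_le_mul_of_nonneg_left this (by linarith : 0 ≤ s - w)]
  rcases le_total 0 t with h0 | h0
  · rw [abs_of_nonneg h0] at h ht
    have hcl : clamp w t = w := by rw [clamp, min_eq_left h.le, max_eq_right (by linarith)]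
    have habs : |cutFun w t| = (t - w) / t ^ 2 := by
      rw [cutFun, hcl, abs_of_nonneg (div_nonneg (by linarith) (sq_nonneg _))]
    rw [habs]
    refine (key t h ht).trans (mul_le_mul_of_nonneg_left ?_ hc)
    rw [hcl] at hn ⊢
    have : (1 - t * cutFun w t) ^ 2 * (z - 1 * w)⁻¹ ≤ (z - w)⁻¹ := by
      rw [one_mul]; exact mul_le_of_le_one_left (inv_nonneg.2 (by linarith)) hθ
    simp only [one_mul] at this hn ⊢
    linarith
  · rw [abs_of_nonpos h0] at h ht
    have hcl : clamp w t = -w := by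
      rw [clamp, min_eq_right (by linarith), max_eq_left (by linarith)]
    have habs : |cutFun w t| = (-t - w) / (-t) ^ 2 := by
      rw [cutFun, hcl, abs_of_nonpos (div_nonpos_of_nonpos_of_nonneg (by linarith) (sq_nonneg _)),
        neg_sq, ← neg_div]
      congr 1
      ring
    rw [habs]
    refine (key (-t) h ht).trans (mul_le_mul_of_nonneg_left ?_ hc)
    rw [hcl] at hp ⊢
    have : (1 - t * cutFun w t) ^ 2 * (z - w)⁻¹ ≤ (z - w)⁻¹ :=
      mul_le_of_le_one_left (inv_nonneg.2 (by linarith)) hθ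
    simp only [show ∀ a : ℝ, (-1) * a = -a from neg_one_mul, neg_neg, sub_neg_eq_add] at this ⊢
    linarith

end cut

/-- Hypotheses of a cut at the level `z - gam`. -/
structure Cut (z gam : ℝ) (r y : 𝔸) : Prop where
  hr : IsSelfAdjoint r
  hy : IsSelfAdjoint y
  pos : 0 < gam
  le : gam ≤ z / 2
  norm_lt : ‖r * y * r‖ < z

namespace Cut

variable {z gam σ : ℝ} {r y : 𝔸}

omit [PartialOrder 𝔸] [StarOrderedRing 𝔸] in
theorem w_pos (h : Cut z gam r y) : 0 < z - gam := by linarith [h.pos, h.le]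

omit [PartialOrder 𝔸] [StarOrderedRing 𝔸] in
theorem z_pos (h : Cut z gam r y) : 0 < z := by linarith [h.pos, h.le]

omit [PartialOrder 𝔸] [StarOrderedRing 𝔸] in
theorem gap (h : Cut z gam r y) : Gap z (z - ‖r * y * r‖) r y :=
  ⟨h.hr, h.hy, sub_pos.2 h.norm_lt, by linarith [norm_nonneg (r * y * r)], by linarith⟩

omit [PartialOrder 𝔸] [StarOrderedRing 𝔸] in
theorem r_cutY (h : Cut z gam r y) :
    r * cutY (z - gam) r y =
      cfc (fun t => 1 - t * cutFun (z - gam) t) (r * y * r) * r * y := by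
  have hc := continuous_cutFun h.w_pos
  have hB := isSelfAdjoint_ryr h.hr h.hy
  rw [cfc_sub (fun _ : ℝ => (1 : ℝ)) (fun t => t * cutFun (z - gam) t) (r * y * r),
    cfc_const_one ℝ (r * y * r) hB, cfc_mul (fun t : ℝ => t) (cutFun (z - gam)) (r * y * r),
    cfc_id' ℝ (r * y * r) hB, cutY]
  simp only [mul_sub, sub_mul, one_mul, mul_assoc]

omit [PartialOrder 𝔸] [StarOrderedRing 𝔸] in
theorem cutY_r (h : Cut z gam r y) :
    cutY (z - gam) r y * r =
      y * r * cfc (fun t => 1 - t * cutFun (z - gam) t) (r * y * r) := by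
  rw [show cutY (z - gam) r y * r = star (r * cutY (z - gam) r y) by
    rw [star_mul, (cutY_sa _ h.hr h.hy).star_eq, h.hr.star_eq], h.r_cutY, star_mul, star_mul,
    star_cfc, h.hr.star_eq, h.hy.star_eq, ← mul_assoc]

omit [PartialOrder 𝔸] [StarOrderedRing 𝔸] in
theorem r_cutY_r (h : Cut z gam r y) :
    r * cutY (z - gam) r y * r = cfc (clamp (z - gam)) (r * y * r) := by
  have hc := continuous_cutFun h.w_pos
  have hB := isSelfAdjoint_ryr h.hr h.hy
  have e : clamp (z - gam) = fun t => (1 - t * cutFun (z - gam) t) * t :=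
    funext fun t => by rw [mul_comm, mul_theta h.w_pos]
  rw [h.r_cutY, e, cfc_mul (fun t => 1 - t * cutFun (z - gam) t) (fun t => t) (r * y * r),
    cfc_id' ℝ (r * y * r) hB]
  simp only [mul_assoc]

omit [PartialOrder 𝔸] [StarOrderedRing 𝔸] in
theorem norm_r_cutY_r (h : Cut z gam r y) : ‖r * cutY (z - gam) r y * r‖ ≤ z - gam := by
  rw [h.r_cutY_r]
  exact norm_cfc_le h.w_pos.le fun t _ => by
    rw [Real.norm_eq_abs]; exact clamp_abs_le h.w_pos.le

omit [PartialOrder 𝔸] [StarOrderedRing 𝔸] in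
theorem gap' (h : Cut z gam r y) : Gap z gam r (cutY (z - gam) r y) :=
  ⟨h.hr, cutY_sa _ h.hr h.hy, h.pos, by linarith [h.le, h.z_pos], h.norm_r_cutY_r⟩

theorem sub_cutY_le (h : Cut z gam r y) :
    -cutP (z - gam) r y ≤ y - cutY (z - gam) r y ∧
      y - cutY (z - gam) r y ≤ cutP (z - gam) r y := by
  have hc := continuous_cutFun h.w_pos
  have e : y - cutY (z - gam) r y = y * r * cfc (cutFun (z - gam)) (r * y * r) * r * y :=
    sub_sub_cancel _ _
  rw [e, cutP]
  constructor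
  · have := conj_mono h.hr h.hy (cfc_mono (a := r * y * r)
      (f := fun t => -|cutFun (z - gam) t|) (g := cutFun (z - gam))
      fun t _ => neg_abs_le _)
    rwa [cfc_neg, mul_neg, neg_mul, neg_mul] at this
  · exact conj_mono h.hr h.hy (cfc_mono fun t _ => le_abs_self _)

theorem cutP_nonneg (h : Cut z gam r y) : 0 ≤ cutP (z - gam) r y :=
  conj_nonneg' h.hr h.hy (cfc_nonneg fun _ _ => abs_nonneg _)

theorem cutY_rr_le (h : Cut z gam r y) :
    cutY (z - gam) r y * (r * r) * cutY (z - gam) r y ≤ y * (r * r) * y := by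
  have hc := continuous_cutFun h.w_pos
  have hB := isSelfAdjoint_ryr h.hr h.hy
  set g := fun t => 1 - t * cutFun (z - gam) t with hg
  have e : cutY (z - gam) r y * (r * r) * cutY (z - gam) r y =
      y * r * cfc (fun t => g t * g t) (r * y * r) * r * y := by
    have e1 : cutY (z - gam) r y * r = y * r * cfc g (r * y * r) := h.cutY_r
    rw [cfc_mul g g (r * y * r), ← mul_assoc _ r r, e1,
      mul_assoc (y * r * cfc g (r * y * r)) r, h.r_cutY]
    simp only [mul_assoc, ← hg]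
  rw [e]
  refine (conj_mono h.hr h.hy (cfc_le_algebraMap _ 1 _ (fun t _ => ?_) ?_ hB)).trans_eq ?_
  · exact mul_le_one₀ (theta_mem h.w_pos t).2 (theta_mem h.w_pos t).1 (theta_mem h.w_pos t).2
  · fun_prop
  · simp only [map_one, mul_one, mul_assoc]

omit [PartialOrder 𝔸] [StarOrderedRing 𝔸] in
theorem Zo_cutY (h : Cut z gam r y) (hσ : |σ| = 1) :
    Zo z σ r (cutY (z - gam) r y) = z⁻¹ • (y * r * cfc (fun t =>
      (1 - t * cutFun (z - gam) t) ^ 2 * (z - σ * clamp (z - gam) t)⁻¹) (r * y * r) * r * y) := by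
  have hc := continuous_cutFun h.w_pos
  have hB := isSelfAdjoint_ryr h.hr h.hy
  set g := fun t => 1 - t * cutFun (z - gam) t with hg
  set k := fun t => (z - σ * clamp (z - gam) t)⁻¹ with hk
  have hne : ∀ t, z - σ * clamp (z - gam) t ≠ 0 := fun t => ne_of_gt <| sub_pos.2 <|
    (le_abs_self _).trans_lt <| by
      rw [abs_mul, hσ, one_mul]
      linarith [clamp_abs_le (t := t) h.w_pos.le, h.pos]
  have hcl : Continuous (clamp (z - gam)) := by unfold clamp; fun_prop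
  have hkc : Continuous k := Continuous.inv₀ (by fun_prop) hne
  have e1 : res z σ (r * cutY (z - gam) r y * r) = cfc k (r * y * r) := by
    rw [res, h.r_cutY_r, ← cfc_comp' (fun t => (z - σ * t)⁻¹) (clamp (z - gam)) (r * y * r) ?_
      hcl.continuousOn hB]
    refine ContinuousOn.inv₀ (by fun_prop) ?_
    rintro _ ⟨t, -, rfl⟩
    exact hne t
  have e2 : cutY (z - gam) r y * r = y * r * cfc g (r * y * r) := h.cutY_r
  have e3 : cfc (fun t => g t ^ 2 * k t) (r * y * r) =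
      cfc g (r * y * r) * cfc k (r * y * r) * cfc g (r * y * r) := by
    have hgc : Continuous g := continuous_const.sub (continuous_id.mul hc)
    rw [← cfc_mul g k (r * y * r) hgc.continuousOn hkc.continuousOn,
      ← cfc_mul (fun t => g t * k t) g (r * y * r) (hgc.mul hkc).continuousOn hgc.continuousOn]
    exact cfc_congr fun t _ => by ring
  rw [Zo, e1, mul_assoc (cutY (z - gam) r y * r * cfc k (r * y * r)) r, e2, h.r_cutY, e3]
  simp only [mul_assoc, ← hg]

theorem Zo_cutY_le (h : Cut z gam r y) (hσ : |σ| = 1) :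
    Zo z σ r (cutY (z - gam) r y) ≤ Zo z σ r y := by
  have hc := continuous_cutFun h.w_pos
  rw [h.Zo_cutY hσ, Zo]
  refine smul_le_smul_of_nonneg_left (conj_mono h.hr h.hy (cfc_mono (fun t ht => ?_) ?_
    (h.gap.contOn hσ))) (inv_nonneg.2 h.z_pos.le)
  · exact theta_sq_le' h.w_pos hσ h.z_pos
      ((abs_le_of_mem_spectrum h.gap.sa ht).trans_lt h.norm_lt)
  · refine ContinuousOn.mul (by fun_prop) (ContinuousOn.inv₀ (by unfold clamp; fun_prop) ?_)
    intro t _
    refine ne_of_gt (sub_pos.2 ((le_abs_self _).trans_lt ?_))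
    rw [abs_mul, hσ, one_mul]
    linarith [clamp_abs_le (t := t) h.w_pos.le, h.pos]

theorem cutP_le (h : Cut z gam r y) :
    cutP (z - gam) r y ≤ (2 * gam) • ((Zo z 1 r y - Zo z 1 r (cutY (z - gam) r y)) +
      (Zo z (-1) r y - Zo z (-1) r (cutY (z - gam) r y))) := by
  have hc := continuous_cutFun h.w_pos
  have hB := isSelfAdjoint_ryr h.hr h.hy
  have s1 : |(1 : ℝ)| = 1 := abs_one
  have s2 : |(-1 : ℝ)| = 1 := by norm_num
  have hk : ∀ σ : ℝ, |σ| = 1 → ContinuousOn (fun t => (1 - t * cutFun (z - gam) t) ^ 2 *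
      (z - σ * clamp (z - gam) t)⁻¹) (spectrum ℝ (r * y * r)) := by
    intro σ hσ
    refine ContinuousOn.mul (by fun_prop) (ContinuousOn.inv₀ (by unfold clamp; fun_prop) ?_)
    intro t _
    refine ne_of_gt (sub_pos.2 ((le_abs_self _).trans_lt ?_))
    rw [abs_mul, hσ, one_mul]
    linarith [clamp_abs_le (t := t) h.w_pos.le, h.pos]
  have c1 := h.gap.contOn s1
  have c2 := h.gap.contOn s2
  rw [h.Zo_cutY s1, h.Zo_cutY s2, Zo, Zo, ← smul_sub, ← smul_sub, ← smul_add, smul_smul, cutP]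
  simp only [res, ← sub_mul, ← mul_sub, ← add_mul, ← mul_add]
  set f1 := fun t : ℝ => (z - 1 * t)⁻¹ - (1 - t * cutFun (z - gam) t) ^ 2 *
    (z - 1 * clamp (z - gam) t)⁻¹ with hf1
  set f2 := fun t : ℝ => (z - (-1) * t)⁻¹ - (1 - t * cutFun (z - gam) t) ^ 2 *
    (z - (-1) * clamp (z - gam) t)⁻¹ with hf2
  have d1 : ContinuousOn f1 (spectrum ℝ (r * y * r)) := c1.sub (hk 1 s1)
  have d2 : ContinuousOn f2 (spectrum ℝ (r * y * r)) := c2.sub (hk (-1) s2)
  rw [← cfc_sub _ _ (r * y * r) c1 (hk 1 s1), ← cfc_sub _ _ (r * y * r) c2 (hk (-1) s2),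
    ← hf1, ← hf2, ← cfc_add (r * y * r) f1 f2 d1 d2]
  have hsum : ContinuousOn (fun t => f1 t + f2 t) (spectrum ℝ (r * y * r)) := d1.add d2
  rw [← smul_mul_assoc, ← smul_mul_assoc, ← mul_smul_comm,
    ← cfc_smul (2 * gam * z⁻¹) _ (r * y * r) hsum]
  refine conj_mono h.hr h.hy (cfc_mono (fun t ht => ?_) ?_ (hsum.const_smul (2 * gam * z⁻¹)))
  · exact cutFun_abs_le h.pos h.le ((abs_le_of_mem_spectrum h.gap.sa ht).trans_lt h.norm_lt)
  · exact hc.abs.continuousOn

end Cut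

end Vale.Agent.P078.Finite
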