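import Mathlib

/-!
So-paving inside a von Neumann algebra: the definitions used by the statements.
-/

noncomputable section

open scoped InnerProductSpace

namespace Vale.Agent.P078.Finite

universe u

variable {H : Type u} [NormedAddCommGroup H] [InnerProductSpace ℂ H] [CompleteSpace H]

/-- `A` is maximal abelian inside `M`. -/
def IsMasaIn (M : VonNeumannAlgebra H) (A : StarSubalgebra ℂ (H →L[ℂ] H)) : Prop :=
  (∀ a ∈ A, a ∈ M) ∧ ∀ T ∈ M, (T ∈ A ↔ ∀ a ∈ A, T * a = a * T)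

/-- Projections `p` of `A` tend strongly to one such that `p M p` has a faithful finite trace
given by a square summable family of vectors in the range of `p`. -/
def HasTraceCorners (M : VonNeumannAlgebra H) (A : StarSubalgebra ℂ (H →L[ℂ] H)) : Prop :=
  ∀ (F : Finset H) (δ : ℝ), 0 < δ →
    ∃ p ∈ A, IsStarProjection p ∧ (∀ v ∈ F, ‖(1 - p) v‖ < δ) ∧
      ∃ ξ : ℕ → H, (∀ n, p (ξ n) = ξ n) ∧ Summable (fun n => ‖ξ n‖ ^ 2) ∧
        (∀ x ∈ M, ∀ y ∈ M, p * x * p = x → p * y * p = y →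
          ∑' n, ⟪ξ n, (x * y) (ξ n)⟫_ℂ = ∑' n, ⟪ξ n, (y * x) (ξ n)⟫_ℂ) ∧
        (∀ x ∈ M, p * x * p = x → (∀ n, x (ξ n) = 0) → x = 0)

/-- `x` is `(ε, r)` so-pavable over `A` inside `M`. -/
def SoPavableIn (M : VonNeumannAlgebra H) (A : StarSubalgebra ℂ (H →L[ℂ] H)) (ε : ℝ) (r : ℕ)
    (x : H →L[ℂ] H) : Prop :=
  ∀ (F : Finset H) (δ : ℝ), 0 < δ →
    ∃ (p : Fin r → H →L[ℂ] H) (a q : H →L[ℂ] H),
      (∀ i, p i ∈ A ∧ IsStarProjection (p i)) ∧ (∀ i j, i ≠ j → p i * p j = 0) ∧ ∑ i, p i = 1 ∧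
      a ∈ A ∧ IsSelfAdjoint a ∧ ‖a‖ ≤ ‖x‖ ∧ q ∈ M ∧ IsStarProjection q ∧
      (∀ v ∈ F, ‖(1 - q) v‖ < δ) ∧ ‖q * (∑ i, p i * x * p i - a) * q‖ ≤ ε * ‖x‖

/-- Every selfadjoint element of `M` is `(ε, r)` so-pavable as soon as `C / ε ^ 2 ≤ r`. -/
def PavesWith (C : ℝ) (M : VonNeumannAlgebra H) (A : StarSubalgebra ℂ (H →L[ℂ] H)) : Prop :=
  ∀ ε : ℝ, 0 < ε → ∀ r : ℕ, C / ε ^ 2 ≤ r → ∀ x ∈ M, IsSelfAdjoint x → SoPavableIn M A ε r x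

end Vale.Agent.P078.Finite
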