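import Vale.Agent.P078.Finite.Part

/-!
The trace-preserving conditional expectation onto `A` as a strong limit of pinchings.
-/

noncomputable section

open scoped InnerProductSpace
open Filter Topology

namespace Vale.Agent.P078.Finite

universe u

variable {K : Type u} [NormedAddCommGroup K] [InnerProductSpace ℂ K] [CompleteSpace K]

namespace Ctx

variable (C : Ctx K)

/-- The pinching by a partition. -/
def pinchP (s : Part C) (x : K →L[ℂ] K) : K →L[ℂ] K :=
  ∑ i, C.op (s.c i) * x * C.op (s.c i)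

theorem pinchP_mem (s : Part C) {x : K →L[ℂ] K} (hx : x ∈ C.M) : C.pinchP s x ∈ C.M :=
  sum_mem fun _ _ => mul_mem (mul_mem (C.op_mem_M _) hx) (C.op_mem_M _)

theorem pinchP_star (s : Part C) (x : K →L[ℂ] K) :
    C.pinchP s (star x) = star (C.pinchP s x) := by
  simp only [pinchP, star_sum, star_mul, (C.op_sa _).star_eq, mul_assoc]

theorem pinchP_of_mem (s : Part C) {a : K →L[ℂ] K} (ha : a ∈ C.A) : C.pinchP s a = a := by
  have : ∀ i, C.op (s.c i) * a * C.op (s.c i) = C.op (s.c i) * a := fun i => by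
    rw [mul_assoc, C.A_comm ha (C.op_mem _), ← mul_assoc, ← map_mul, s.idem]
  rw [pinchP, Finset.sum_congr rfl fun i _ => this i, ← Finset.sum_mul, C.op_sum_eq, one_mul]

theorem pinchP_pinchP {s t : Part C} (h : s ≤ t) (x : K →L[ℂ] K) :
    C.pinchP t (C.pinchP s x) = C.pinchP t x := by
  classical
  refine Finset.sum_congr rfl fun j _ => ?_
  obtain ⟨χ, hχ⟩ | hnone := em (∃ χ, t.c j χ = 1)
  · obtain ⟨i, hi⟩ := s.exists_one χ
    have hij : s.c i * t.c j = t.c j := (h i j).resolve_right fun e => by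
      have := congrArg (fun F : C(C.Spec, ℝ) => F χ) e
      simp [hi, hχ] at this
    have key : ∀ k, C.op (t.c j) * (C.op (s.c k) * x * C.op (s.c k)) * C.op (t.c j) =
        if k = i then C.op (t.c j) * x * C.op (t.c j) else 0 := by
      intro k
      have e : C.op (t.c j) * (C.op (s.c k) * x * C.op (s.c k)) * C.op (t.c j) =
          C.op (s.c k * t.c j) * x * C.op (s.c k * t.c j) := by
        simp only [map_mul, mul_assoc]
        rw [← mul_assoc (C.op (t.c j)), C.op_comm, mul_assoc]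
      rw [e]
      split_ifs with hk
      · rw [hk, hij]
      · have : s.c k * t.c j = 0 := by rw [← hij, ← mul_assoc, s.orth hk, zero_mul]
        rw [this, map_zero, zero_mul, zero_mul]
    simp only [pinchP, Finset.mul_sum, Finset.sum_mul, key, Finset.sum_ite_eq', Finset.mem_univ,
      if_true]
  · have h0 : t.c j = 0 := ContinuousMap.ext fun χ =>
      (t.values j χ).resolve_right fun h1 => hnone ⟨χ, h1⟩
    simp [h0]

theorem norm_pinchP_apply_le (s : Part C) (x : K →L[ℂ] K) (v : K) :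
    ‖C.pinchP s x v‖ ≤ ‖x‖ * ‖v‖ := by
  have h0 := C.sum_sq_norm s (C.pinchP s x v)
  have h1 : ∀ i, C.op (s.c i) (C.pinchP s x v) = C.op (s.c i) (x (C.op (s.c i) v)) := by
    intro i
    have e : C.op (s.c i) * C.pinchP s x = C.op (s.c i) * x * C.op (s.c i) := by
      rw [pinchP, Finset.mul_sum, Finset.sum_eq_single i]
      · rw [← mul_assoc, ← mul_assoc, ← map_mul, s.idem]
      · intro k _ hk
        rw [← mul_assoc, ← mul_assoc, ← map_mul, s.orth hk.symm, map_zero, zero_mul, zero_mul]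
      · intro h; exact absurd (Finset.mem_univ i) h
    exact congrArg (fun T : K →L[ℂ] K => T v) e
  have h2 : ∀ i, ‖C.op (s.c i) (C.pinchP s x v)‖ ^ 2 ≤ ‖x‖ ^ 2 * ‖C.op (s.c i) v‖ ^ 2 := by
    intro i
    rw [h1, ← mul_pow]
    refine pow_le_pow_left₀ (norm_nonneg _) ?_ 2
    refine ((C.op (s.c i)).le_opNorm _).trans ?_
    refine (mul_le_mul_of_nonneg_right ?_ (norm_nonneg _)).trans
      (by rw [one_mul]; exact x.le_opNorm _)
    rw [C.norm_op]
    exact (ContinuousMap.norm_le _ zero_le_one).2 fun χ => by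
      rcases s.values i χ with e | e <;> simp [e]
  have h3 : ‖C.pinchP s x v‖ ^ 2 ≤ (‖x‖ * ‖v‖) ^ 2 := by
    rw [← h0, mul_pow, ← C.sum_sq_norm s v, Finset.mul_sum]
    exact Finset.sum_le_sum fun i _ => h2 i
  exact (pow_le_pow_iff_left₀ (norm_nonneg _) (by positivity) two_ne_zero).1 h3

theorem tr_pinchP (s : Part C) {x y : K →L[ℂ] K} (hx : x ∈ C.M) (hy : y ∈ C.M) :
    C.tr (C.pinchP s x * y) = C.tr (x * C.pinchP s y) := by
  simp only [pinchP, Finset.sum_mul, Finset.mul_sum, C.tr_sum]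
  refine Finset.sum_congr rfl fun i _ => ?_
  calc C.tr (C.op (s.c i) * x * C.op (s.c i) * y)
      = C.tr (C.op (s.c i) * (x * C.op (s.c i) * y)) := by simp only [mul_assoc]
    _ = C.tr (x * C.op (s.c i) * y * C.op (s.c i)) :=
        C.tr_comm (C.op_mem_M _) (mul_mem (mul_mem hx (C.op_mem_M _)) hy)
    _ = _ := by simp only [mul_assoc]

theorem inner_pinchP {s t : Part C} (h : s ≤ t) {x : K →L[ℂ] K} (hx : x ∈ C.M) :
    ⟪C.pinchP s x C.Ω, C.pinchP t x C.Ω⟫_ℂ = (C.nrm (C.pinchP t x) : ℂ) ^ 2 := by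
  rw [C.inner_apply, ← C.tr_star_mul_self, ← C.pinchP_star, ← C.pinchP_star]
  calc C.tr (C.pinchP s (star x) * C.pinchP t x)
      = C.tr (C.pinchP s (star x) * C.pinchP t (C.pinchP t x)) := by
        rw [C.pinchP_pinchP (le_refl t) x]
    _ = C.tr (C.pinchP t (C.pinchP s (star x)) * C.pinchP t x) :=
        (C.tr_pinchP t (C.pinchP_mem s (star_mem hx)) (C.pinchP_mem t hx)).symm
    _ = _ := by rw [C.pinchP_pinchP h]

theorem dist_pinchP {s t : Part C} (h : s ≤ t) {x : K →L[ℂ] K} (hx : x ∈ C.M) :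
    ‖C.pinchP s x C.Ω - C.pinchP t x C.Ω‖ ^ 2 =
      C.nrm (C.pinchP s x) ^ 2 - C.nrm (C.pinchP t x) ^ 2 := by
  have hre : RCLike.re ⟪C.pinchP s x C.Ω, C.pinchP t x C.Ω⟫_ℂ = C.nrm (C.pinchP t x) ^ 2 := by
    rw [C.inner_pinchP h hx, ← Complex.ofReal_pow]
    exact Complex.ofReal_re _
  rw [norm_sub_sq (𝕜 := ℂ), hre]
  simp only [nrm]
  ring

theorem cauchy_pinchP {x : K →L[ℂ] K} (hx : x ∈ C.M) :
    Cauchy (map (fun s : Part C => C.pinchP s x C.Ω) atTop) := by
  refine Metric.cauchy_iff.2 ⟨map_neBot, fun η hη => ?_⟩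
  set S : Set ℝ := Set.range fun s : Part C => C.nrm (C.pinchP s x) ^ 2 with hS
  have hb : BddBelow S := ⟨0, by rintro _ ⟨s, rfl⟩; exact sq_nonneg _⟩
  obtain ⟨_, ⟨s0, rfl⟩, hs0⟩ := exists_lt_of_csInf_lt (Set.range_nonempty _)
    (lt_add_of_pos_right (sInf S) (pow_pos (half_pos hη) 2))
  refine ⟨(fun s : Part C => C.pinchP s x C.Ω) '' Set.Ici s0,
    image_mem_map (Ici_mem_atTop s0), ?_⟩
  have near : ∀ s, s0 ≤ s → dist (C.pinchP s0 x C.Ω) (C.pinchP s x C.Ω) < η / 2 := by
    intro s hs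
    rw [dist_eq_norm, ← pow_lt_pow_iff_left₀ (norm_nonneg _) (half_pos hη).le two_ne_zero,
      C.dist_pinchP hs hx]
    have := csInf_le hb (Set.mem_range_self s)
    linarith
  rintro _ ⟨s, hs, rfl⟩ _ ⟨t, ht, rfl⟩
  have := dist_triangle_left (C.pinchP s x C.Ω) (C.pinchP t x C.Ω) (C.pinchP s0 x C.Ω)
  linarith [near s hs, near t ht]

/-- The commutant of `M`. -/
def comm : Set (K →L[ℂ] K) := {T | ∀ x ∈ C.M, x * T = T * x}

/-- The trace vector is cyclic for the commutant. -/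
theorem dense_comm : Dense ((fun T : K →L[ℂ] K => T C.Ω) '' C.comm) := by
  let W0 : Submodule ℂ K :=
    { carrier := (fun T : K →L[ℂ] K => T C.Ω) '' C.comm
      add_mem' := by
        rintro _ _ ⟨S, hS, rfl⟩ ⟨T, hT, rfl⟩
        exact ⟨S + T, fun x hx => by rw [mul_add, add_mul, hS x hx, hT x hx], rfl⟩
      zero_mem' := ⟨0, fun x _ => by simp, rfl⟩
      smul_mem' := by
        rintro c _ ⟨T, hT, rfl⟩
        exact ⟨c • T, fun x hx => by rw [mul_smul_comm, smul_mul_assoc, hT x hx], rfl⟩ }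
  set W := W0.topologicalClosure
  have : CompleteSpace W := (Submodule.isClosed_topologicalClosure _).completeSpace_coe
  set P := W.starProjection with hP
  have hinv : ∀ s, (∀ x ∈ C.M, x * s = s * x) → ∀ v ∈ W, s v ∈ W := by
    intro s hs v hv
    refine map_mem_closure s.continuous hv ?_
    rintro _ ⟨T, hT, rfl⟩
    exact ⟨s * T, fun x hx => by rw [← mul_assoc, hs x hx, mul_assoc, hT x hx, mul_assoc], rfl⟩
  have hPM : P ∈ C.M := by
    refine C.mem_M_of_comm fun s hs => ?_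
    ext v
    change W.starProjection (s v) = s (W.starProjection v)
    refine Submodule.eq_starProjection_of_mem_orthogonal
      (hinv s hs _ (W.starProjection_apply_mem v)) ?_
    rw [Submodule.mem_orthogonal']
    intro w hw
    rw [← map_sub, ← ContinuousLinearMap.adjoint_inner_right, ← ContinuousLinearMap.star_eq_adjoint]
    refine Submodule.starProjection_inner_eq_zero v _ (hinv _ (fun x hx => ?_) w hw)
    have h := congrArg star (hs _ (star_mem hx))
    rwa [star_mul, star_mul, star_star, eq_comm] at h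
  have hΩ : P C.Ω = C.Ω := Submodule.starProjection_eq_self_iff.2
    (Submodule.le_topologicalClosure _ ⟨1, fun x _ => by simp, rfl⟩)
  have h1 : (1 - P) = 0 := C.hsep _ (sub_mem (one_mem _) hPM) (by
    change C.Ω - P C.Ω = 0
    rw [hΩ, sub_self])
  intro v
  have : P v = v := by rw [← sub_eq_zero.1 h1]; rfl
  rw [← this]
  exact W.starProjection_apply_mem v

theorem exists_limit {x : K →L[ℂ] K} (hx : x ∈ C.M) :
    ∃ T ∈ C.A, ‖T‖ ≤ ‖x‖ ∧
      ∀ v, Tendsto (fun s : Part C => C.pinchP s x v) atTop (𝓝 (T v)) := by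
  obtain ⟨w0, hw0⟩ := CompleteSpace.complete (C.cauchy_pinchP hx)
  have hcomm : ∀ T ∈ C.comm, Tendsto (fun s : Part C => C.pinchP s x (T C.Ω)) atTop (𝓝 (T w0)) := by
    intro T hT
    refine ((T.continuous.tendsto w0).comp hw0).congr fun s => ?_
    exact congrArg (fun S : K →L[ℂ] K => S C.Ω) (hT _ (C.pinchP_mem s hx)).symm
  have hex : ∀ v, ∃ l, Tendsto (fun s : Part C => C.pinchP s x v) atTop (𝓝 l) := by
    intro v
    refine cauchy_map_iff_exists_tendsto.1 (Metric.cauchy_iff.2 ⟨map_neBot, fun η hη => ?_⟩)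
    obtain ⟨_, ⟨T, hT, rfl⟩, hd⟩ := Metric.mem_closure_iff.1 (C.dense_comm v)
      (η / (4 * (‖x‖ + 1))) (by positivity)
    have hclose : ∀ s : Part C, ‖C.pinchP s x v - C.pinchP s x (T C.Ω)‖ ≤ η / 4 := by
      intro s
      rw [← map_sub]
      refine (C.norm_pinchP_apply_le s x _).trans ?_
      rw [dist_eq_norm] at hd
      calc ‖x‖ * ‖v - T C.Ω‖ ≤ (‖x‖ + 1) * (η / (4 * (‖x‖ + 1))) :=
            mul_le_mul (by linarith) hd.le (norm_nonneg _) (by positivity)
        _ = η / 4 := by field_simp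
    refine ⟨_, image_mem_map ((hcomm T hT).eventually (Metric.ball_mem_nhds _
      (by positivity : (0 : ℝ) < η / 4))), ?_⟩
    rintro _ ⟨s, hs, rfl⟩ _ ⟨t, ht, rfl⟩
    simp only [Set.mem_ofPred_eq, dist_eq_norm] at hs ht
    calc dist (C.pinchP s x v) (C.pinchP t x v)
        ≤ dist (C.pinchP s x v) (C.pinchP s x (T C.Ω)) + dist (C.pinchP s x (T C.Ω)) (T w0) +
            (dist (T w0) (C.pinchP t x (T C.Ω)) + dist (C.pinchP t x (T C.Ω)) (C.pinchP t x v)) := by
          refine (dist_triangle _ (T w0) _).trans (add_le_add (dist_triangle _ _ _) ?_)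
          exact dist_triangle _ _ _
      _ < η := by
          rw [dist_eq_norm, dist_eq_norm, dist_eq_norm', dist_eq_norm']
          linarith [hclose s, hclose t]
  choose l hl using hex
  let T0 : K →ₗ[ℂ] K :=
    { toFun := l
      map_add' := fun v w => tendsto_nhds_unique (hl (v + w))
        (((hl v).add (hl w)).congr fun s => (map_add _ v w).symm)
      map_smul' := fun c v => tendsto_nhds_unique (hl (c • v))
        (((hl v).const_smul c).congr fun s => (map_smul _ c v).symm) }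
  have hbd : ∀ v, ‖T0 v‖ ≤ ‖x‖ * ‖v‖ := fun v =>
    le_of_tendsto (hl v).norm (Eventually.of_forall fun s => C.norm_pinchP_apply_le s x v)
  set T := T0.mkContinuous ‖x‖ hbd
  have hTM : T ∈ C.M := C.mem_M_of_comm fun S hS => by
    ext v
    refine tendsto_nhds_unique (hl (S v)) (((S.continuous.tendsto _).comp (hl v)).congr fun s => ?_)
    exact congrArg (fun R : K →L[ℂ] K => R v) (hS _ (C.pinchP_mem s hx)).symm
  refine ⟨T, C.mem_A_of_comm hTM fun p hp => ?_, T0.mkContinuous_norm_le (norm_nonneg _) _, hl⟩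
  ext v
  refine tendsto_nhds_unique_of_eventuallyEq (hl (C.op p v))
    (((C.op p).continuous.tendsto _).comp (hl v)) ?_
  filter_upwards [eventually_ge_atTop (Part.pair p hp)] with s hs
  have e : C.pinchP s x * C.op p = C.op p * C.pinchP s x := by
    simp only [pinchP, Finset.sum_mul, Finset.mul_sum]
    refine Finset.sum_congr rfl fun i _ => ?_
    rw [mul_assoc _ _ (C.op p), ← mul_assoc (C.op p) _ (C.op (s.c i)),
      ← mul_assoc (C.op p) (C.op (s.c i)) x, ← map_mul, ← map_mul, mul_comm (s.c i) p]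
    rcases Part.resolve hs i with e | e
    · rw [e]
    · rw [e, map_zero, mul_zero, zero_mul, zero_mul]
  exact congrArg (fun R : K →L[ℂ] K => R v) e

/-- The closure of `A Ω`. -/
def L : Submodule ℂ K :=
  (C.A.toSubalgebra.toSubmodule.map
    ((ContinuousLinearMap.apply ℂ K C.Ω : (K →L[ℂ] K) →L[ℂ] K) : (K →L[ℂ] K) →ₗ[ℂ] K)).topologicalClosure

instance : CompleteSpace C.L := (Submodule.isClosed_topologicalClosure _).completeSpace_coe

theorem apply_mem_L {a : K →L[ℂ] K} (ha : a ∈ C.A) : a C.Ω ∈ C.L :=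
  Submodule.le_topologicalClosure _ (Submodule.mem_map.2 ⟨a, ha, rfl⟩)

/-- The conditional expectation (meaningful on `M`). -/
def E (x : K →L[ℂ] K) : K →L[ℂ] K :=
  open Classical in
  if h : ∃ e ∈ C.A, e C.Ω = C.L.starProjection (x C.Ω) then h.choose else 0

theorem A_ext {a b : K →L[ℂ] K} (ha : a ∈ C.A) (hb : b ∈ C.A) (h : a C.Ω = b C.Ω) : a = b :=
  sub_eq_zero.1 (C.hsep _ (sub_mem (C.hAM ha) (C.hAM hb)) (by
    rw [sub_apply, h, sub_self]))

theorem E_spec {x : K →L[ℂ] K} (hx : x ∈ C.M) : C.E x ∈ C.A ∧ ‖C.E x‖ ≤ ‖x‖ ∧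
    C.E x C.Ω = C.L.starProjection (x C.Ω) ∧
    ∀ v, Tendsto (fun s : Part C => C.pinchP s x v) atTop (𝓝 (C.E x v)) := by
  obtain ⟨T, hT, hTn, hlim⟩ := C.exists_limit hx
  have hproj : T C.Ω = C.L.starProjection (x C.Ω) := by
    refine (Submodule.eq_starProjection_of_mem_orthogonal (C.apply_mem_L hT) ?_).symm
    rw [Submodule.mem_orthogonal']
    intro w hw
    have hclosed : IsClosed {w : K | ⟪x C.Ω - T C.Ω, w⟫_ℂ = 0} :=
      isClosed_eq (continuous_const.inner continuous_id) continuous_const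
    refine hclosed.closure_subset_iff.2 ?_ hw
    intro z hz
    obtain ⟨a, ha, rfl⟩ := Submodule.mem_map.1 hz
    change ⟪x C.Ω - T C.Ω, a C.Ω⟫_ℂ = 0
    rw [inner_sub_left, sub_eq_zero]
    refine tendsto_nhds_unique ?_ ((hlim C.Ω).inner tendsto_const_nhds (𝕜 := ℂ))
    refine tendsto_const_nhds.congr fun s => ?_
    rw [C.inner_apply, C.inner_apply, ← C.pinchP_star,
      C.tr_pinchP s (star_mem hx) (C.hAM ha), C.pinchP_of_mem s ha]
  have hex : ∃ e ∈ C.A, e C.Ω = C.L.starProjection (x C.Ω) := ⟨T, hT, hproj⟩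
  have hE : C.E x = T := by
    rw [E, dif_pos hex]
    exact C.A_ext hex.choose_spec.1 hT (hex.choose_spec.2.trans hproj.symm)
  rw [hE]
  exact ⟨hT, hTn, hproj, hlim⟩

theorem E_mem (x : K →L[ℂ] K) : C.E x ∈ C.A := by
  rw [E]
  split_ifs with h
  · exact h.choose_spec.1
  · exact zero_mem _

theorem E_mem_M (x : K →L[ℂ] K) : C.E x ∈ C.M := C.hAM (C.E_mem x)

theorem norm_E_le {x : K →L[ℂ] K} (hx : x ∈ C.M) : ‖C.E x‖ ≤ ‖x‖ := (C.E_spec hx).2.1

theorem tendsto_pinchP {x : K →L[ℂ] K} (hx : x ∈ C.M) (v : K) :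
    Tendsto (fun s : Part C => C.pinchP s x v) atTop (𝓝 (C.E x v)) := (C.E_spec hx).2.2.2 v

theorem E_apply_Ω {x : K →L[ℂ] K} (hx : x ∈ C.M) : C.E x C.Ω = C.L.starProjection (x C.Ω) :=
  (C.E_spec hx).2.2.1

theorem nrm_E_le {x : K →L[ℂ] K} (hx : x ∈ C.M) : C.nrm (C.E x) ≤ C.nrm x := by
  rw [nrm, C.E_apply_Ω hx]
  exact C.L.norm_starProjection_apply_le _

theorem E_eq_of_tendsto {x T : K →L[ℂ] K} (hx : x ∈ C.M)
    (h : ∀ v, Tendsto (fun s : Part C => C.pinchP s x v) atTop (𝓝 (T v))) : C.E x = T :=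
  ContinuousLinearMap.ext fun v => tendsto_nhds_unique (C.tendsto_pinchP hx v) (h v)

theorem E_add {x y : K →L[ℂ] K} (hx : x ∈ C.M) (hy : y ∈ C.M) :
    C.E (x + y) = C.E x + C.E y := by
  refine C.E_eq_of_tendsto (add_mem hx hy) fun v => ?_
  refine ((C.tendsto_pinchP hx v).add (C.tendsto_pinchP hy v)).congr fun s => ?_
  simp [pinchP, mul_add, add_mul, Finset.sum_add_distrib]

theorem E_zero : C.E 0 = 0 := C.E_eq_of_tendsto (zero_mem _) fun v => by simp [pinchP]

theorem E_smul (c : ℂ) {x : K →L[ℂ] K} (hx : x ∈ C.M) : C.E (c • x) = c • C.E x := by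
  refine C.E_eq_of_tendsto (C.M.smul_mem hx c) fun v => ?_
  refine ((C.tendsto_pinchP hx v).const_smul c).congr fun s => ?_
  simp [pinchP, ← Finset.smul_sum]

theorem E_neg {x : K →L[ℂ] K} (hx : x ∈ C.M) : C.E (-x) = -C.E x := by
  rw [← neg_one_smul ℂ x, C.E_smul _ hx, neg_one_smul]

theorem E_sub {x y : K →L[ℂ] K} (hx : x ∈ C.M) (hy : y ∈ C.M) :
    C.E (x - y) = C.E x - C.E y := by
  rw [sub_eq_add_neg, C.E_add hx (neg_mem hy), C.E_neg hy, ← sub_eq_add_neg]

theorem E_sum {ι : Type*} (t : Finset ι) {f : ι → K →L[ℂ] K} (hf : ∀ i ∈ t, f i ∈ C.M) :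
    C.E (∑ i ∈ t, f i) = ∑ i ∈ t, C.E (f i) := by
  classical
  induction t using Finset.induction_on with
  | empty => simp [C.E_zero]
  | @insert i t hi ih =>
    rw [Finset.sum_insert hi, Finset.sum_insert hi, C.E_add (hf i (Finset.mem_insert_self i t))
      (sum_mem fun j hj => hf j (Finset.mem_insert_of_mem hj)),
      ih fun j hj => hf j (Finset.mem_insert_of_mem hj)]

theorem E_of_mem {a : K →L[ℂ] K} (ha : a ∈ C.A) : C.E a = a :=
  C.E_eq_of_tendsto (C.hAM ha) fun v => by simp [C.pinchP_of_mem _ ha]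

theorem E_mul_left {a x : K →L[ℂ] K} (ha : a ∈ C.A) (hx : x ∈ C.M) :
    C.E (a * x) = a * C.E x := by
  refine C.E_eq_of_tendsto (mul_mem (C.hAM ha) hx) fun v => ?_
  refine ((a.continuous.tendsto _).comp (C.tendsto_pinchP hx v)).congr fun s => ?_
  have e : C.pinchP s (a * x) = a * C.pinchP s x := by
    rw [pinchP, pinchP, Finset.mul_sum]
    refine Finset.sum_congr rfl fun i _ => ?_
    simp only [← mul_assoc, C.A_comm (C.op_mem _) ha]
  exact (congrArg (fun R : K →L[ℂ] K => R v) e).symm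

theorem E_mul_right {a x : K →L[ℂ] K} (ha : a ∈ C.A) (hx : x ∈ C.M) :
    C.E (x * a) = C.E x * a := by
  refine C.E_eq_of_tendsto (mul_mem hx (C.hAM ha)) fun v => ?_
  refine (C.tendsto_pinchP hx (a v)).congr fun s => ?_
  have e : C.pinchP s (x * a) = C.pinchP s x * a := by
    rw [pinchP, pinchP, Finset.sum_mul]
    refine Finset.sum_congr rfl fun i _ => ?_
    simp only [mul_assoc, C.A_comm (C.op_mem _) ha]
  exact (congrArg (fun R : K →L[ℂ] K => R v) e).symm

theorem tendsto_tr_pinchP {x : K →L[ℂ] K} (hx : x ∈ C.M) (y : K →L[ℂ] K) :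
    Tendsto (fun s : Part C => C.tr (y * C.pinchP s x)) atTop (𝓝 (C.tr (y * C.E x))) :=
  tendsto_const_nhds.inner ((y.continuous.tendsto _).comp (C.tendsto_pinchP hx C.Ω))

theorem tr_E {x : K →L[ℂ] K} (hx : x ∈ C.M) : C.tr (C.E x) = C.tr x := by
  have h := C.tendsto_tr_pinchP hx 1
  simp only [one_mul] at h
  refine tendsto_nhds_unique h (tendsto_const_nhds.congr fun s => ?_)
  have := C.tr_pinchP s hx (one_mem C.M)
  rw [mul_one, C.pinchP_of_mem s (one_mem C.A), mul_one] at this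
  exact this.symm

theorem E_star {x : K →L[ℂ] K} (hx : x ∈ C.M) : C.E (star x) = star (C.E x) := by
  refine ContinuousLinearMap.ext fun v => ext_inner_right ℂ fun w => ?_
  have h1 := (C.tendsto_pinchP (star_mem hx) v).inner (tendsto_const_nhds (x := w)) (𝕜 := ℂ)
  have h2 := (tendsto_const_nhds (x := v)).inner (C.tendsto_pinchP hx w) (𝕜 := ℂ)
  rw [ContinuousLinearMap.star_eq_adjoint (C.E x), ContinuousLinearMap.adjoint_inner_left]
  refine tendsto_nhds_unique h1 (h2.congr fun s => ?_)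
  rw [C.pinchP_star, ContinuousLinearMap.star_eq_adjoint (C.pinchP s x),
    ContinuousLinearMap.adjoint_inner_left]

theorem E_sa {x : K →L[ℂ] K} (hx : x ∈ C.M) (h : IsSelfAdjoint x) : IsSelfAdjoint (C.E x) := by
  rw [IsSelfAdjoint, ← C.E_star hx, h.star_eq]

theorem pinchP_nonneg (s : Part C) {x : K →L[ℂ] K} (h : 0 ≤ x) : 0 ≤ C.pinchP s x :=
  Finset.sum_nonneg fun i _ => by
    have := star_left_conjugate_nonneg h (C.op (s.c i))
    rwa [(C.op_sa _).star_eq] at this

theorem E_nonneg {x : K →L[ℂ] K} (hx : x ∈ C.M) (h : 0 ≤ x) : 0 ≤ C.E x := by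
  rw [ContinuousLinearMap.nonneg_iff_isPositive, ContinuousLinearMap.isPositive_iff_complex]
  intro v
  have ht := (C.tendsto_pinchP hx v).inner (tendsto_const_nhds (x := v)) (𝕜 := ℂ)
  have hs : ∀ s : Part C, _ := fun s => (ContinuousLinearMap.isPositive_iff_complex _).1
    ((ContinuousLinearMap.nonneg_iff_isPositive _).1 (C.pinchP_nonneg s h)) v
  constructor
  · refine tendsto_nhds_unique ((Complex.continuous_ofReal.tendsto _).comp
      ((Complex.continuous_re.tendsto _).comp ht)) (ht.congr fun s => ((hs s).1).symm)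
  · exact ge_of_tendsto' ((Complex.continuous_re.tendsto _).comp ht) fun s => (hs s).2

theorem E_mono {x y : K →L[ℂ] K} (hx : x ∈ C.M) (hy : y ∈ C.M) (h : x ≤ y) :
    C.E x ≤ C.E y := by
  rw [← sub_nonneg, ← C.E_sub hy hx]
  exact C.E_nonneg (sub_mem hy hx) (sub_nonneg.2 h)

/-- The real symbol of the expectation. -/
def Er (x : K →L[ℂ] K) : C(C.Spec, ℝ) := C.re (C.E x)

theorem op_Er {x : K →L[ℂ] K} (hx : x ∈ C.M) (h : IsSelfAdjoint x) : C.op (C.Er x) = C.E x :=
  C.op_re (C.E_mem x) (C.E_sa hx h)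

theorem Er_add {x y : K →L[ℂ] K} (hx : x ∈ C.M) (hy : y ∈ C.M) :
    C.Er (x + y) = C.Er x + C.Er y := by
  ext χ
  simp [Er, re, C.E_add hx hy, C.fn_add (C.E_mem x) (C.E_mem y)]

theorem Er_smul (c : ℝ) {x : K →L[ℂ] K} (hx : x ∈ C.M) : C.Er (c • x) = c • C.Er x := by
  ext χ
  change (C.fn (C.E (c • x)) χ).re = c * (C.fn (C.E x) χ).re
  rw [← Complex.coe_smul c x, C.E_smul _ hx, C.fn_smul _ (C.E_mem x)]
  exact Complex.re_ofReal_mul c _

theorem Er_sub {x y : K →L[ℂ] K} (hx : x ∈ C.M) (hy : y ∈ C.M) :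
    C.Er (x - y) = C.Er x - C.Er y := by
  rw [eq_sub_iff_add_eq, ← C.Er_add (sub_mem hx hy) hy, sub_add_cancel]

theorem Er_nonneg {x : K →L[ℂ] K} (hx : x ∈ C.M) (h : 0 ≤ x) (χ : C.Spec) : 0 ≤ C.Er x χ := by
  refine C.apply_nonneg ?_ χ
  rw [C.op_Er hx (IsSelfAdjoint.of_nonneg h)]
  exact C.E_nonneg hx h

theorem Er_mono {x y : K →L[ℂ] K} (hx : x ∈ C.M) (hy : y ∈ C.M) (h : x ≤ y) (χ : C.Spec) :
    C.Er x χ ≤ C.Er y χ := by
  have h1 := C.Er_nonneg (sub_mem hy hx) (sub_nonneg.2 h) χ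
  rw [C.Er_sub hy hx, ContinuousMap.sub_apply] at h1
  linarith

theorem intA_Er {x : K →L[ℂ] K} (hx : x ∈ C.M) (h : IsSelfAdjoint x) :
    C.intA (C.Er x) = (C.tr x).re := by
  rw [intA, C.op_Er hx h, C.tr_E hx]

theorem Er_op (f : C(C.Spec, ℝ)) : C.Er (C.op f) = f := by
  rw [Er, C.E_of_mem (C.op_mem f), C.re_op]

theorem Er_op_mul (f : C(C.Spec, ℝ)) {x : K →L[ℂ] K} (hx : x ∈ C.M) :
    C.Er (C.op f * x) = f * C.Er x := by
  ext χ
  simp [Er, re, C.E_mul_left (C.op_mem f) hx, C.fn_mul (C.op_mem f) (C.E_mem x), C.fn_op]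

theorem Er_mul_op (f : C(C.Spec, ℝ)) {x : K →L[ℂ] K} (hx : x ∈ C.M) :
    C.Er (x * C.op f) = C.Er x * f := by
  ext χ
  simp [Er, re, C.E_mul_right (C.op_mem f) hx, C.fn_mul (C.E_mem x) (C.op_mem f), C.fn_op]

/-- The Cauchy–Schwarz inequality for the expectation. -/
theorem normSq_fn_E_le {x y : K →L[ℂ] K} (hx : x ∈ C.M) (hy : y ∈ C.M) (χ : C.Spec) :
    Complex.normSq (C.fn (C.E (star x * y)) χ) ≤
      C.Er (star x * x) χ * C.Er (star y * y) χ := by
  set φ := C.fn (C.E (star x * y)) χ with hφ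
  set f := C.Er (star x * x) χ with hf
  set g := C.Er (star y * y) χ with hg
  have quad : ∀ c : ℂ, 0 ≤ f + 2 * (c * φ).re + Complex.normSq c * g := by
    intro c
    have hm : x + c • y ∈ C.M := add_mem hx (C.M.smul_mem hy c)
    have h0 := C.Er_nonneg (mul_mem (star_mem hm) hm) (star_mul_self_nonneg _) χ
    have hxy : star x * y ∈ C.M := mul_mem (star_mem hx) hy
    have hyx : star y * x ∈ C.M := mul_mem (star_mem hy) hx
    have hxx : star x * x ∈ C.M := mul_mem (star_mem hx) hx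
    have hyy : star y * y ∈ C.M := mul_mem (star_mem hy) hy
    have e : star (x + c • y) * (x + c • y) =
        star x * x + c • (star x * y) + (starRingEnd ℂ c) • (star y * x) +
          (starRingEnd ℂ c * c) • (star y * y) := by
      simp only [star_add, star_smul, add_mul, mul_add, smul_mul_assoc, mul_smul_comm,
        Complex.star_def, smul_add]
      module
    have hyφ : C.fn (C.E (star y * x)) χ = starRingEnd ℂ φ := by
      have : star y * x = star (star x * y) := by rw [star_mul, star_star]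
      rw [this, C.E_star hxy, C.fn_star (C.E_mem _)]
      rfl
    have e2 : C.fn (C.E (star (x + c • y) * (x + c • y))) χ =
        C.fn (C.E (star x * x)) χ + c * φ + starRingEnd ℂ c * starRingEnd ℂ φ +
          starRingEnd ℂ c * c * C.fn (C.E (star y * y)) χ := by
      have m1 := C.M.smul_mem hxy c
      have m2 := C.M.smul_mem hyx (starRingEnd ℂ c)
      have m3 := C.M.smul_mem hyy (starRingEnd ℂ c * c)
      rw [e, C.E_add (add_mem (add_mem hxx m1) m2) m3, C.E_add (add_mem hxx m1) m2,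
        C.E_add hxx m1, C.E_smul _ hxy, C.E_smul _ hyx, C.E_smul _ hyy,
        C.fn_add (add_mem (add_mem (C.E_mem _) (C.A.smul_mem (C.E_mem _) _))
          (C.A.smul_mem (C.E_mem _) _)) (C.A.smul_mem (C.E_mem _) _),
        C.fn_add (add_mem (C.E_mem _) (C.A.smul_mem (C.E_mem _) _)) (C.A.smul_mem (C.E_mem _) _),
        C.fn_add (C.E_mem _) (C.A.smul_mem (C.E_mem _) _),
        C.fn_smul _ (C.E_mem _), C.fn_smul _ (C.E_mem _), C.fn_smul _ (C.E_mem _)]
      simp [hyφ, ← hφ]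
    have h1 : 0 ≤ (C.fn (C.E (star (x + c • y) * (x + c • y))) χ).re := h0
    rw [e2, Complex.normSq_eq_conj_mul_self.symm] at h1
    simp only [Complex.add_re, ← map_mul, Complex.conj_re, Complex.re_ofReal_mul] at h1
    calc (0 : ℝ) ≤ _ := h1
      _ = f + 2 * (c * φ).re + Complex.normSq c * g := by
        simp only [hf, hg, Er, re, ContinuousMap.coe_mk]
        ring
  have hg0 : 0 ≤ g := C.Er_nonneg (mul_mem (star_mem hy) hy) (star_mul_self_nonneg _) χ
  have key : ∀ η > 0, Complex.normSq φ ≤ f * (g + η) := by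
    intro η hη
    have h := quad (-(((g + η)⁻¹ : ℝ) : ℂ) * starRingEnd ℂ φ)
    rw [neg_mul, neg_mul, mul_assoc, Complex.normSq_eq_conj_mul_self.symm, Complex.neg_re,
      ← Complex.ofReal_mul, Complex.ofReal_re, Complex.normSq_neg, Complex.normSq_mul,
      Complex.normSq_ofReal, Complex.normSq_conj] at h
    have hpos : 0 < g + η := add_pos_of_nonneg_of_pos hg0 hη
    have hid : (g + η)⁻¹ * (g + η) = 1 := inv_mul_cancel₀ hpos.ne'
    set i := (g + η)⁻¹
    have hn := Complex.normSq_nonneg φ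
    have hi : 0 < i := inv_pos.2 hpos
    nlinarith [mul_nonneg (mul_nonneg (mul_nonneg hi.le hi.le) hn) hη.le,
      congrArg (fun t => t * Complex.normSq φ * i) hid, mul_nonneg h hpos.le,
      congrArg (fun t => t * Complex.normSq φ) hid]
  have hlim : Tendsto (fun η : ℝ => f * (g + η)) (𝓝[>] 0) (𝓝 (f * g)) :=
    tendsto_nhdsWithin_of_tendsto_nhds (by
      simpa using (tendsto_const_nhds (x := f)).mul ((tendsto_const_nhds (x := g)).add
        (tendsto_id (x := 𝓝 (0 : ℝ)))))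
  exact ge_of_tendsto hlim (eventually_nhdsWithin_of_forall key)

end Ctx

end Vale.Agent.P078.Finite
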