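import Vale.Agent.P078.Finite.OpInstances
import Vale.Agent.P078.AsympTrace

/-!
The asymptotic trace along finite partitions of `A` on operators of `L`: the algebra spanned by
conjugations with normalising partial isometries and its closure `BB`.
-/

noncomputable section

open scoped InnerProductSpace ComplexConjugate
open Filter Topology

namespace Vale.Agent.P078.Finite

universe u

variable {K : Type u} [NormedAddCommGroup K] [InnerProductSpace ℂ K] [CompleteSpace K]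

theorem op_star_smul (c : ℂ) (X : K →L[ℂ] K) : star (c • X) = starRingEnd ℂ c • star X :=
  star_smul c X

omit [CompleteSpace K] in
theorem op_mem_of_near {s : Set (K →L[ℂ] K)} (hs : IsClosed s) {X : K →L[ℂ] K}
    (h : ∀ ε > 0, ∃ Y ∈ s, ‖X - Y‖ < ε) : X ∈ s :=
  hs.closure_subset (Metric.mem_closure_iff.2 fun ε hε => by
    obtain ⟨Y, hY, hd⟩ := h ε hε
    exact ⟨Y, hY, by rwa [dist_eq_norm]⟩)

namespace Ctx

variable (C : Ctx K)

/-! ### The operators `gam a b` -/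

theorem smul_mul_L (c : ℂ) (X Y : C.L →L[ℂ] C.L) : (c • X) * Y = c • (X * Y) :=
  ContinuousLinearMap.ext fun _ => rfl

theorem mul_smul_L (c : ℂ) (X Y : C.L →L[ℂ] C.L) : X * (c • Y) = c • (X * Y) :=
  ContinuousLinearMap.ext fun v => X.map_smul c (Y v)

theorem zero_smul_L (X : C.L →L[ℂ] C.L) : (0 : ℂ) • X = 0 :=
  ContinuousLinearMap.ext fun v => zero_smul ℂ (X v)

theorem neg_one_smul_L (X : C.L →L[ℂ] C.L) : (-1 : ℂ) • X = -X :=
  ContinuousLinearMap.ext fun v => neg_one_smul ℂ (X v)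

theorem ext_em {X Y : C.L →L[ℂ] C.L} (h : ∀ f, X (C.em f) = Y (C.em f)) : X = Y :=
  DFunLike.coe_injective (C.denseRange_em.equalizer X.continuous Y.continuous (funext h))

theorem em_congr {a b : C.A} (h : (a : K →L[ℂ] K) = b) : C.em a = C.em b :=
  congrArg C.em (Subtype.ext h)

theorem inner_em (f g : C.A) :
    ⟪C.em f, C.em g⟫_ℂ = C.tr (star (f : K →L[ℂ] K) * g) := by
  rw [Submodule.coe_inner]
  exact C.inner_apply _ _

theorem inner_gam_em {a b : K →L[ℂ] K} (ha : a ∈ C.M) (hb : b ∈ C.M) (f g : C.A) :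
    ⟪C.em g, C.gam a b (C.em f)⟫_ℂ = C.tr (star (g : K →L[ℂ] K) * (a * f * b)) := by
  rw [C.gam_em ha hb, C.inner_em]
  have h := mul_mem (mul_mem ha (C.hAM f.2)) hb
  rw [← C.tr_E (mul_mem (C.hAM (star_mem g.2)) h), C.E_mul_left (star_mem g.2) h]

theorem gam_add_left {a a' b : K →L[ℂ] K} (ha : a ∈ C.M) (ha' : a' ∈ C.M) (hb : b ∈ C.M) :
    C.gam (a + a') b = C.gam a b + C.gam a' b := C.ext_em fun f => by
  rw [add_apply, C.gam_em (add_mem ha ha') hb, C.gam_em ha hb, C.gam_em ha' hb, ← map_add]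
  refine C.em_congr ?_
  change C.E _ = C.E _ + C.E _
  rw [← C.E_add (mul_mem (mul_mem ha (C.hAM f.2)) hb) (mul_mem (mul_mem ha' (C.hAM f.2)) hb),
    add_mul, add_mul]

theorem gam_add_right {a b b' : K →L[ℂ] K} (ha : a ∈ C.M) (hb : b ∈ C.M) (hb' : b' ∈ C.M) :
    C.gam a (b + b') = C.gam a b + C.gam a b' := C.ext_em fun f => by
  rw [add_apply, C.gam_em ha (add_mem hb hb'), C.gam_em ha hb, C.gam_em ha hb', ← map_add]
  refine C.em_congr ?_
  change C.E _ = C.E _ + C.E _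
  rw [← C.E_add (mul_mem (mul_mem ha (C.hAM f.2)) hb) (mul_mem (mul_mem ha (C.hAM f.2)) hb'),
    mul_add]

theorem gam_smul_left (c : ℂ) {a b : K →L[ℂ] K} (ha : a ∈ C.M) (hb : b ∈ C.M) :
    C.gam (c • a) b = c • C.gam a b := C.ext_em fun f => by
  rw [smul_apply, C.gam_em (C.M.smul_mem ha c) hb, C.gam_em ha hb, ← map_smul]
  refine C.em_congr ?_
  change C.E _ = c • C.E _
  rw [← C.E_smul c (mul_mem (mul_mem ha (C.hAM f.2)) hb), smul_mul_assoc, smul_mul_assoc]

theorem gam_smul_right (c : ℂ) {a b : K →L[ℂ] K} (ha : a ∈ C.M) (hb : b ∈ C.M) :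
    C.gam a (c • b) = c • C.gam a b := C.ext_em fun f => by
  rw [smul_apply, C.gam_em ha (C.M.smul_mem hb c), C.gam_em ha hb, ← map_smul]
  refine C.em_congr ?_
  change C.E _ = c • C.E _
  rw [← C.E_smul c (mul_mem (mul_mem ha (C.hAM f.2)) hb), mul_smul_comm]

theorem gam_zero_left {b : K →L[ℂ] K} (hb : b ∈ C.M) : C.gam 0 b = 0 := by
  have h := C.gam_smul_left 0 (zero_mem C.M) hb
  rw [zero_smul] at h
  exact h.trans (C.zero_smul_L _)

theorem gam_zero_right {a : K →L[ℂ] K} (ha : a ∈ C.M) : C.gam a 0 = 0 := by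
  have h := C.gam_smul_right 0 ha (zero_mem C.M)
  rw [zero_smul] at h
  exact h.trans (C.zero_smul_L _)

theorem gam_sub_left {a a' b : K →L[ℂ] K} (ha : a ∈ C.M) (ha' : a' ∈ C.M) (hb : b ∈ C.M) :
    C.gam (a - a') b = C.gam a b - C.gam a' b := by
  rw [eq_sub_iff_add_eq, ← C.gam_add_left (sub_mem ha ha') ha' hb, sub_add_cancel]

theorem gam_sub_right {a b b' : K →L[ℂ] K} (ha : a ∈ C.M) (hb : b ∈ C.M) (hb' : b' ∈ C.M) :
    C.gam a (b - b') = C.gam a b - C.gam a b' := by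
  rw [eq_sub_iff_add_eq, ← C.gam_add_right ha (sub_mem hb hb') hb', sub_add_cancel]

theorem gam_neg_left {a b : K →L[ℂ] K} (ha : a ∈ C.M) (hb : b ∈ C.M) :
    C.gam (-a) b = -C.gam a b := by
  rw [← neg_one_smul ℂ a, C.gam_smul_left _ ha hb]
  exact C.neg_one_smul_L _

theorem gam_neg_right {a b : K →L[ℂ] K} (ha : a ∈ C.M) (hb : b ∈ C.M) :
    C.gam a (-b) = -C.gam a b := by
  rw [← neg_one_smul ℂ b, C.gam_smul_right _ ha hb]
  exact C.neg_one_smul_L _

theorem gam_sum_left {ι : Type*} (t : Finset ι) {a : ι → K →L[ℂ] K} {b : K →L[ℂ] K}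
    (ha : ∀ i ∈ t, a i ∈ C.M) (hb : b ∈ C.M) :
    C.gam (∑ i ∈ t, a i) b = ∑ i ∈ t, C.gam (a i) b := by
  classical
  induction t using Finset.induction_on with
  | empty => simp [C.gam_zero_left hb]
  | @insert i t hi ih =>
    rw [Finset.sum_insert hi, Finset.sum_insert hi, C.gam_add_left (ha i (Finset.mem_insert_self i t))
      (sum_mem fun j hj => ha j (Finset.mem_insert_of_mem hj)) hb,
      ih fun j hj => ha j (Finset.mem_insert_of_mem hj)]

theorem gam_sum_right {ι : Type*} (t : Finset ι) {a : K →L[ℂ] K} {b : ι → K →L[ℂ] K}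
    (ha : a ∈ C.M) (hb : ∀ i ∈ t, b i ∈ C.M) :
    C.gam a (∑ i ∈ t, b i) = ∑ i ∈ t, C.gam a (b i) := by
  classical
  induction t using Finset.induction_on with
  | empty => simp [C.gam_zero_right ha]
  | @insert i t hi ih =>
    rw [Finset.sum_insert hi, Finset.sum_insert hi, C.gam_add_right ha
      (hb i (Finset.mem_insert_self i t)) (sum_mem fun j hj => hb j (Finset.mem_insert_of_mem hj)),
      ih fun j hj => hb j (Finset.mem_insert_of_mem hj)]

theorem star_gam {a b : K →L[ℂ] K} (ha : a ∈ C.M) (hb : b ∈ C.M) :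
    star (C.gam a b) = C.gam (star a) (star b) := by
  refine ((ContinuousLinearMap.eq_adjoint_iff _ _).2 fun x y => ?_).symm
  refine C.denseRange_em.induction_on x (isClosed_eq (by fun_prop) (by fun_prop)) fun g => ?_
  refine C.denseRange_em.induction_on y (isClosed_eq (by fun_prop) (by fun_prop)) fun f => ?_
  rw [← inner_conj_symm, C.inner_gam_em (star_mem ha) (star_mem hb), C.inner_gam_em ha hb,
    ← C.tr_star]
  simp only [star_mul, star_star, mul_assoc]
  rw [C.tr_comm hb (mul_mem (C.hAM (star_mem g.2)) (mul_mem ha (C.hAM f.2)))]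
  simp only [mul_assoc]

theorem gam_one_one : C.gam 1 1 = 1 := C.ext_em fun f => by
  rw [C.gam_em (one_mem _) (one_mem _), one_apply_eq_self]
  refine C.em_congr ?_
  change C.E _ = _
  rw [one_mul, mul_one, C.E_of_mem f.2]

theorem gam_A_one_mul {c a b : K →L[ℂ] K} (hc : c ∈ C.A) (ha : a ∈ C.M) (hb : b ∈ C.M) :
    C.gam c 1 * C.gam a b = C.gam (c * a) b := C.ext_em fun f => by
  rw [mul_apply_eq_comp, C.gam_em ha hb, C.gam_em (C.hAM hc) (one_mem _),
    C.gam_em (mul_mem (C.hAM hc) ha) hb]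
  refine C.em_congr ?_
  change C.E (c * C.E _ * 1) = C.E _
  rw [mul_one, ← C.E_mul_left hc (mul_mem (mul_mem ha (C.hAM f.2)) hb), C.E_of_mem (C.E_mem _),
    mul_assoc c a, mul_assoc]
  simp only [mul_assoc]

theorem gam_mul_gam_A_one {c a b : K →L[ℂ] K} (hc : c ∈ C.A) (ha : a ∈ C.M) (hb : b ∈ C.M) :
    C.gam a b * C.gam c 1 = C.gam (a * c) b := C.ext_em fun f => by
  rw [mul_apply_eq_comp, C.gam_em (C.hAM hc) (one_mem _), C.gam_em ha hb,
    C.gam_em (mul_mem ha (C.hAM hc)) hb]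
  refine C.em_congr ?_
  change C.E (a * C.E (c * (f : K →L[ℂ] K) * 1) * b) = C.E _
  rw [mul_one, C.E_of_mem (mul_mem hc f.2), mul_assoc a c]

theorem gam_op_one_mul (f : C(C.Spec, ℝ)) {a b : K →L[ℂ] K} (ha : a ∈ C.M) (hb : b ∈ C.M) :
    C.gam (C.op f) 1 * C.gam a b = C.gam (C.op f * a) b :=
  C.gam_A_one_mul (C.op_mem f) ha hb

theorem gam_mul_gam_op_one (f : C(C.Spec, ℝ)) {a b : K →L[ℂ] K} (ha : a ∈ C.M) (hb : b ∈ C.M) :
    C.gam a b * C.gam (C.op f) 1 = C.gam (a * C.op f) b :=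
  C.gam_mul_gam_A_one (C.op_mem f) ha hb

theorem hs_gam_le_left (s : Part C) {a b : K →L[ℂ] K} (ha : a ∈ C.M) (hb : b ∈ C.M) :
    C.hs s (C.gam a b) ≤ ‖b‖ ^ 2 * C.nrm a ^ 2 := by
  rw [← C.nrm_star ha, nrm, ← C.sum_sq_norm s, Finset.mul_sum]
  refine Finset.sum_le_sum fun i _ => ?_
  rw [← mul_pow, vec, C.gam_em ha hb, C.norm_em]
  refine pow_le_pow_left₀ (norm_nonneg _) ?_ 2
  refine (C.nrm_E_le (mul_mem (mul_mem ha (C.op_mem_M _)) hb)).trans ?_
  refine (C.nrm_mul_le_right (mul_mem ha (C.op_mem_M _)) hb).trans_eq ?_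
  rw [← C.nrm_star (mul_mem ha (C.op_mem_M _)), star_mul, (C.op_sa _).star_eq, mul_comm]
  rfl

theorem hs_gam_le_right (s : Part C) {a b : K →L[ℂ] K} (ha : a ∈ C.M) (hb : b ∈ C.M) :
    C.hs s (C.gam a b) ≤ ‖a‖ ^ 2 * C.nrm b ^ 2 := by
  rw [nrm, ← C.sum_sq_norm s, Finset.mul_sum]
  refine Finset.sum_le_sum fun i _ => ?_
  rw [← mul_pow, vec, C.gam_em ha hb, C.norm_em]
  refine pow_le_pow_left₀ (norm_nonneg _) ?_ 2
  refine (C.nrm_E_le (mul_mem (mul_mem ha (C.op_mem_M _)) hb)).trans ?_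
  rw [mul_assoc]
  exact C.nrm_mul_le_left _ _

/-! ### Normalising partial isometries -/

theorem GN_mem {u : K →L[ℂ] K} (hu : u ∈ C.GN) : u ∈ C.M := hu.1

theorem GN_star_mul_self {u : K →L[ℂ] K} (hu : u ∈ C.GN) : star u * u ∈ C.A := by
  simpa using hu.2.2.2 1 (one_mem _)

theorem GN_mul_star_self {u : K →L[ℂ] K} (hu : u ∈ C.GN) : u * star u ∈ C.A := by
  simpa using hu.2.2.1 1 (one_mem _)

theorem GN_one : (1 : K →L[ℂ] K) ∈ C.GN :=
  ⟨one_mem _, by simp, fun a ha => by simpa using ha, fun a ha => by simpa using ha⟩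

theorem GN_star {u : K →L[ℂ] K} (hu : u ∈ C.GN) : star u ∈ C.GN := by
  refine ⟨star_mem hu.1, ?_, fun a ha => ?_, fun a ha => ?_⟩
  · have h := congrArg star hu.2.1
    simpa [mul_assoc] using h
  · simpa using hu.2.2.2 a ha
  · simpa using hu.2.2.1 a ha

theorem GN_mul {u v : K →L[ℂ] K} (hu : u ∈ C.GN) (hv : v ∈ C.GN) : u * v ∈ C.GN := by
  refine ⟨mul_mem hu.1 hv.1, ?_, fun a ha => ?_, fun a ha => ?_⟩
  · calc u * v * star (u * v) * (u * v)
        = u * ((v * star v) * (star u * u)) * v := by simp only [star_mul, mul_assoc]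
      _ = u * ((star u * u) * (v * star v)) * v := by
          rw [C.A_comm (C.GN_mul_star_self hv) (C.GN_star_mul_self hu)]
      _ = (u * star u * u) * (v * star v * v) := by simp only [mul_assoc]
      _ = u * v := by rw [hu.2.1, hv.2.1]
  · have := hu.2.2.1 _ (hv.2.2.1 a ha)
    simpa [mul_assoc] using this
  · have := hv.2.2.2 _ (hu.2.2.2 a ha)
    simpa [mul_assoc] using this

theorem GN_op {p : C(C.Spec, ℝ)} (hp : p * p = p) : C.op p ∈ C.GN := by
  refine ⟨C.op_mem_M p, ?_, fun a ha => ?_, fun a ha => ?_⟩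
  · rw [(C.op_sa p).star_eq, ← map_mul, hp, ← map_mul, hp]
  · exact mul_mem (mul_mem (C.op_mem p) ha) (star_mem (C.op_mem p))
  · exact mul_mem (mul_mem (star_mem (C.op_mem p)) ha) (C.op_mem p)

theorem uop_em {u : K →L[ℂ] K} (hu : u ∈ C.GN) (f : C.A) :
    C.uop u (C.em f) = C.em ⟨u * f * star u, hu.2.2.1 f f.2⟩ := by
  rw [uop, C.gam_em hu.1 (star_mem hu.1)]
  exact C.em_congr (C.E_of_mem (hu.2.2.1 f f.2))

theorem uop_one : C.uop 1 = 1 := by rw [uop, star_one, C.gam_one_one]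

theorem uop_mul {u v : K →L[ℂ] K} (hu : u ∈ C.GN) (hv : v ∈ C.GN) :
    C.uop u * C.uop v = C.uop (u * v) := C.ext_em fun f => by
  rw [mul_apply_eq_comp, C.uop_em hv, C.uop_em hu, C.uop_em (C.GN_mul hu hv)]
  exact C.em_congr (by simp [star_mul, mul_assoc])

theorem star_uop {u : K →L[ℂ] K} (hu : u ∈ C.GN) : star (C.uop u) = C.uop (star u) := by
  rw [uop, C.star_gam hu.1 (star_mem hu.1), star_star, uop, star_star]

theorem GN_comm {u : K →L[ℂ] K} (hu : u ∈ C.GN) {f : K →L[ℂ] K} (hf : f ∈ C.A) :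
    u * f = u * f * (star u * u) := by
  rw [mul_assoc, C.A_comm hf (C.GN_star_mul_self hu), ← mul_assoc, ← mul_assoc, hu.2.1]

theorem gam_GN {u v : K →L[ℂ] K} (hu : u ∈ C.GN) (hv : v ∈ C.M) :
    C.gam u v = C.gam (C.E (u * v)) 1 * C.uop u := C.ext_em fun f => by
  rw [mul_apply_eq_comp, C.uop_em hu, C.gam_em (C.E_mem_M _) (one_mem _), C.gam_em hu.1 hv]
  refine C.em_congr ?_
  have hA := hu.2.2.1 f f.2
  change C.E (u * f * v) = C.E (C.E (u * v) * (u * f * star u) * 1)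
  rw [mul_one, C.E_of_mem (mul_mem (C.E_mem _) hA), C.A_comm (C.E_mem _) hA,
    ← C.E_mul_left hA (mul_mem hu.1 hv)]
  congr 1
  conv_lhs => rw [C.GN_comm hu f.2]
  simp only [mul_assoc]

theorem E_eq_of_tr {y a' : K →L[ℂ] K} (hy : y ∈ C.M) (ha : a' ∈ C.A)
    (h : ∀ g ∈ C.A, C.tr (g * y) = C.tr (g * a')) : C.E y = a' := by
  set d := C.E y - a' with hd
  have hdA : d ∈ C.A := sub_mem (C.E_mem y) ha
  have h1 : C.tr (star d * C.E y) = C.tr (star d * y) := by
    rw [← C.tr_E (mul_mem (C.hAM (star_mem hdA)) hy), C.E_mul_left (star_mem hdA) hy]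
  have h2 : C.tr (star d * d) = 0 := by
    conv_lhs => arg 2; arg 2; rw [hd]
    rw [mul_sub, C.tr_sub, h1, h _ (star_mem hdA), sub_self]
  rw [C.tr_star_mul_self, sq_eq_zero_iff, Complex.ofReal_eq_zero] at h2
  exact sub_eq_zero.1 (C.hsep d (C.hAM hdA) (norm_eq_zero.1 h2))

/-- The expectation commutes with normalising partial isometries. -/
theorem E_conj {u x : K →L[ℂ] K} (hu : u ∈ C.GN) (hx : x ∈ C.M) :
    C.E (star u * x * u) = star u * C.E x * u := by
  refine C.E_eq_of_tr (mul_mem (mul_mem (star_mem hu.1) hx) hu.1) (hu.2.2.2 _ (C.E_mem x))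
    fun g hg => ?_
  have hA := hu.2.2.1 g hg
  have key : ∀ z ∈ C.M, C.tr (g * (star u * z * u)) = C.tr (u * g * star u * z) := by
    intro z hz
    calc C.tr (g * (star u * z * u)) = C.tr (g * star u * z * u) := by simp only [mul_assoc]
      _ = C.tr (u * (g * star u * z)) :=
          C.tr_comm (mul_mem (mul_mem (C.hAM hg) (star_mem hu.1)) hz) hu.1
      _ = _ := by simp only [mul_assoc]
  rw [key x hx, key _ (C.E_mem_M x), ← C.tr_E (mul_mem (C.hAM hA) hx), C.E_mul_left hA hx]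

theorem nrm_E_mul_le {u v : K →L[ℂ] K} (hu : u ∈ C.GN) (hv : v ∈ C.M) :
    C.nrm (C.E (v * u)) ≤ C.nrm (C.E (u * v)) := by
  have hP := C.GN_star_mul_self hu
  have e1 : C.E (star u * (u * v) * u) = C.E (v * u) := by
    rw [show star u * (u * v) * u = star u * u * (v * u) by simp only [mul_assoc],
      C.E_mul_left hP (mul_mem hv hu.1), C.A_comm hP (C.E_mem _),
      ← C.E_mul_right hP (mul_mem hv hu.1),
      show v * u * (star u * u) = v * (u * star u * u) by simp only [mul_assoc], hu.2.1]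
  rw [← e1, C.E_conj hu (mul_mem hu.1 hv)]
  have hn : ‖u‖ ≤ 1 := by
    have h1 : (star u * u) * (star u * u) = star u * u := by
      calc (star u * u) * (star u * u) = star u * (u * star u * u) := by simp only [mul_assoc]
        _ = _ := by rw [hu.2.1]
    have h2 : ‖star u * u‖ ≤ 1 :=
      IsStarProjection.norm_le _ ⟨h1, IsSelfAdjoint.star_mul_self u⟩
    rw [CStarRing.norm_star_mul_self] at h2
    nlinarith [norm_nonneg u]
  refine (C.nrm_mul_le_right (mul_mem (star_mem hu.1) (C.E_mem_M _)) hu.1).trans ?_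
  refine (mul_le_mul_of_nonneg_right (C.nrm_mul_le_left _ _) (norm_nonneg u)).trans ?_
  rw [norm_star]
  calc ‖u‖ * C.nrm (C.E (u * v)) * ‖u‖ ≤ 1 * C.nrm (C.E (u * v)) * 1 :=
        mul_le_mul (mul_le_mul_of_nonneg_right hn (norm_nonneg _)) hn (norm_nonneg _)
          (mul_nonneg zero_le_one (norm_nonneg _))
    _ = _ := by rw [one_mul, mul_one]

/-! ### Diagonal sums -/

theorem inner_vec_gam {a b : K →L[ℂ] K} (ha : a ∈ C.M) (hb : b ∈ C.M) (c : C(C.Spec, ℝ)) :
    ⟪C.vec c, C.gam a b (C.vec c)⟫_ℂ = C.tr (C.op c * a * C.op c * b) := by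
  rw [vec, C.inner_gam_em ha hb]
  simp only [(C.op_sa c).star_eq, mul_assoc]

theorem trS_gam (s : Part C) {a b : K →L[ℂ] K} (ha : a ∈ C.M) (hb : b ∈ C.M) :
    C.trS s (C.gam a b) = C.tr (b * C.pinchP s a) := by
  rw [← C.tr_comm (C.pinchP_mem s ha) hb, pinchP, Finset.sum_mul, C.tr_sum, trS]
  exact Finset.sum_congr rfl fun i _ => C.inner_vec_gam ha hb _

theorem tendsto_trS_gam {a b : K →L[ℂ] K} (ha : a ∈ C.M) (hb : b ∈ C.M) :
    Tendsto (fun s : Part C => C.trS s (C.gam a b)) atTop (𝓝 (C.tr (C.E a * C.E b))) := by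
  have e : C.tr (C.E a * C.E b) = C.tr (b * C.E a) := by
    rw [C.tr_comm (C.E_mem_M a) (C.E_mem_M b), ← C.E_mul_right (C.E_mem a) hb,
      C.tr_E (mul_mem hb (C.E_mem_M a))]
  rw [e]
  exact (C.tendsto_tr_pinchP ha b).congr fun s => (C.trS_gam s ha hb).symm

theorem tendsto_trS_uop {u : K →L[ℂ] K} (hu : u ∈ C.GN) :
    Tendsto (fun s : Part C => C.trS s (C.uop u)) atTop (𝓝 ((C.nrm (C.E u) : ℂ) ^ 2)) := by
  have h := C.tendsto_trS_gam hu.1 (star_mem hu.1)
  rwa [C.E_star hu.1, C.tr_comm (C.E_mem_M u) (star_mem (C.E_mem_M u)), C.tr_star_mul_self] at h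

theorem trS_add (s : Part C) (X Y : C.L →L[ℂ] C.L) :
    C.trS s (X + Y) = C.trS s X + C.trS s Y := by
  simp [trS, Finset.sum_add_distrib]

theorem trS_sub (s : Part C) (X Y : C.L →L[ℂ] C.L) :
    C.trS s (X - Y) = C.trS s X - C.trS s Y := by
  simp [trS, Finset.sum_sub_distrib]

theorem trS_smul (s : Part C) (c : ℂ) (X : C.L →L[ℂ] C.L) :
    C.trS s (c • X) = c * C.trS s X := by
  simp [trS, Finset.mul_sum]

theorem trS_zero (s : Part C) : C.trS s 0 = 0 := by simp [trS]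

theorem trS_sum (s : Part C) {ι : Type*} (t : Finset ι) (X : ι → C.L →L[ℂ] C.L) :
    C.trS s (∑ j ∈ t, X j) = ∑ j ∈ t, C.trS s (X j) := by
  classical
  induction t using Finset.induction_on with
  | empty => simp [trS_zero]
  | @insert i t hi ih => rw [Finset.sum_insert hi, Finset.sum_insert hi, C.trS_add, ih]

theorem sum_norm_vec (s : Part C) : ∑ i, ‖C.vec (s.c i)‖ ^ 2 = ‖C.Ω‖ ^ 2 :=
  C.sum_sq_norm s C.Ω

theorem trS_one (s : Part C) : C.trS s 1 = (‖C.Ω‖ : ℂ) ^ 2 := by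
  simp only [trS, one_apply_eq_self, inner_self_eq_norm_sq_to_K]
  rw [← Complex.ofReal_pow, ← C.sum_norm_vec s, Complex.ofReal_sum]
  simp

theorem trS_re_mono (s : Part C) {X Y : C.L →L[ℂ] C.L} (h : X ≤ Y) :
    (C.trS s X).re ≤ (C.trS s Y).re := by
  rw [← sub_nonneg, ← Complex.sub_re, ← C.trS_sub, trS, Complex.re_sum]
  refine Finset.sum_nonneg fun i _ => ?_
  exact ((ContinuousLinearMap.nonneg_iff_isPositive _).1 (sub_nonneg.2 h)).re_inner_nonneg_right _

theorem norm_trS_le (s : Part C) (X Y : C.L →L[ℂ] C.L) :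
    ‖C.trS s (star X * Y)‖ ≤ Real.sqrt (C.hs s X) * Real.sqrt (C.hs s Y) := by
  refine (norm_sum_le _ _).trans ?_
  refine le_trans (Finset.sum_le_sum fun i _ => ?_) (Real.sum_mul_le_sqrt_mul_sqrt Finset.univ
    (fun i => ‖X (C.vec (s.c i))‖) (fun i => ‖Y (C.vec (s.c i))‖))
  rw [ContinuousLinearMap.star_eq_adjoint, mul_apply_eq_comp,
    ContinuousLinearMap.adjoint_inner_right]
  exact norm_inner_le_norm _ _

theorem hs_nonneg (s : Part C) (X : C.L →L[ℂ] C.L) : 0 ≤ C.hs s X :=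
  Finset.sum_nonneg fun _ _ => sq_nonneg _

theorem hs_add_le (s : Part C) (X Y : C.L →L[ℂ] C.L) :
    C.hs s (X + Y) ≤ 2 * C.hs s X + 2 * C.hs s Y := by
  rw [hs, hs, hs, Finset.mul_sum, Finset.mul_sum, ← Finset.sum_add_distrib]
  refine Finset.sum_le_sum fun i _ => ?_
  rw [add_apply]
  nlinarith [norm_add_le (X (C.vec (s.c i))) (Y (C.vec (s.c i))),
    norm_nonneg (X (C.vec (s.c i)) + Y (C.vec (s.c i))),
    sq_nonneg (‖X (C.vec (s.c i))‖ - ‖Y (C.vec (s.c i))‖)]

theorem hs_sub_comm (s : Part C) (X Y : C.L →L[ℂ] C.L) : C.hs s (X - Y) = C.hs s (Y - X) := by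
  simp only [hs, sub_apply, norm_sub_rev]

theorem hs_smul (s : Part C) (c : ℂ) (X : C.L →L[ℂ] C.L) :
    C.hs s (c • X) = ‖c‖ ^ 2 * C.hs s X := by
  simp only [hs, smul_apply, norm_smul, mul_pow, Finset.mul_sum]

theorem hs_mul_le (s : Part C) (X Y : C.L →L[ℂ] C.L) :
    C.hs s (X * Y) ≤ ‖X‖ ^ 2 * C.hs s Y := by
  rw [hs, hs, Finset.mul_sum]
  refine Finset.sum_le_sum fun i _ => ?_
  rw [← mul_pow]
  exact pow_le_pow_left₀ (norm_nonneg _) (X.le_opNorm _) 2

theorem hs_le_norm (s : Part C) (X : C.L →L[ℂ] C.L) : C.hs s X ≤ ‖X‖ ^ 2 * ‖C.Ω‖ ^ 2 := by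
  rw [← C.sum_norm_vec s, hs, Finset.mul_sum]
  refine Finset.sum_le_sum fun i _ => ?_
  rw [← mul_pow]
  exact pow_le_pow_left₀ (norm_nonneg _) (X.le_opNorm _) 2

theorem trS_star_mul_self (s : Part C) (X : C.L →L[ℂ] C.L) :
    (C.trS s (star X * X)).re = C.hs s X := by
  rw [trS, Complex.re_sum, hs]
  refine Finset.sum_congr rfl fun i _ => ?_
  rw [ContinuousLinearMap.star_eq_adjoint, mul_apply_eq_comp,
    ContinuousLinearMap.adjoint_inner_right]
  exact inner_self_eq_norm_sq (𝕜 := ℂ) _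

/-! ### Images of partitions -/

/-- The symbol of `u p u*`. -/
def img (u : K →L[ℂ] K) (p : C(C.Spec, ℝ)) : C(C.Spec, ℝ) := C.re (u * C.op p * star u)

theorem op_img {u : K →L[ℂ] K} (hu : u ∈ C.GN) (p : C(C.Spec, ℝ)) :
    C.op (C.img u p) = u * C.op p * star u :=
  C.op_re (hu.2.2.1 _ (C.op_mem p)) (IsSelfAdjoint.conjugate (C.op_sa p) u)

theorem img_idem {u : K →L[ℂ] K} (hu : u ∈ C.GN) {p : C(C.Spec, ℝ)} (hp : p * p = p) :
    C.img u p * C.img u p = C.img u p := by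
  refine C.op_inj ?_
  rw [map_mul, C.op_img hu]
  calc u * C.op p * star u * (u * C.op p * star u)
      = (u * C.op p * (star u * u)) * (C.op p * star u) := by simp only [mul_assoc]
    _ = (u * C.op p) * (C.op p * star u) := by rw [← C.GN_comm hu (C.op_mem p)]
    _ = _ := by rw [mul_assoc u, ← mul_assoc (C.op p), ← map_mul, hp, ← mul_assoc]

theorem sum_img {u : K →L[ℂ] K} (hu : u ∈ C.GN) (s : Part C) :
    ∑ i, C.img u (s.c i) = C.img u 1 := by
  refine C.op_inj ?_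
  simp only [map_sum, C.op_img hu]
  rw [← Finset.sum_mul, ← Finset.mul_sum, C.op_sum_eq, map_one]

theorem mul_img {u : K →L[ℂ] K} (hu : u ∈ C.GN) (p c : C(C.Spec, ℝ)) :
    p * C.img u c = C.img u (C.img (star u) p * c) := by
  refine C.op_inj ?_
  rw [map_mul, C.op_img hu, C.op_img hu, map_mul, C.op_img (C.GN_star hu), star_star]
  calc C.op p * (u * C.op c * star u) = C.op p * ((u * star u * u) * C.op c * star u) := by
        rw [hu.2.1]
    _ = (C.op p * (u * star u)) * (u * C.op c * star u) := by simp only [mul_assoc]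
    _ = ((u * star u) * C.op p) * (u * C.op c * star u) := by
        rw [C.A_comm (C.op_mem p) (C.GN_mul_star_self hu)]
    _ = _ := by simp only [mul_assoc]

theorem img_zero {u : K →L[ℂ] K} (hu : u ∈ C.GN) : C.img u 0 = 0 := by
  refine C.op_inj ?_
  rw [C.op_img hu, map_zero, mul_zero, zero_mul]

/-- The image of a partition under `u`, completed by the old pieces outside `u u*`. -/
def imgPart {u : K →L[ℂ] K} (hu : u ∈ C.GN) (s : Part C) : Part C :=
  Part.ofFintype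
    (Sum.elim (fun i => C.img u (s.c i)) (fun j => (1 - C.img u 1) * s.c j) :
      Fin s.n ⊕ Fin s.n → C(C.Spec, ℝ))
    (fun k => by
      rcases k with i | j
      · exact C.img_idem hu (s.idem i)
      · simp only [Sum.elim_inr]
        rw [mul_mul_mul_comm, s.idem, mul_sub, mul_one, sub_mul 1 (C.img u 1) (C.img u 1), one_mul,
          C.img_idem hu (one_mul 1), sub_self, sub_zero])
    (by
      rw [Fintype.sum_sum_type]
      simp only [Sum.elim_inl, Sum.elim_inr]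
      rw [C.sum_img hu, ← Finset.mul_sum, s.sum_eq, mul_one, add_sub_cancel])

theorem eventually_le_imgPart {u : K →L[ℂ] K} (hu : u ∈ C.GN) (s₁ : Part C) :
    ∀ᶠ s : Part C in atTop, s₁ ≤ C.imgPart hu s := by
  have hr : ∀ k, C.img (star u) (s₁.c k) * C.img (star u) (s₁.c k) = C.img (star u) (s₁.c k) :=
    fun k => C.img_idem (C.GN_star hu) (s₁.idem k)
  filter_upwards [eventually_ge_atTop s₁,
    eventually_all.2 fun k => eventually_ge_atTop (Part.pair _ (hr k))] with s h1 h2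
  refine Part.le_ofFintype fun k x => ?_
  rcases x with i | j
  · simp only [Sum.elim_inl]
    rw [C.mul_img hu]
    rcases Part.resolve (h2 k) i with e | e
    · exact Or.inl (by rw [e])
    · exact Or.inr (by rw [e, C.img_zero hu])
  · simp only [Sum.elim_inr]
    rw [mul_left_comm]
    rcases h1 k j with e | e
    · exact Or.inl (by rw [e])
    · exact Or.inr (by rw [e, mul_zero])

theorem hs_mul_uop_le {u : K →L[ℂ] K} (hu : u ∈ C.GN) (s : Part C) (D : C.L →L[ℂ] C.L) :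
    C.hs s (D * C.uop u) ≤ C.hs (C.imgPart hu s) D := by
  rw [hs, hs, imgPart, Part.sum_ofFintype (fun q => ‖D (C.vec q)‖ ^ 2), Fintype.sum_sum_type]
  refine le_add_of_le_of_nonneg (Finset.sum_le_sum fun i _ => le_of_eq ?_)
    (Finset.sum_nonneg fun _ _ => sq_nonneg _)
  simp only [Sum.elim_inl]
  rw [mul_apply_eq_comp, vec, vec, C.uop_em hu]
  congr 3
  exact C.em_congr (C.op_img hu _).symm

/-! ### The algebra of exact elements and the trace system -/

/-- The span of the conjugations. -/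
def B0 : StarSubalgebra ℂ (C.L →L[ℂ] C.L) :=
  { (Submodule.span ℂ (C.uop '' C.GN)).toSubalgebra
      (Submodule.subset_span ⟨1, C.GN_one, C.uop_one⟩)
      (fun X Y hX hY => by
        induction hX, hY using Submodule.span_induction₂ with
        | mem_mem X Y hX hY =>
          obtain ⟨u, hu, rfl⟩ := hX
          obtain ⟨v, hv, rfl⟩ := hY
          rw [C.uop_mul hu hv]
          exact Submodule.subset_span ⟨_, C.GN_mul hu hv, rfl⟩
        | zero_left Y _ => rw [zero_mul]; exact zero_mem _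
        | zero_right X _ => rw [mul_zero]; exact zero_mem _
        | add_left X X' Y _ _ _ h h' => rw [add_mul]; exact add_mem h h'
        | add_right X Y Y' _ _ _ h h' => rw [mul_add]; exact add_mem h h'
        | smul_left c X Y _ _ h => rw [C.smul_mul_L]; exact Submodule.smul_mem _ c h
        | smul_right c X Y _ _ h => rw [C.mul_smul_L]; exact Submodule.smul_mem _ c h) with
    star_mem' := fun {X} hX => by
      change star X ∈ Submodule.span ℂ (C.uop '' C.GN)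
      change X ∈ Submodule.span ℂ (C.uop '' C.GN) at hX
      induction hX using Submodule.span_induction with
      | mem X hX =>
        obtain ⟨u, hu, rfl⟩ := hX
        rw [C.star_uop hu]
        exact Submodule.subset_span ⟨_, C.GN_star hu, rfl⟩
      | zero => exact (star_zero (C.L →L[ℂ] C.L)).symm ▸ zero_mem _
      | add X Y _ _ h h' => exact (star_add X Y).symm ▸ add_mem h h'
      | smul c X _ h => exact (op_star_smul (K := C.L) c X).symm ▸ Submodule.smul_mem _ _ h }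

theorem mem_B0 {X : C.L →L[ℂ] C.L} : X ∈ C.B0 ↔ X ∈ Submodule.span ℂ (C.uop '' C.GN) := Iff.rfl

theorem uop_mem_B0 {u : K →L[ℂ] K} (hu : u ∈ C.GN) : C.uop u ∈ C.B0 :=
  Submodule.subset_span ⟨u, hu, rfl⟩

theorem exists_trS_B0 {W : C.L →L[ℂ] C.L} (hW : W ∈ C.B0) :
    ∃ t, Tendsto (fun s : Part C => C.trS s W) atTop (𝓝 t) := by
  rw [mem_B0] at hW
  induction hW using Submodule.span_induction with
  | mem X hX =>
    obtain ⟨u, hu, rfl⟩ := hX
    exact ⟨_, C.tendsto_trS_uop hu⟩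
  | zero => exact ⟨0, by simp [trS_zero]⟩
  | add X Y _ _ h h' =>
    obtain ⟨t, ht⟩ := h
    obtain ⟨t', ht'⟩ := h'
    exact ⟨t + t', by simpa [trS_add] using ht.add ht'⟩
  | smul c X _ h =>
    obtain ⟨t, ht⟩ := h
    exact ⟨c * t, by simpa [trS_smul] using ht.const_mul c⟩

theorem tendsto_trS_B0_comm {V W : C.L →L[ℂ] C.L} (hV : V ∈ C.B0) (hW : W ∈ C.B0) :
    Tendsto (fun s : Part C => C.trS s (V * W) - C.trS s (W * V)) atTop (𝓝 0) := by
  rw [mem_B0] at hV hW
  induction hV, hW using Submodule.span_induction₂ with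
  | mem_mem X Y hX hY =>
    obtain ⟨u, hu, rfl⟩ := hX
    obtain ⟨v, hv, rfl⟩ := hY
    rw [C.uop_mul hu hv, C.uop_mul hv hu]
    have h := (C.tendsto_trS_uop (C.GN_mul hu hv)).sub (C.tendsto_trS_uop (C.GN_mul hv hu))
    have e : C.nrm (C.E (u * v)) = C.nrm (C.E (v * u)) :=
      le_antisymm (C.nrm_E_mul_le hv hu.1) (C.nrm_E_mul_le hu hv.1)
    rwa [e, sub_self] at h
  | zero_left Y _ => simp
  | zero_right X _ => simp
  | add_left X X' Y _ _ _ h h' =>
    have := h.add h'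
    rw [add_zero] at this
    refine this.congr fun s => ?_
    rw [add_mul, mul_add, trS_add, trS_add]; ring
  | add_right X Y Y' _ _ _ h h' =>
    have := h.add h'
    rw [add_zero] at this
    refine this.congr fun s => ?_
    rw [mul_add, add_mul, trS_add, trS_add]; ring
  | smul_left c X Y _ _ h =>
    have := h.const_mul c
    rw [mul_zero] at this
    refine this.congr fun s => ?_
    rw [C.smul_mul_L, C.mul_smul_L, trS_smul, trS_smul]; ring
  | smul_right c X Y _ _ h =>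
    have := h.const_mul c
    rw [mul_zero] at this
    refine this.congr fun s => ?_
    rw [C.mul_smul_L, C.smul_mul_L, trS_smul, trS_smul]; ring

/-- The cells of a partition. -/
def tcell (s : Part C) : Finset (Σ t : Part C, Fin t.n) :=
  (Finset.univ : Finset (Fin s.n)).map ⟨fun i => ⟨s, i⟩, fun _ _ h => eq_of_heq (Sigma.mk.inj_iff.1 h).2⟩

/-- The vector of a cell. -/
def tvec (x : Σ t : Part C, Fin t.n) : C.L := C.vec (x.1.c x.2)

theorem cellTr_eq (s : Part C) (X : C.L →L[ℂ] C.L) :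
    cellTr C.tcell C.tvec s X = C.trS s X := by
  rw [cellTr, tcell, Finset.sum_map]
  rfl

theorem hsNorm_sq (s : Part C) (X : C.L →L[ℂ] C.L) :
    hsNorm C.tcell C.tvec s X ^ 2 = C.hs s X := by
  rw [hsNorm, PiLp.norm_sq_eq_of_L2]
  refine ((C.tcell s).sum_coe_sort (fun c => ‖X (C.tvec c)‖ ^ 2)).trans ?_
  rw [tcell, Finset.sum_map]
  rfl

theorem hsNorm_le_iff (s : Part C) (X : C.L →L[ℂ] C.L) {η : ℝ} (hη : 0 ≤ η) :
    hsNorm C.tcell C.tvec s X ≤ η ↔ C.hs s X ≤ η ^ 2 := by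
  rw [← C.hsNorm_sq]
  exact (pow_le_pow_iff_left₀ (norm_nonneg _) hη two_ne_zero).symm

theorem right_B0 {W : C.L →L[ℂ] C.L} (hW : W ∈ C.B0) :
    ∃ K₁, 0 ≤ K₁ ∧ ∀ (D : C.L →L[ℂ] C.L) (η : ℝ), 0 ≤ η →
      (∀ᶠ s : Part C in atTop, hsNorm C.tcell C.tvec s D ≤ η) →
      ∀ᶠ s : Part C in atTop, hsNorm C.tcell C.tvec s (D * W) ≤ K₁ * η := by
  rw [mem_B0] at hW
  induction hW using Submodule.span_induction with
  | mem X hX =>
    obtain ⟨u, hu, rfl⟩ := hX
    refine ⟨1, zero_le_one, fun D η hη h => ?_⟩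
    obtain ⟨s₁, h₁⟩ := eventually_atTop.1 h
    filter_upwards [C.eventually_le_imgPart hu s₁] with s hs
    rw [one_mul, C.hsNorm_le_iff _ _ hη]
    exact (C.hs_mul_uop_le hu s D).trans ((C.hsNorm_le_iff _ _ hη).1 (h₁ _ hs))
  | zero => exact ⟨0, le_rfl, fun D η _ _ => .of_forall fun s => by simp [hsNorm]⟩
  | add X Y _ _ h h' =>
    obtain ⟨K₁, hK₁, h₁⟩ := h
    obtain ⟨K₂, hK₂, h₂⟩ := h'
    refine ⟨K₁ + K₂, add_nonneg hK₁ hK₂, fun D η hη hD => ?_⟩
    filter_upwards [h₁ D η hη hD, h₂ D η hη hD] with s a b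
    rw [mul_add, add_mul]
    simp only [hsNorm, map_add] at a b ⊢
    exact (norm_add_le _ _).trans (add_le_add a b)
  | smul c X _ h =>
    obtain ⟨K₁, hK₁, h₁⟩ := h
    refine ⟨‖c‖ * K₁, mul_nonneg (norm_nonneg _) hK₁, fun D η hη hD => ?_⟩
    filter_upwards [h₁ D η hη hD] with s a
    rw [C.mul_smul_L, hsNorm, map_smul, norm_smul, mul_assoc]
    exact mul_le_mul_of_nonneg_left a (norm_nonneg _)

/-- The trace system of the partitions. -/
def traceSys : TraceSys (Part C) (Σ t : Part C, Fin t.n) C.L where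
  F := atTop
  neBot := inferInstance
  cell := C.tcell
  vec := C.tvec
  mass := ‖C.Ω‖ ^ 2
  mass_le := .of_forall fun s => by
    rw [tcell, Finset.sum_map]
    exact (C.sum_norm_vec s).le
  alg := C.B0
  exists_tr W hW := by simpa only [cellTr_eq] using C.exists_trS_B0 hW
  tr_comm V hV W hW := by simpa only [cellTr_eq] using C.tendsto_trS_B0_comm hV hW
  right W hW := by
    obtain ⟨K₁, -, h⟩ := C.right_B0 hW
    exact ⟨K₁, fun D η hη hD η' hη' => (h D η hη hD).mono fun s hs => hs.trans hη'.le⟩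

/-- The closed algebra with the asymptotically cyclic diagonal sum. -/
def BB : StarSubalgebra ℂ (C.L →L[ℂ] C.L) := C.traceSys.BB

theorem isClosed_BB : IsClosed (C.BB : Set (C.L →L[ℂ] C.L)) := TraceSys.isClosed_BB

theorem uop_mem_BB {u : K →L[ℂ] K} (hu : u ∈ C.GN) : C.uop u ∈ C.BB :=
  TraceSys.alg_le_BB (S := C.traceSys) (C.uop_mem_B0 hu)

theorem gam_op_idem_one {p : C(C.Spec, ℝ)} (hp : p * p = p) :
    C.gam (C.op p) 1 = C.uop (C.op p) := C.ext_em fun f => by
  rw [C.gam_em (C.op_mem_M p) (one_mem _), C.uop_em (C.GN_op hp)]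
  refine C.em_congr ?_
  change C.E (C.op p * f * 1) = C.op p * f * star (C.op p)
  rw [mul_one, C.E_of_mem (mul_mem (C.op_mem p) f.2), (C.op_sa p).star_eq,
    mul_assoc (C.op p) _ (C.op p), C.A_comm f.2 (C.op_mem p), ← mul_assoc (C.op p) (C.op p),
    ← map_mul, hp]

theorem gam_one_mem_BB {a : K →L[ℂ] K} (ha : a ∈ C.A) : C.gam a 1 ∈ C.BB := by
  have hop : ∀ f, C.gam (C.op f) 1 ∈ C.BB := by
    intro f
    refine op_mem_of_near (K := C.L) C.isClosed_BB fun ε hε => ?_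
    obtain ⟨S, hS, hd⟩ := Metric.mem_closure_iff.1 (C.op_mem_closure_span f) ε hε
    have hS' : S ∈ C.A ∧ C.gam S 1 ∈ C.BB := by
      clear hd
      rw [SetLike.mem_coe] at hS
      induction hS using Submodule.span_induction with
      | mem T hT =>
        obtain ⟨p, hp, rfl⟩ := hT
        exact ⟨C.op_mem p, by rw [C.gam_op_idem_one hp]; exact C.uop_mem_BB (C.GN_op hp)⟩
      | zero => exact ⟨zero_mem _, by rw [C.gam_zero_left (one_mem _)]; exact zero_mem _⟩
      | add T T' _ _ h h' =>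
        exact ⟨add_mem h.1 h'.1, by
          rw [C.gam_add_left (C.hAM h.1) (C.hAM h'.1) (one_mem _)]; exact add_mem h.2 h'.2⟩
      | smul c T _ h =>
        exact ⟨C.A.smul_mem h.1 c, by
          rw [C.gam_smul_left c (C.hAM h.1) (one_mem _)]; exact C.BB.smul_mem h.2 c⟩
    refine ⟨_, hS'.2, ?_⟩
    rw [← C.gam_sub_left (C.op_mem_M f) (C.hAM hS'.1) (one_mem _)]
    refine lt_of_le_of_lt (C.norm_gam_le (sub_mem (C.op_mem_M f) (C.hAM hS'.1)) (one_mem _)) ?_
    refine lt_of_le_of_lt (mul_le_of_le_one_right (norm_nonneg _) ?_) (by rwa [dist_eq_norm] at hd)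
    exact ContinuousLinearMap.norm_id_le
  rw [C.decomp ha, C.gam_add_left (C.op_mem_M _) (C.M.smul_mem (C.op_mem_M _) _) (one_mem _),
    C.gam_smul_left _ (C.op_mem_M _) (one_mem _)]
  exact add_mem (hop _) (C.BB.smul_mem (hop _) _)

theorem mem_BB_of_hs {X : C.L →L[ℂ] C.L}
    (h : ∀ η > 0, ∃ Y ∈ C.BB, ∀ᶠ s : Part C in atTop,
      C.hs s (X - Y) ≤ η ∧ C.hs s (star X - star Y) ≤ η) : X ∈ C.BB := by
  refine TraceSys.bb_of_approx (S := C.traceSys) fun η hη => ?_
  obtain ⟨Y, hY, hev⟩ := h (η ^ 2) (pow_pos hη 2)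
  exact ⟨Y, hY, hev.mono fun s hs =>
    ⟨(C.hsNorm_le_iff _ _ hη.le).2 hs.1, (C.hsNorm_le_iff _ _ hη.le).2 hs.2⟩⟩

theorem cfc_mem_BB {X : C.L →L[ℂ] C.L} (hX : X ∈ C.BB) (f : ℝ → ℝ) : cfc f X ∈ C.BB := by
  let T : StarSubalgebra ℝ (C.L →L[ℂ] C.L) :=
    { C.BB.toSubalgebra.restrictScalars ℝ with star_mem' := fun h => C.BB.star_mem' h }
  have hT : IsClosed (T : Set (C.L →L[ℂ] C.L)) := C.isClosed_BB
  exact StarAlgebra.elemental.le_of_mem hT (show X ∈ T from hX) (cfc_mem_elemental f X)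

theorem exists_tendsto_trS {X : C.L →L[ℂ] C.L} (hX : X ∈ C.BB) :
    ∃ t, Tendsto (fun s : Part C => C.trS s X) atTop (𝓝 t) :=
  ⟨_, (TraceSys.tendsto_ct (S := C.traceSys) hX).congr fun s => C.cellTr_eq s X⟩

theorem tendsto_trS_comm {X Y : C.L →L[ℂ] C.L} (hX : X ∈ C.BB) (hY : Y ∈ C.BB) :
    Tendsto (fun s : Part C => C.trS s (X * Y) - C.trS s (Y * X)) atTop (𝓝 0) := by
  have hXY := TraceSys.tendsto_ct (S := C.traceSys) (mul_mem hX hY)
  have hYX := TraceSys.tendsto_ct (S := C.traceSys) (mul_mem hY hX)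
  have h := hXY.sub hYX
  rw [TraceSys.tr_mul_comm (S := C.traceSys) hX hY, sub_self] at h
  exact h.congr fun s => congrArg₂ (· - ·) (C.cellTr_eq s _) (C.cellTr_eq s _)

end Ctx

end Vale.Agent.P078.Finite
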