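import Vale.Agent.P078.Finite.NormalCell
import Vale.Agent.P078.Finite.Trace

/-!
All maps `f ↦ E (a f b)` lie in the algebra generated, in the two diagonal seminorms, by the
conjugations with normalising partial isometries.
-/

noncomputable section

open scoped InnerProductSpace
open Filter Topology

namespace Vale.Agent.P078.Finite

universe u

variable {K : Type u} [NormedAddCommGroup K] [InnerProductSpace ℂ K] [CompleteSpace K]

namespace Ctx

variable (C : Ctx K)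

theorem inter_conj_mem {w : K →L[ℂ] K} (hw : C.Inter w) {a : K →L[ℂ] K} (ha : a ∈ C.A) :
    w * a * star w ∈ C.A := by
  refine C.mem_A_of_comm (mul_mem (mul_mem hw.1 (C.hAM ha)) (star_mem hw.1)) fun p hp => ?_
  obtain ⟨e, he⟩ := hw.2 p hp
  have he' : star w * C.op p = C.op e * star w := by
    have h := congrArg star he
    rwa [star_mul, star_mul, (C.op_sa p).star_eq, (C.op_sa e).star_eq] at h
  calc w * a * star w * C.op p = w * a * (C.op e * star w) := by rw [mul_assoc _ (star w), he']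
    _ = w * (a * C.op e) * star w := by simp only [mul_assoc]
    _ = w * (C.op e * a) * star w := by rw [C.A_comm ha (C.op_mem e)]
    _ = (w * C.op e) * a * star w := by simp only [mul_assoc]
    _ = C.op p * (w * a * star w) := by rw [← he]; simp only [mul_assoc]

theorem GN_apply_mem_N {u : K →L[ℂ] K} (hu : u ∈ C.GN) : u C.Ω ∈ C.N :=
  Submodule.le_topologicalClosure _ (Submodule.subset_span ⟨u, hu, rfl⟩)

theorem GN_op_apply_mem_N {u : K →L[ℂ] K} (hu : u ∈ C.GN) (f : C(C.Spec, ℝ)) :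
    u (C.op f C.Ω) ∈ C.N := by
  have hcl : IsClosed {T : K →L[ℂ] K | u (T C.Ω) ∈ C.N} :=
    (Submodule.isClosed_topologicalClosure _).preimage (by fun_prop)
  refine hcl.closure_subset_iff.2 ?_ (C.op_mem_closure_span f)
  intro T hT
  change u (T C.Ω) ∈ C.N
  induction hT using Submodule.span_induction with
  | mem T hT =>
    obtain ⟨p, hp, rfl⟩ := hT
    exact C.GN_apply_mem_N (C.GN_mul hu (C.GN_op hp))
  | zero => simp
  | add S T _ _ h1 h2 => rw [add_apply, map_add]; exact C.N.add_mem h1 h2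
  | smul c T _ h1 => rw [smul_apply, map_smul]; exact C.N.smul_mem c h1

theorem inter_star_apply_mem_N {w : K →L[ℂ] K} (hw : C.Inter w) (hw' : C.Inter (star w)) :
    w C.Ω ∈ C.N := by
  have hA : star w * w ∈ C.A := by simpa using C.inter_conj_mem hw' (one_mem _)
  set h := C.re (star w * w) with hh
  have hop : C.op h = star w * w := C.op_re hA (IsSelfAdjoint.star_mul_self w)
  have h0 : ∀ χ, 0 ≤ h χ := C.apply_nonneg (hop ▸ star_mul_self_nonneg w)
  refine (Submodule.isClosed_topologicalClosure _).closure_subset ?_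
  rw [Metric.mem_closure_iff]
  intro ε hε
  set t := ε ^ 2 / (‖C.Ω‖ ^ 2 + 1) with ht
  have ht0 : 0 < t := by positivity
  set p := C.cutAt h t with hp
  have hden : ∀ χ, 0 < max (h χ) t := fun χ => lt_max_of_lt_right ht0
  set r : C(C.Spec, ℝ) := ⟨fun χ => √(max (h χ) t), (h.continuous.max continuous_const).sqrt⟩
    with hr
  set g : C(C.Spec, ℝ) := ⟨fun χ => p χ / √(max (h χ) t), p.continuous.div r.continuous
    fun χ => (Real.sqrt_pos.2 (hden χ)).ne'⟩ with hg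
  have hgr : g * r = p := by
    ext χ
    exact div_mul_cancel₀ _ (Real.sqrt_pos.2 (hden χ)).ne'
  have hggh : g * g * h = p := by
    ext χ
    change p χ / √(max (h χ) t) * (p χ / √(max (h χ) t)) * h χ = p χ
    rcases idem_values (C.cutAt_idem h t) χ with e | e
    · rw [hp, e]; simp
    · rw [hp, e, div_mul_div_comm, one_mul, Real.mul_self_sqrt (hden χ).le,
        max_eq_left (C.le_of_cutAt_eq_one e)]
      exact one_div_mul_cancel (lt_of_lt_of_le ht0 (C.le_of_cutAt_eq_one e)).ne'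
  have hgp : g * p = g := by
    ext χ
    change p χ / √(max (h χ) t) * p χ = p χ / √(max (h χ) t)
    rcases idem_values (C.cutAt_idem h t) χ with e | e <;> rw [hp, e] <;> simp
  set u := w * C.op g with hu
  have hsu : star u * u = C.op p := by
    rw [hu, star_mul, (C.op_sa g).star_eq, mul_assoc, ← mul_assoc (star w), ← hop, ← map_mul,
      ← map_mul, ← hggh]
    congr 1
    ring
  have huGN : u ∈ C.GN := by
    refine ⟨mul_mem hw.1 (C.op_mem_M g), ?_, fun a ha => ?_, fun a ha => ?_⟩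
    · rw [mul_assoc, hsu, hu, mul_assoc, ← map_mul, hgp]
    · rw [hu, star_mul, (C.op_sa g).star_eq]
      have := C.inter_conj_mem hw (mul_mem (mul_mem (C.op_mem g) ha) (C.op_mem g))
      simpa only [mul_assoc] using this
    · rw [hu, star_mul, (C.op_sa g).star_eq]
      have h1 := C.inter_conj_mem hw' ha
      rw [star_star] at h1
      have := mul_mem (mul_mem (C.op_mem g) h1) (C.op_mem g)
      simpa only [mul_assoc] using this
  refine ⟨u (C.op r C.Ω), C.GN_op_apply_mem_N huGN r, ?_⟩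
  have e1 : u (C.op r C.Ω) = (w * C.op p) C.Ω := by
    rw [← hgr, map_mul, ← mul_assoc]
    rfl
  have hq : (1 - p) * (1 - p) = 1 - p := C.idem_one_sub (C.cutAt_idem h t)
  have e2 : ‖w C.Ω - (w * C.op p) C.Ω‖ ^ 2 = C.intA ((1 - p) * h) := by
    have e3 : w C.Ω - (w * C.op p) C.Ω = (w * C.op (1 - p)) C.Ω := by
      rw [map_sub, map_one, mul_sub, mul_one, sub_apply]
    rw [e3]
    change C.nrm _ ^ 2 = _
    have e4 : star (w * C.op (1 - p)) * (w * C.op (1 - p)) = C.op ((1 - p) * h) := by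
      rw [star_mul, (C.op_sa _).star_eq, mul_assoc, ← mul_assoc (star w), ← hop, ← map_mul,
        ← map_mul]
      congr 1
      linear_combination h * hq
    rw [intA, ← e4, C.tr_star_mul_self, ← Complex.ofReal_pow, Complex.ofReal_re]
  have e5 : C.intA ((1 - p) * h) ≤ t * ‖C.Ω‖ ^ 2 := by
    rw [← C.intA_const]
    refine C.intA_mono fun χ => ?_
    simp only [ContinuousMap.mul_apply, ContinuousMap.sub_apply, ContinuousMap.one_apply,
      algebraMap_apply, smul_eq_mul, mul_one]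
    rcases idem_values (C.cutAt_idem h t) χ with e | e
    · rw [hp, e]; simpa using C.le_of_cutAt_eq_zero e
    · rw [hp, e]; simpa using ht0.le
  rw [dist_eq_norm, e1, ← pow_lt_pow_iff_left₀ (norm_nonneg _) hε.le two_ne_zero]
  refine lt_of_le_of_lt (e2.trans_le e5) ?_
  rw [ht, div_mul_eq_mul_div, div_lt_iff₀ (by positivity)]
  nlinarith [pow_pos hε 2]

theorem exists_span_near {a : K →L[ℂ] K} {κ : ℝ} (hκ : 0 < κ) :
    ∃ a0 ∈ Submodule.span ℂ C.GN, ∀ v ∈ C.N, ‖⟪v, (a - a0) C.Ω⟫_ℂ‖ ≤ κ * ‖v‖ := by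
  have hmem : C.N.starProjection (a C.Ω) ∈ closure
      ((Submodule.span ℂ ((fun u : K →L[ℂ] K => u C.Ω) '' C.GN) : Submodule ℂ K) : Set K) :=
    C.N.starProjection_apply_mem (a C.Ω)
  obtain ⟨z, hz, hd⟩ := Metric.mem_closure_iff.1 hmem κ hκ
  have hlift : ∀ z ∈ Submodule.span ℂ ((fun u : K →L[ℂ] K => u C.Ω) '' C.GN),
      ∃ a0 ∈ Submodule.span ℂ C.GN, a0 C.Ω = z := by
    intro z hz
    induction hz using Submodule.span_induction with
    | mem z hz =>
      obtain ⟨u, hu, rfl⟩ := hz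
      exact ⟨u, Submodule.subset_span hu, rfl⟩
    | zero => exact ⟨0, Submodule.zero_mem _, rfl⟩
    | add x y _ _ h1 h2 =>
      obtain ⟨a1, m1, rfl⟩ := h1
      obtain ⟨a2, m2, rfl⟩ := h2
      exact ⟨a1 + a2, Submodule.add_mem _ m1 m2, rfl⟩
    | smul c x _ h1 =>
      obtain ⟨a1, m1, rfl⟩ := h1
      exact ⟨c • a1, Submodule.smul_mem _ c m1, rfl⟩
  obtain ⟨a0, ha0, rfl⟩ := hlift z hz
  refine ⟨a0, ha0, fun v hv => ?_⟩
  have e : ⟪v, a C.Ω⟫_ℂ = ⟪v, C.N.starProjection (a C.Ω)⟫_ℂ := by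
    have h := Submodule.starProjection_inner_eq_zero (K := C.N) (a C.Ω) v hv
    rw [← inner_conj_symm, map_eq_zero, inner_sub_right, sub_eq_zero] at h
    exact h
  rw [sub_apply, inner_sub_right, e, ← inner_sub_right, mul_comm]
  refine (norm_inner_le_norm _ _).trans (mul_le_mul_of_nonneg_left ?_ (norm_nonneg _))
  rw [← dist_eq_norm]
  exact hd.le

theorem span_GN_mem {a : K →L[ℂ] K} (ha : a ∈ Submodule.span ℂ C.GN) :
    a ∈ C.M ∧ star a ∈ Submodule.span ℂ C.GN ∧ a C.Ω ∈ C.N := by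
  induction ha using Submodule.span_induction with
  | mem u hu => exact ⟨hu.1, Submodule.subset_span (C.GN_star hu), C.GN_apply_mem_N hu⟩
  | zero => exact ⟨zero_mem _, by rw [star_zero]; exact Submodule.zero_mem _, C.N.zero_mem⟩
  | add x y _ _ h1 h2 =>
    exact ⟨add_mem h1.1 h2.1, by rw [star_add]; exact Submodule.add_mem _ h1.2.1 h2.2.1,
      C.N.add_mem h1.2.2 h2.2.2⟩
  | smul c x _ h1 =>
    exact ⟨C.M.smul_mem h1.1 c, by rw [star_smul]; exact Submodule.smul_mem _ _ h1.2.1,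
      C.N.smul_mem c h1.2.2⟩

theorem near_star {y : K →L[ℂ] K} (hy : y ∈ C.M) {κ : ℝ}
    (h : ∀ v ∈ C.N, ‖⟪v, y C.Ω⟫_ℂ‖ ≤ κ * ‖v‖) :
    ∀ v ∈ C.N, ‖⟪v, star y C.Ω⟫_ℂ‖ ≤ κ * ‖v‖ := by
  intro v hv
  have hcl : IsClosed {v : K | ‖⟪v, star y C.Ω⟫_ℂ‖ ≤ κ * ‖v‖} :=
    isClosed_le (by fun_prop) (by fun_prop)
  refine hcl.closure_subset_iff.2 ?_ hv
  intro z hz
  have hlift : ∃ a0 ∈ Submodule.span ℂ C.GN, a0 C.Ω = z := by
    induction hz using Submodule.span_induction with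
    | mem z hz =>
      obtain ⟨u, hu, rfl⟩ := hz
      exact ⟨u, Submodule.subset_span hu, rfl⟩
    | zero => exact ⟨0, Submodule.zero_mem _, rfl⟩
    | add x y _ _ h1 h2 =>
      obtain ⟨a1, m1, rfl⟩ := h1
      obtain ⟨a2, m2, rfl⟩ := h2
      exact ⟨a1 + a2, Submodule.add_mem _ m1 m2, rfl⟩
    | smul c x _ h1 =>
      obtain ⟨a1, m1, rfl⟩ := h1
      exact ⟨c • a1, Submodule.smul_mem _ c m1, rfl⟩
  obtain ⟨a0, ha0, rfl⟩ := hlift
  obtain ⟨hM, hst, -⟩ := C.span_GN_mem ha0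
  have h2 := h _ (C.span_GN_mem hst).2.2
  have e : C.tr (star a0 * star y) = starRingEnd ℂ (C.tr (a0 * y)) := by
    rw [← C.tr_star, star_mul, C.tr_comm (star_mem hM) (star_mem hy)]
  rw [C.inner_apply, star_star] at h2
  change ‖⟪a0 C.Ω, star y C.Ω⟫_ℂ‖ ≤ κ * ‖a0 C.Ω‖
  rw [C.inner_apply, e, Complex.norm_conj]
  refine h2.trans_eq ?_
  exact congrArg (fun x => κ * x) (C.nrm_star hM)

/-- The pairing of an intertwiner with an element almost orthogonal to the normalisers. -/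
theorem inter_inner_le {η y : K →L[ℂ] K} (hη : C.Inter η) (hy : y ∈ C.M) {κ : ℝ} (hκ : 0 < κ)
    (hnear : ∀ v ∈ C.N, ‖⟪v, y C.Ω⟫_ℂ‖ ≤ κ * ‖v‖) :
    2 * (⟪η C.Ω, y C.Ω⟫_ℂ).re ≤ (‖C.Ω‖ ^ 2 + ‖η‖ ^ 2 + 2) * κ := by
  have hη' := star_mem hη.1
  have hN : ∀ w, C.Inter w → C.Inherit (star η) w → w C.Ω ∈ C.N := by
    intro w hw hH
    refine C.inter_star_apply_mem_N hw ⟨star_mem hw.1, fun p hp => ?_⟩
    obtain ⟨e, he⟩ := hη.2 p hp
    have h1 : star η * C.op p = C.op e * star η := by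
      have := congrArg star he
      rwa [star_mul, star_mul, (C.op_sa p).star_eq, (C.op_sa e).star_eq] at this
    have h2 := congrArg star (hH p e h1)
    rw [star_mul, star_mul, (C.op_sa p).star_eq, (C.op_sa e).star_eq] at h2
    exact ⟨e, h2⟩
  obtain ⟨t, ht⟩ := (C.eventually_nrm_E_le hy hη' hN (C.near_star hy hnear)
    (pow_pos hκ 2)).exists
  rw [norm_star] at ht
  set Ym := C.intA (C.nu (star y) 1) with hYdef
  have hy' := star_mem hy
  have hYm : 0 ≤ Ym := C.intA_nonneg (C.nu_nonneg hy' fun _ => zero_le_one)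
  set d := κ ^ 2 / (Ym + 1) with hd
  have hd0 : 0 < d := by positivity
  set hc := fun j => C.nu (star η) (t.c j) with hhc
  have hc0 : ∀ j χ, 0 ≤ hc j χ := fun j => C.nu_nonneg hη' (C.idem_nonneg (t.idem j))
  have hcop : ∀ j, C.op (hc j) = η * C.op (t.c j) * star η := by
    intro j
    rw [hhc, C.op_nu hη', star_star]
    exact C.E_of_mem (C.inter_conj_mem hη (C.op_mem _))
  set G : Fin t.n → C(C.Spec, ℝ) := fun j => ⟨fun χ => (hc j χ + d)⁻¹,
    ((hc j).continuous.add continuous_const).inv₀ fun χ => by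
      exact (add_pos_of_nonneg_of_pos (hc0 j χ) hd0).ne'⟩ with hG
  have hweight : ∀ j, C.intA (hc j * G j) ≤ C.intA (t.c j) := by
    intro j
    set x := η * C.op (t.c j) with hx
    have hcc : C.op (t.c j) * C.op (t.c j) = C.op (t.c j) := by rw [← map_mul, t.idem]
    have hxM : x ∈ C.M := mul_mem hη.1 (C.op_mem_M _)
    have hxx : x * star x = C.op (hc j) := by
      rw [hx, star_mul, (C.op_sa _).star_eq, hcop, mul_assoc, ← mul_assoc (C.op _) (C.op _), hcc,
        ← mul_assoc]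
    set Z := star x * C.op (G j) * x with hZ
    have hGnn : ∀ χ, 0 ≤ G j χ := fun χ => inv_nonneg.2 (by have := hc0 j χ; positivity)
    have hZ0 : 0 ≤ Z := star_left_conjugate_nonneg (C.op_nonneg hGnn) x
    have hsa : IsSelfAdjoint Z := IsSelfAdjoint.of_nonneg hZ0
    have hZZ : Z * Z ≤ Z := by
      have e : Z * Z = star x * C.op (G j * hc j * G j) * x := by
        rw [map_mul, map_mul, ← hxx, hZ]
        simp only [mul_assoc]
      rw [e, hZ]
      refine star_left_conjugate_le_conjugate (C.op_mono fun χ => ?_) x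
      change (hc j χ + d)⁻¹ * hc j χ * (hc j χ + d)⁻¹ ≤ (hc j χ + d)⁻¹
      have hpos : 0 < hc j χ + d := by have := hc0 j χ; positivity
      refine mul_le_of_le_one_left (inv_nonneg.2 hpos.le) ?_
      rw [inv_mul_le_iff₀ hpos]
      linarith
    have hnorm : ‖Z‖ ≤ 1 := by
      have h1 := CStarAlgebra.norm_le_norm_of_nonneg_of_le
        (show (0 : K →L[ℂ] K) ≤ Z * Z by
          conv => enter [2, 1]; rw [← hsa.star_eq]
          exact star_mul_self_nonneg Z) hZZ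
      have h2 : ‖Z * Z‖ = ‖Z‖ * ‖Z‖ := by
        conv_lhs => enter [1, 1]; rw [← hsa.star_eq]
        exact CStarRing.norm_star_mul_self
      rw [h2] at h1
      rcases (norm_nonneg Z).eq_or_lt with h3 | h3
      · rw [← h3]; exact zero_le_one
      · exact le_of_mul_le_mul_right (by rwa [one_mul]) h3
    have hZ1 : Z ≤ 1 := (CStarAlgebra.norm_le_one_iff_of_nonneg Z hZ0).1 hnorm
    have hZc : Z = star (C.op (t.c j)) * Z * C.op (t.c j) := by
      rw [hZ, hx, star_mul, (C.op_sa (t.c j)).star_eq]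
      simp only [mul_assoc]
      rw [hcc, ← mul_assoc (C.op (t.c j)) (C.op (t.c j)), hcc]
    have hZle : Z ≤ C.op (t.c j) := by
      rw [hZc]
      refine (star_left_conjugate_le_conjugate hZ1 _).trans_eq ?_
      rw [mul_one, (C.op_sa _).star_eq, hcc]
    have htr : C.tr Z = C.tr (C.op (hc j * G j)) := by
      rw [hZ, mul_assoc, C.tr_comm (star_mem hxM) (mul_mem (C.op_mem_M _) hxM), mul_assoc, hxx,
        ← map_mul, mul_comm]
    rw [intA, intA, ← htr]
    exact C.tr_mono hZle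
  have hpt : ∀ j, 2 * (C.tr (C.E (y * C.op (t.c j) * star η))).re ≤
      κ * C.intA (t.c j) + κ⁻¹ * (C.nrm (C.E (y * C.op (t.c j) * star η)) ^ 2 +
        d * C.intA (C.nu (star y) (t.c j))) := by
    intro j
    refine le_trans ?_ (add_le_add_left (mul_le_mul_of_nonneg_left (hweight j) hκ.le) _)
    rw [← C.intA_re (C.E_mem _), ← C.intA_sqf (C.E_mem _), ← C.intA_smul, ← C.intA_smul,
      ← C.intA_smul, ← C.intA_add, ← C.intA_smul, ← C.intA_add]
    refine C.intA_mono fun χ => ?_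
    simp only [ContinuousMap.add_apply, ContinuousMap.smul_apply, ContinuousMap.mul_apply,
      smul_eq_mul]
    set z := C.fn (C.E (y * C.op (t.c j) * star η)) χ
    set Y := C.nu (star y) (t.c j) χ
    set H := hc j χ
    change 2 * z.re ≤ κ * (H * (H + d)⁻¹) + κ⁻¹ * (Complex.normSq z + d * Y)
    have hH : 0 ≤ H := hc0 j χ
    have hY : 0 ≤ Y := C.nu_nonneg hy' (C.idem_nonneg (t.idem j)) χ
    have hcs : Complex.normSq z ≤ Y * H := C.sqf_E_le hy hη' (t.idem j) χ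
    have hre : z.re ^ 2 ≤ Complex.normSq z := by
      rw [Complex.normSq_apply]; nlinarith
    have hpos : 0 < H + d := by positivity
    have hprod : z.re ^ 2 ≤ H * (H + d)⁻¹ * (Complex.normSq z + d * Y) := by
      rw [mul_comm H, mul_assoc, le_inv_mul_iff₀ hpos]
      nlinarith
    set g := H * (H + d)⁻¹
    set S := Complex.normSq z + d * Y
    have hg0 : 0 ≤ g := by positivity
    have hS0 : 0 ≤ S := add_nonneg (Complex.normSq_nonneg _) (by positivity)
    have hsq : (2 * z.re) ^ 2 ≤ (κ * g + κ⁻¹ * S) ^ 2 := by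
      have e : κ * g * (κ⁻¹ * S) = g * S := by field_simp
      nlinarith [sq_nonneg (κ * g - κ⁻¹ * S)]
    exact (abs_le_of_sq_le_sq' hsq (by positivity)).2
  have hsum : (⟪η C.Ω, y C.Ω⟫_ℂ).re = ∑ j, (C.tr (C.E (y * C.op (t.c j) * star η))).re := by
    rw [← Complex.re_sum, ← C.tr_sum, ← C.E_sum _ fun j _ => mul_mem (mul_mem hy (C.op_mem_M _))
      hη', ← Finset.sum_mul, ← Finset.mul_sum, C.op_sum_eq, mul_one,
      C.tr_E (mul_mem hy hη'), C.inner_apply, C.tr_comm hη' hy]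
  rw [hsum, Finset.mul_sum]
  refine (Finset.sum_le_sum fun j _ => hpt j).trans ?_
  rw [Finset.sum_add_distrib, ← Finset.mul_sum, ← Finset.mul_sum, Finset.sum_add_distrib,
    ← Finset.mul_sum, ← C.intA_sum, ← C.intA_sum, t.sum_eq, ← C.nu_sum hy', t.sum_eq]
  have h1 : C.intA 1 = ‖C.Ω‖ ^ 2 := by simpa using C.intA_const 1
  have h2 : d * Ym ≤ κ ^ 2 := by
    rw [hd, div_mul_eq_mul_div, div_le_iff₀ (by positivity)]
    nlinarith
  rw [h1, ← hYdef]
  calc κ * ‖C.Ω‖ ^ 2 + κ⁻¹ * (∑ j, C.nrm (C.E (y * C.op (t.c j) * star η)) ^ 2 + d * Ym)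
      ≤ κ * ‖C.Ω‖ ^ 2 + κ⁻¹ * ((‖η‖ ^ 2 * κ ^ 2 + κ ^ 2) + κ ^ 2) :=
        add_le_add_right (mul_le_mul_of_nonneg_left (add_le_add ht h2) (inv_nonneg.2 hκ.le)) _
    _ = (‖C.Ω‖ ^ 2 + ‖η‖ ^ 2 + 2) * κ := by field_simp; ring

theorem inter_apply_mem_N {η : K →L[ℂ] K} (hη : C.Inter η) : η C.Ω ∈ C.N := by
  refine (Submodule.isClosed_topologicalClosure _).closure_subset ?_
  rw [Metric.mem_closure_iff]
  intro ε hε
  set B := ‖C.Ω‖ ^ 2 + ‖η‖ ^ 2 + 2 + 2 * C.nrm η + 1 with hB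
  have hB0 : 0 < B := by
    have : 0 ≤ C.nrm η := norm_nonneg _
    positivity
  set κ := min 1 (ε ^ 2 / (2 * B)) with hκdef
  have hκ : 0 < κ := lt_min one_pos (by positivity)
  obtain ⟨a0, ha0, hnear⟩ := C.exists_span_near (a := η) hκ
  obtain ⟨haM, -, haN⟩ := C.span_GN_mem ha0
  refine ⟨a0 C.Ω, haN, ?_⟩
  set y := η - a0 with hy
  have hyM : y ∈ C.M := sub_mem hη.1 haM
  have h1 := C.inter_inner_le hη hyM hκ hnear
  have h2 := hnear _ haN
  have heq : ‖y C.Ω‖ ^ 2 = (⟪η C.Ω, y C.Ω⟫_ℂ).re - (⟪a0 C.Ω, y C.Ω⟫_ℂ).re := by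
    rw [← Complex.sub_re, ← inner_sub_left, ← sub_apply, ← hy]
    exact (inner_self_eq_norm_sq (𝕜 := ℂ) _).symm
  have h3 : -(⟪a0 C.Ω, y C.Ω⟫_ℂ).re ≤ κ * ‖a0 C.Ω‖ :=
    ((neg_le_abs _).trans (Complex.abs_re_le_norm _)).trans h2
  have h4 : ‖a0 C.Ω‖ ≤ C.nrm η + ‖y C.Ω‖ := by
    have e : a0 C.Ω = η C.Ω - y C.Ω := by rw [hy, sub_apply, sub_sub_cancel]
    rw [e]
    exact norm_sub_le _ _
  rw [dist_eq_norm, ← sub_apply, ← hy, ← pow_lt_pow_iff_left₀ (norm_nonneg _) hε.le two_ne_zero]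
  have hκ1 : κ ≤ 1 := min_le_left _ _
  have hκε : κ * (2 * B) ≤ ε ^ 2 := (le_div_iff₀ (by positivity)).1 (min_le_right _ _)
  have h5 : κ * ‖a0 C.Ω‖ ≤ κ * (C.nrm η + ‖y C.Ω‖) := mul_le_mul_of_nonneg_left h4 hκ.le
  nlinarith [sq_nonneg (‖y C.Ω‖ - κ), norm_nonneg (C.Ω), sq_nonneg ‖η‖]

/-- The maps `f ↦ E (a f b)` are in the approximated algebra. -/
theorem gam_mem_BB {a b : K →L[ℂ] K} (ha : a ∈ C.M) (hb : b ∈ C.M) : C.gam a b ∈ C.BB := by
  refine C.mem_BB_of_hs fun ε hε => ?_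
  set κ := min 1 (ε / (2 * (‖b‖ ^ 2 + 1))) with hκdef
  have hκ : 0 < κ := lt_min one_pos (by positivity)
  obtain ⟨a0, ha0, hnear⟩ := C.exists_span_near (a := a) hκ
  have hspan : ∀ x ∈ Submodule.span ℂ C.GN, C.gam x b ∈ C.BB := by
    intro x hx
    induction hx using Submodule.span_induction with
    | mem u hu =>
      rw [C.gam_GN hu hb]
      exact mul_mem (C.gam_one_mem_BB (C.E_mem _)) (C.uop_mem_BB hu)
    | zero => rw [C.gam_zero_left hb]; exact zero_mem _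
    | add x y hx hy h1 h2 =>
      rw [C.gam_add_left (C.span_GN_mem hx).1 (C.span_GN_mem hy).1 hb]
      exact add_mem h1 h2
    | smul c x hx h1 =>
      rw [C.gam_smul_left c (C.span_GN_mem hx).1 hb]
      exact C.BB.toSubalgebra.toSubmodule.smul_mem c h1
  obtain ⟨haM, hsp, -⟩ := C.span_GN_mem ha0
  set y := a - a0 with hy
  have hyM : y ∈ C.M := sub_mem ha haM
  refine ⟨C.gam a0 b, hspan a0 ha0, ?_⟩
  have hbound : ∀ {y b : K →L[ℂ] K}, y ∈ C.M → b ∈ C.M →
      (∀ v ∈ C.N, ‖⟪v, star y C.Ω⟫_ℂ‖ ≤ κ * ‖v‖) →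
      ∀ᶠ s : Part C in atTop, C.hs s (C.gam y b) ≤ ‖b‖ ^ 2 * κ ^ 2 + ε / 2 := by
    intro y b hy hb h
    filter_upwards [C.eventually_nrm_E_le hy hb (fun w hw _ => C.inter_apply_mem_N hw) h
      (half_pos hε)] with s hs
    refine le_trans (le_of_eq (Finset.sum_congr rfl fun i _ => ?_)) hs
    rw [vec, C.gam_em hy hb]
    rfl
  have hsmall : ‖b‖ ^ 2 * κ ^ 2 + ε / 2 ≤ ε := by
    have h1 : κ * (2 * (‖b‖ ^ 2 + 1)) ≤ ε := (le_div_iff₀ (by positivity)).1 (min_le_right _ _)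
    nlinarith [min_le_left (1 : ℝ) (ε / (2 * (‖b‖ ^ 2 + 1))), sq_nonneg ‖b‖, hκ]
  have hstarnear : ∀ v ∈ C.N, ‖⟪v, star (star y) C.Ω⟫_ℂ‖ ≤ κ * ‖v‖ := by
    rw [star_star]; exact hnear
  filter_upwards [hbound hyM hb (C.near_star hyM hnear),
    hbound (star_mem hyM) (star_mem hb) hstarnear] with s hs1 hs2
  refine ⟨?_, ?_⟩
  · rw [← C.gam_sub_left ha haM hb, ← hy]
    exact hs1.trans hsmall
  · rw [C.star_gam ha hb, C.star_gam haM hb,
      ← C.gam_sub_left (star_mem ha) (star_mem haM) (star_mem hb), ← star_sub, ← hy]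
    rw [norm_star] at hs2
    exact hs2.trans hsmall

end Ctx

end Vale.Agent.P078.Finite
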