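import Vale.Agent.P078.Finite.StateDefs
import Vale.Agent.P078.Finite.Trace

/-!
The operators of the second variation.
-/

noncomputable section

namespace Vale.Agent.P078.Finite

universe u

variable {K : Type u} [NormedAddCommGroup K] [InnerProductSpace ℂ K] [CompleteSpace K]

/-- The symmetrised operator of `f ↦ E (a f b)`. -/
def Ctx.sym2 (C : Ctx K) (a b : K →L[ℂ] K) : C.L →L[ℂ] C.L :=
  (1 / 2 : ℝ) • (C.gam a b + C.gam b a)

namespace St

variable {C : Ctx K} {P : Par} (s : St C P)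

/-- Where one colour may move freely. -/
def free (i : Fin P.r) : C(C.Spec, ℝ) :=
  s.U * (1 - s.finishable) * C.cutAt (s.R i) P.zeta *
    (1 - C.cutAt (s.e i + s.l i) (1 / 10000)) * (1 - C.cutAt (s.g i - s.lam) 0)

theorem zeta_r_pos (P : Par) : 0 < √P.zeta / (P.r : ℝ) :=
  div_pos (Real.sqrt_pos.2 P.zeta_pos) P.r_pos

/-- The relative size of a move. -/
def dir (i : Fin P.r) : C(C.Spec, ℝ) :=
  s.free i * invC (zeta_r_pos P) (sqC (s.R i * s.lam))

/-- The size of a move. -/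
def D (i : Fin P.r) : C(C.Spec, ℝ) := s.R i * s.dir i

/-- The root of the cube of the barrier weight. -/
def w32 : C(C.Spec, ℝ) := sqC (s.w * s.w * s.w)

/-- The coefficient of the multiplication part of the first variation. -/
def mulCoef (i : Fin P.r) : C(C.Spec, ℝ) :=
  1 - (1 / 4 : ℝ) • (1 - (2 : ℝ) • s.R i) - (1000000 : ℝ) • (s.e i + s.l i)

/-- The first variation of the weighted surplus along a colour, as an operator. -/
def Lop (i : Fin P.r) : C.L →L[ℂ] C.L :=
  C.gam (C.op (s.w32 * s.mulCoef i * s.D i)) 1 -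
    (1000000 : ℝ) • (C.gam (C.op (s.w32 * s.R i) * s.Z 1 i * C.op (s.D i)) (s.Z 1 i) +
      C.gam (C.op (s.w32 * s.R i) * s.Z (-1) i * C.op (s.D i)) (s.Z (-1) i) +
      (P.z ^ 2)⁻¹ • C.gam (C.op (s.w32 * s.R i) * s.y i * C.op (s.D i)) (s.y i))

/-- An element with the cross weight spread to both sides, conjugated by the size of the move. -/
def crossEl (i : Fin P.r) (a : K →L[ℂ] K) : K →L[ℂ] K :=
  C.op (s.D i) * ((1 / 2 : ℝ) • (C.op s.Lam * a + a * C.op s.Lam)) * C.op (s.D i)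

/-- The element with the main weight inside, conjugated by the size of the move. -/
def mainEl (i : Fin P.r) (a : K →L[ℂ] K) : K →L[ℂ] K :=
  C.op (s.D i) * (a * C.op (s.u i) * a) * C.op (s.D i)

/-- The nonnegative form dominating the second variation along a colour. -/
def Sop (i : Fin P.r) : C.L →L[ℂ] C.L :=
  C.sym2 (s.mainEl i (s.Z 1 i)) (s.Z 1 i) + C.sym2 (s.crossEl i (s.Z 1 i)) (s.Z 1 i) +
    C.sym2 (s.mainEl i (s.Z (-1) i)) (s.Z (-1) i) +
    C.sym2 (s.crossEl i (s.Z (-1) i)) (s.Z (-1) i) +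
    (P.z ^ 2)⁻¹ • C.sym2 (s.crossEl i (s.y i)) (s.y i) -
    C.gam (C.op ((1 / 4 : ℝ) • (s.lam * (s.D i * s.D i)))) 1 +
    (1 / (4 * P.z ^ 2)) •
      (C.sym2 (s.mainEl i (s.y i)) (s.W 1 i) + C.sym2 (s.mainEl i (s.y i)) (s.W (-1) i)) +
    (4 : ℝ) • 1

end St

end Vale.Agent.P078.Finite
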