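import Vale.Agent.P078.Finite.Lifts
import Vale.Agent.P078.Finite.Normal
import Vale.Agent.P078.Finite.SecondDefs

/-!
Symmetrised sandwiches and multiplications as lifts of maps of real symbols.
-/

noncomputable section

open scoped InnerProductSpace

namespace Vale.Agent.P078.Finite

universe u

variable {K : Type u} [NormedAddCommGroup K] [InnerProductSpace ℂ K] [CompleteSpace K]

namespace Ctx

variable (C : Ctx K)

theorem norm_Er_le {x : K →L[ℂ] K} (hx : x ∈ C.M) (hs : IsSelfAdjoint x) : ‖C.Er x‖ ≤ ‖x‖ := by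
  rw [← C.norm_op, C.op_Er hx hs]
  exact C.norm_E_le hx

theorem Er_real_add {x y : K →L[ℂ] K} (hx : x ∈ C.M) (hy : y ∈ C.M) :
    C.Er (x + y) = C.Er x + C.Er y := C.Er_add hx hy

theorem gam_vec {a b : K →L[ℂ] K} (ha : a ∈ C.M) (hb : b ∈ C.M) (v : C(C.Spec, ℝ)) :
    (C.gam a b (C.vec v) : K) = C.E (a * C.op v * b) C.Ω := by
  rw [vec, C.gam_em ha hb]
  rfl

theorem exists_mul_lift (f : C(C.Spec, ℝ)) :
    ∀ v, C.gam (C.op f) 1 (C.vec v) = C.vec (f * v) := fun v => by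
  refine Subtype.ext ?_
  rw [C.gam_vec (C.op_mem_M f) (one_mem _), vec_coe, mul_one, ← map_mul,
    C.E_of_mem (C.op_mem _)]

/-- Multiplication by a real symbol. -/
def mulMap (f : C(C.Spec, ℝ)) : C(C.Spec, ℝ) →L[ℝ] C(C.Spec, ℝ) :=
  (LinearMap.mulLeft ℝ f).mkContinuous ‖f‖ fun v => norm_mul_le f v

theorem mulMap_apply (f v : C(C.Spec, ℝ)) : C.mulMap f v = f * v := rfl

theorem lifts_mulMap (f : C(C.Spec, ℝ)) : C.Lifts (C.gam (C.op f) 1) (C.mulMap f) :=
  C.exists_mul_lift f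

theorem star_gam_op (f : C(C.Spec, ℝ)) : star (C.gam (C.op f) 1) = C.gam (C.op f) 1 := by
  rw [C.star_gam (C.op_mem_M f) (one_mem _), (C.op_sa f).star_eq, star_one]

/-- The linear map `v ↦ f * Er (Z (g v) Z)`. -/
def sandMap (f g : C(C.Spec, ℝ)) (Z : C.M) (hZ : IsSelfAdjoint (Z : K →L[ℂ] K)) :
    C(C.Spec, ℝ) →L[ℝ] C(C.Spec, ℝ) :=
  LinearMap.mkContinuous
    { toFun := fun v => f * C.Er ((Z : K →L[ℂ] K) * C.op (g * v) * Z)
      map_add' := fun v w => by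
        rw [mul_add g, map_add, mul_add (Z : K →L[ℂ] K), add_mul,
          C.Er_add (mul_mem (mul_mem Z.2 (C.op_mem_M _)) Z.2)
            (mul_mem (mul_mem Z.2 (C.op_mem_M _)) Z.2), mul_add]
      map_smul' := fun t v => by
        rw [mul_smul_comm, map_smul, mul_smul_comm, smul_mul_assoc,
          C.Er_smul t (mul_mem (mul_mem Z.2 (C.op_mem_M _)) Z.2), mul_smul_comm, RingHom.id_apply] }
    (‖f‖ * (‖(Z : K →L[ℂ] K)‖ * ‖g‖ * ‖(Z : K →L[ℂ] K)‖)) fun v => by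
      refine (norm_mul_le _ _).trans ?_
      rw [mul_assoc ‖f‖]
      refine mul_le_mul_of_nonneg_left ?_ (norm_nonneg f)
      refine (C.norm_Er_le (mul_mem (mul_mem Z.2 (C.op_mem_M _)) Z.2)
        (isSelfAdjoint_ryr hZ (C.op_sa _))).trans ?_
      refine (norm_mul_le _ _).trans ?_
      refine (mul_le_mul_of_nonneg_right ((norm_mul_le _ _).trans (mul_le_mul_of_nonneg_left
        ((C.norm_op _).trans_le (norm_mul_le g v)) (norm_nonneg _))) (norm_nonneg _)).trans_eq ?_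
      ring

theorem sandMap_apply (f g : C(C.Spec, ℝ)) (Z : C.M) (hZ : IsSelfAdjoint (Z : K →L[ℂ] K))
    (v : C(C.Spec, ℝ)) :
    C.sandMap f g Z hZ v = f * C.Er ((Z : K →L[ℂ] K) * C.op (g * v) * Z) := rfl

theorem lifts_sandMap (f g : C(C.Spec, ℝ)) (Z : C.M) (hZ : IsSelfAdjoint (Z : K →L[ℂ] K)) :
    C.Lifts (C.gam (C.op f * Z * C.op g) Z) (C.sandMap f g Z hZ) := fun v => by
  refine Subtype.ext ?_
  rw [C.gam_vec (mul_mem (mul_mem (C.op_mem_M f) Z.2) (C.op_mem_M g)) Z.2, vec_coe, sandMap_apply,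
    map_mul, C.op_Er (mul_mem (mul_mem Z.2 (C.op_mem_M _)) Z.2) (isSelfAdjoint_ryr hZ (C.op_sa _)),
    ← C.E_mul_left (C.op_mem f) (mul_mem (mul_mem Z.2 (C.op_mem_M _)) Z.2), map_mul]
  simp only [mul_assoc]

theorem star_gam_sand (f g : C(C.Spec, ℝ)) {Z : K →L[ℂ] K} (hZ : Z ∈ C.M)
    (hs : IsSelfAdjoint Z) :
    star (C.gam (C.op f * Z * C.op g) Z) = C.gam (C.op g * Z * C.op f) Z := by
  rw [C.star_gam (mul_mem (mul_mem (C.op_mem_M f) hZ) (C.op_mem_M g)) hZ, hs.star_eq, star_mul,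
    star_mul, hs.star_eq, (C.op_sa f).star_eq, (C.op_sa g).star_eq, mul_assoc (C.op g)]

theorem sym2_mem {a b : K →L[ℂ] K} (ha : a ∈ C.M) (hb : b ∈ C.M) : C.sym2 a b ∈ C.BB := by
  rw [sym2, ← Complex.coe_smul]
  exact C.BB.smul_mem (add_mem (C.gam_mem_BB ha hb) (C.gam_mem_BB hb ha)) _

theorem sym2_sa {a b : K →L[ℂ] K} (ha : a ∈ C.M) (hb : b ∈ C.M) (sa : IsSelfAdjoint a)
    (sb : IsSelfAdjoint b) : IsSelfAdjoint (C.sym2 a b) := by
  rw [IsSelfAdjoint, sym2, star_smul, star_trivial, star_add, C.star_gam ha hb, C.star_gam hb ha,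
    sa.star_eq, sb.star_eq]

theorem exists_sym2_lift {a b : K →L[ℂ] K} (ha : a ∈ C.M) (hb : b ∈ C.M) (sa : IsSelfAdjoint a)
    (sb : IsSelfAdjoint b) :
    ∃ T : C(C.Spec, ℝ) →L[ℝ] C(C.Spec, ℝ), C.Lifts (C.sym2 a b) T ∧
      ∀ v, C.intA (v * T v) = (C.tr (C.op v * a * C.op v * b)).re := by
  have hm : ∀ v : C(C.Spec, ℝ), a * C.op v * b + b * C.op v * a ∈ C.M := fun v =>
    add_mem (mul_mem (mul_mem ha (C.op_mem_M v)) hb) (mul_mem (mul_mem hb (C.op_mem_M v)) ha)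
  have hs : ∀ v : C(C.Spec, ℝ), IsSelfAdjoint (a * C.op v * b + b * C.op v * a) := fun v => by
    rw [IsSelfAdjoint, star_add, star_mul, star_mul, star_mul, star_mul, sa.star_eq, sb.star_eq,
      (C.op_sa v).star_eq, mul_assoc a, mul_assoc b, add_comm]
  let T0 : C(C.Spec, ℝ) →ₗ[ℝ] C(C.Spec, ℝ) :=
    { toFun := fun v => (1 / 2 : ℝ) • C.Er (a * C.op v * b + b * C.op v * a)
      map_add' := fun v w => by
        rw [← smul_add, ← C.Er_add (hm v) (hm w)]
        congr 2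
        rw [map_add]
        noncomm_ring
      map_smul' := fun t v => by
        rw [RingHom.id_apply, smul_comm t, ← C.Er_smul t (hm v)]
        congr 2
        rw [map_smul, mul_smul_comm, smul_mul_assoc, mul_smul_comm, smul_mul_assoc, smul_add] }
  let T := T0.mkContinuous (‖a‖ * ‖b‖) fun v => by
    change ‖(1 / 2 : ℝ) • C.Er (a * C.op v * b + b * C.op v * a)‖ ≤ _
    rw [norm_smul, Real.norm_eq_abs, abs_of_pos (by norm_num : (0 : ℝ) < 1 / 2)]
    have h1 := C.norm_Er_le (hm v) (hs v)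
    have h2 : ∀ p q : K →L[ℂ] K, ‖p * C.op v * q‖ ≤ ‖p‖ * ‖v‖ * ‖q‖ := fun p q =>
      (norm_mul_le _ _).trans (mul_le_mul_of_nonneg_right
        ((norm_mul_le _ _).trans_eq (by rw [C.norm_op])) (norm_nonneg q))
    have h3 := (norm_add_le (a * C.op v * b) (b * C.op v * a)).trans (add_le_add (h2 a b) (h2 b a))
    linarith
  refine ⟨T, fun v => Subtype.ext ?_, fun v => ?_⟩
  · rw [sym2, smul_apply, add_apply, Submodule.coe_smul_of_tower, Submodule.coe_add,
      C.gam_vec ha hb, C.gam_vec hb ha, vec_coe,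
      show T v = (1 / 2 : ℝ) • C.Er (a * C.op v * b + b * C.op v * a) from rfl, map_smul,
      C.op_Er (hm v) (hs v), C.E_add (mul_mem (mul_mem ha (C.op_mem_M v)) hb)
        (mul_mem (mul_mem hb (C.op_mem_M v)) ha)]
    rfl
  · rw [show T v = (1 / 2 : ℝ) • C.Er (a * C.op v * b + b * C.op v * a) from rfl, mul_smul_comm,
      C.intA_smul, intA, map_mul, C.op_Er (hm v) (hs v), ← C.E_mul_left (C.op_mem v) (hm v),
      C.tr_E (mul_mem (C.op_mem_M v) (hm v)), mul_add, C.tr_add, Complex.add_re]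
    have e : (C.tr (C.op v * (b * C.op v * a))).re = (C.tr (C.op v * (a * C.op v * b))).re := by
      have h1 : star (C.op v * (b * C.op v * a)) = a * C.op v * b * C.op v := by
        simp only [star_mul, sa.star_eq, sb.star_eq, (C.op_sa v).star_eq, mul_assoc]
      rw [← Complex.conj_re, ← C.tr_star, h1, C.tr_comm (mul_mem (mul_mem ha (C.op_mem_M v)) hb)
        (C.op_mem_M v)]
    rw [e, ← mul_assoc, ← mul_assoc]
    ring

end Ctx

end Vale.Agent.P078.Finite
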