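import Vale.Agent.P078.Finite.Lifts
import Vale.Agent.P078.Finite.Trace

/-!
A sign pattern, pushed almost into the kernel of finitely many operators, on which given quadratic
forms do no worse than their traces.
-/

noncomputable section

open scoped InnerProductSpace
open Filter Topology

namespace Vale.Agent.P078.Finite

universe u

variable {K : Type u} [NormedAddCommGroup K] [InnerProductSpace ℂ K] [CompleteSpace K]

section general

variable {B : Type*} [CStarAlgebra B] [PartialOrder B] [StarOrderedRing B]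

omit [PartialOrder B] [StarOrderedRing B] in
theorem star_pow_self {a : B} (ha : IsSelfAdjoint a) (j : ℕ) : star (a ^ j) = a ^ j := by
  rw [star_pow, ha.star_eq]

theorem pow_nonneg_op {a : B} (ha : 0 ≤ a) (j : ℕ) : 0 ≤ a ^ j := by
  have hs := IsSelfAdjoint.of_nonneg ha
  obtain ⟨m, rfl⟩ | ⟨m, rfl⟩ := Nat.even_or_odd j
  · rw [pow_add]
    conv => enter [2, 1]; rw [← star_pow_self hs m]
    exact star_mul_self_nonneg _
  · rw [show 2 * m + 1 = m + 1 + m by omega, pow_add, pow_add, pow_one]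
    conv => enter [2, 1, 1]; rw [← star_pow_self hs m]
    exact star_left_conjugate_nonneg ha _

theorem pow_defect_le {a : B} (ha : 0 ≤ a) (n : ℕ) :
    (2 * n + 1) • ((1 - a) * a ^ (2 * n)) ≤ 1 := by
  have hs : IsSelfAdjoint (1 - a) := (IsSelfAdjoint.one B).sub (IsSelfAdjoint.of_nonneg ha)
  have hstep : ∀ k, (1 - a) * a ^ (k + 1) ≤ (1 - a) * a ^ k := by
    intro k
    rw [← sub_nonneg]
    have e : (1 - a) * a ^ k - (1 - a) * a ^ (k + 1) = star (1 - a) * a ^ k * (1 - a) := by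
      rw [hs.star_eq, pow_succ, mul_sub ((1 - a) * a ^ k) 1 a, mul_one, mul_assoc]
    rw [e]
    exact star_left_conjugate_nonneg (pow_nonneg_op ha k) _
  have hanti : Antitone fun k => (1 - a) * a ^ k := antitone_nat_of_succ_le hstep
  have hsum : ∑ k ∈ Finset.range (2 * n + 1), (1 - a) * a ^ k = 1 - a ^ (2 * n + 1) := by
    rw [← Finset.mul_sum]
    exact mul_neg_geom_sum a _
  calc (2 * n + 1) • ((1 - a) * a ^ (2 * n))
      = ∑ _k ∈ Finset.range (2 * n + 1), (1 - a) * a ^ (2 * n) := by simp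
    _ ≤ ∑ k ∈ Finset.range (2 * n + 1), (1 - a) * a ^ k :=
        Finset.sum_le_sum fun k hk => hanti (Nat.lt_succ_iff.1 (Finset.mem_range.1 hk))
    _ = 1 - a ^ (2 * n + 1) := hsum
    _ ≤ 1 := sub_le_self _ (pow_nonneg_op ha _)

theorem one_sub_pow_le {a u : B} (ha : 0 ≤ a) (hu : IsStarProjection u)
    (hfix : a * (1 - u) = 1 - u) (hcomm : u * a = a * u) (m : ℕ) : 1 - a ^ m ≤ u := by
  have h1 : a ^ m * (1 - u) = 1 - u := by
    induction m with
    | zero => rw [pow_zero, one_mul]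
    | succ m ih => rw [pow_succ, mul_assoc, hfix, ih]
  have h2 : a ^ m * u = u * a ^ m * u := by
    have : u * a ^ m = a ^ m * u := (show Commute u a from hcomm).pow_right m
    rw [this, mul_assoc, hu.isIdempotentElem.eq]
  have h3 : 1 - a ^ m = u - a ^ m * u := by
    have : a ^ m = a ^ m * u + (1 - u) := by rw [← h1, ← mul_add, add_sub_cancel, mul_one]
    conv_lhs => rw [this]
    abel
  rw [h3, h2]
  refine sub_le_self _ ?_
  have := star_left_conjugate_nonneg (pow_nonneg_op ha m) u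
  rwa [hu.isSelfAdjoint.star_eq] at this

/-- A truncated inverse of a positive element, with its defect. -/
theorem exists_truncation {A : B} (hA0 : 0 ≤ A) {Lm : ℝ} (hLm0 : 0 < Lm) (hAle : A ≤ Lm • 1)
    (n : ℕ) : ∃ a h : B, 0 ≤ a ∧ a ≤ 1 ∧ A = Lm • (1 - a) ∧ a = 1 - Lm⁻¹ • A ∧ 0 ≤ h ∧
      h = Lm⁻¹ • ∑ k ∈ Finset.range n, a ^ k ∧ A * h = 1 - a ^ n ∧
      0 ≤ h + h - h * A * h ∧ (h + h - h * A * h) * A = 1 - a ^ (2 * n) := by
  obtain ⟨a, hadef⟩ : ∃ a, a = 1 - Lm⁻¹ • A := ⟨_, rfl⟩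
  have ha0 : 0 ≤ a := by
    rw [hadef, sub_nonneg]
    calc Lm⁻¹ • A ≤ Lm⁻¹ • (Lm • (1 : B)) :=
          smul_le_smul_of_nonneg_left hAle (inv_nonneg.2 hLm0.le)
      _ = 1 := by rw [smul_smul, inv_mul_cancel₀ hLm0.ne', one_smul]
  have hA_eq : A = Lm • (1 - a) := by
    rw [hadef, sub_sub_cancel, smul_smul, mul_inv_cancel₀ hLm0.ne', one_smul]
  obtain ⟨h, hhdef⟩ : ∃ h, h = Lm⁻¹ • ∑ k ∈ Finset.range n, a ^ k := ⟨_, rfl⟩
  have hhA : h * A = 1 - a ^ n := by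
    rw [hhdef, hA_eq, smul_mul_assoc, mul_smul_comm, smul_smul, inv_mul_cancel₀ hLm0.ne',
      one_smul, geom_sum_mul_neg]
  have hAh : A * h = 1 - a ^ n := by
    rw [hhdef, hA_eq, smul_mul_assoc, mul_smul_comm, smul_smul, mul_inv_cancel₀ hLm0.ne',
      one_smul, mul_neg_geom_sum]
  have hh0 : 0 ≤ h := by
    rw [hhdef]
    exact smul_nonneg (inv_nonneg.2 hLm0.le) (Finset.sum_nonneg fun k _ => pow_nonneg_op ha0 k)
  have hh2 : h + h - h * A * h = h + h * a ^ n := by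
    rw [mul_assoc, hAh, mul_sub, mul_one]
    abel
  refine ⟨a, h, ha0, ?_, hA_eq, hadef, hh0, hhdef, hAh, ?_, ?_⟩
  · rw [hadef]
    exact sub_le_self _ (smul_nonneg (inv_nonneg.2 hLm0.le) hA0)
  · rw [hh2]
    refine add_nonneg hh0 ?_
    rw [hhdef, smul_mul_assoc, Finset.sum_mul]
    refine smul_nonneg (inv_nonneg.2 hLm0.le) (Finset.sum_nonneg fun k _ => ?_)
    rw [← pow_add]
    exact pow_nonneg_op ha0 _
  · have hc : a ^ n * A = A * a ^ n := by
      rw [hA_eq, mul_smul_comm, smul_mul_assoc, mul_sub, sub_mul, mul_one, one_mul, ← pow_succ,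
        ← pow_succ']
    rw [hh2, add_mul, hhA, mul_assoc, hc, ← mul_assoc, hhA, sub_mul, one_mul, two_mul, pow_add]
    abel

end general

namespace Ctx

variable (C : Ctx K)

theorem trS_mult (s : Part C) {X : C.L →L[ℂ] C.L} {f : C(C.Spec, ℝ)}
    (h : ∀ v, X (C.vec v) = C.vec (f * v)) : C.trS s X = (C.intA f : ℂ) := by
  have h1 : ∀ i, ⟪C.vec (s.c i), X (C.vec (s.c i))⟫_ℂ = (C.intA (s.c i * f) : ℂ) := fun i => by
    rw [h, C.inner_vec, mul_left_comm, s.idem, mul_comm]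
  rw [trS, Finset.sum_congr rfl fun i _ => h1 i, ← Complex.ofReal_sum, ← C.intA_sum,
    ← Finset.sum_mul, s.sum_eq, one_mul]

theorem trS_sandwich (s : Part C) {X P : C.L →L[ℂ] C.L} :
    C.trS s (star P * X * P) = ∑ i, ⟪P (C.vec (s.c i)), X (P (C.vec (s.c i)))⟫_ℂ := by
  refine Finset.sum_congr rfl fun i _ => ?_
  rw [ContinuousLinearMap.star_eq_adjoint]
  exact ContinuousLinearMap.adjoint_inner_right P _ _

variable {r : ℕ}

/-- The blocks of the approximate projection onto the joint kernel. -/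
def kerBlock (Lo : Fin r → C.L →L[ℂ] C.L) (h : C.L →L[ℂ] C.L) (i j : Fin r) : C.L →L[ℂ] C.L :=
  (if i = j then 1 else 0) - star (Lo i) * h * Lo j

theorem star_kerBlock {Lo : Fin r → C.L →L[ℂ] C.L} {h : C.L →L[ℂ] C.L} (hh : IsSelfAdjoint h)
    (i j : Fin r) : star (C.kerBlock Lo h i j) = C.kerBlock Lo h j i := by
  unfold kerBlock
  rw [star_sub, star_mul, star_mul, star_star, hh.star_eq, mul_assoc]
  congr 1
  rcases eq_or_ne i j with rfl | hne
  · simp
  · simp [hne, hne.symm]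

theorem sum_kerBlock_sq {Lo : Fin r → C.L →L[ℂ] C.L} {h A : C.L →L[ℂ] C.L}
    (hA : A = ∑ j, Lo j * star (Lo j)) (i : Fin r) :
    ∑ j, C.kerBlock Lo h i j * C.kerBlock Lo h j i =
      1 - star (Lo i) * (h + h - h * A * h) * Lo i := by
  have e : ∀ j, C.kerBlock Lo h i j * C.kerBlock Lo h j i =
      (if i = j then 1 else 0) - (if i = j then star (Lo i) * h * Lo i else 0) -
        (if i = j then star (Lo i) * h * Lo i else 0) +
        star (Lo i) * h * (Lo j * star (Lo j)) * h * Lo i := by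
    intro j
    unfold kerBlock
    rcases eq_or_ne i j with rfl | hne
    · simp only [if_true]
      noncomm_ring
    · simp only [if_neg hne, if_neg hne.symm]
      noncomm_ring
  rw [Finset.sum_congr rfl fun j _ => e j, Finset.sum_add_distrib, Finset.sum_sub_distrib,
    Finset.sum_sub_distrib, ← Finset.sum_mul, ← Finset.sum_mul, ← Finset.mul_sum, ← hA]
  simp only [Finset.sum_ite_eq, Finset.mem_univ, if_true]
  noncomm_ring

theorem lifts_geom {a : C.L →L[ℂ] C.L} {af : C(C.Spec, ℝ) →L[ℝ] C(C.Spec, ℝ)}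
    (ha : C.Lifts a af) {c : ℝ} (n : ℕ) :
    C.Lifts (c • ∑ k ∈ Finset.range n, a ^ k) (c • ∑ k ∈ Finset.range n, af ^ k) :=
  (Lifts.sum _ fun k _ => ha.pow k).smul c

theorem opN_mul_le (S T : C(C.Spec, ℝ) →L[ℝ] C(C.Spec, ℝ)) : ‖S * T‖ ≤ ‖S‖ * ‖T‖ :=
  ContinuousLinearMap.opNorm_comp_le S T

theorem opN_nonneg (S : C(C.Spec, ℝ) →L[ℝ] C(C.Spec, ℝ)) : 0 ≤ ‖S‖ :=
  ContinuousLinearMap.opNorm_nonneg S

theorem norm_pow_le_two {af : C(C.Spec, ℝ) →L[ℝ] C(C.Spec, ℝ)} (h : ‖af‖ ≤ 2) (k : ℕ) :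
    ‖af ^ k‖ ≤ 2 ^ k := by
  induction k with
  | zero =>
    rw [pow_zero, pow_zero]
    exact ContinuousLinearMap.norm_id_le
  | succ k ih =>
    rw [pow_succ, pow_succ]
    exact (C.opN_mul_le _ _).trans
      (mul_le_mul ih h (C.opN_nonneg af) (pow_nonneg zero_le_two _))

/-- The sup-norm bound of the directions produced. -/
def dirBound (r n : ℕ) (CL : ℝ) : ℝ := r * (1 + CL ^ 2 * 2 ^ n)

theorem ext_real {X Y : C.L →L[ℂ] C.L} (h : ∀ v, X (C.vec v) = Y (C.vec v)) : X = Y := by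
  refine ContinuousLinearMap.ext fun x => C.denseRange_em.induction_on x
    (isClosed_eq X.continuous Y.continuous) fun b => ?_
  rw [C.em_decomp b, map_add, map_add, map_smul, map_smul, h, h]

theorem isStarProjection_mult {U : C(C.Spec, ℝ)} (hU : U * U = U) {X : C.L →L[ℂ] C.L}
    (hX : ∀ v, X (C.vec v) = C.vec (U * v)) : IsStarProjection X := by
  constructor
  · refine C.ext_real fun v => ?_
    change X (X (C.vec v)) = _
    rw [hX, hX, ← mul_assoc, hU]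
  · rw [IsSelfAdjoint]
    refine C.ext_real fun v => ext_inner_left ℂ fun x => C.denseRange_em.induction_on x
      (isClosed_eq (continuous_id.inner continuous_const) (continuous_id.inner continuous_const))
      fun b => ?_
    rw [ContinuousLinearMap.star_eq_adjoint, ContinuousLinearMap.adjoint_inner_right,
      C.em_decomp b, map_add, map_smul]
    simp only [hX, inner_add_left, inner_smul_left, C.inner_vec, mul_left_comm, mul_assoc]

/-- Properties of a truncated inverse `h` of `A` and of the defect `a`. -/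
structure IsCutoff (A a h : C.L →L[ℂ] C.L) (Lm : ℝ) (n : ℕ) : Prop where
  pos : 0 < Lm
  a_nonneg : 0 ≤ a
  a_le : a ≤ 1
  eq_A : A = Lm • (1 - a)
  h_nonneg : 0 ≤ h
  mul_h : A * h = 1 - a ^ n
  h2_nonneg : 0 ≤ h + h - h * A * h
  h2_mul : (h + h - h * A * h) * A = 1 - a ^ (2 * n)
  h_mem : A ∈ C.BB → h ∈ C.BB
  h_lift : ∀ {Af : C(C.Spec, ℝ) →L[ℝ] C(C.Spec, ℝ)}, C.Lifts A Af → ‖Af‖ ≤ Lm - 1 →
    ∃ hf : C(C.Spec, ℝ) →L[ℝ] C(C.Spec, ℝ), C.Lifts h hf ∧ ‖hf‖ ≤ 2 ^ n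

theorem exists_cutoff {A : C.L →L[ℂ] C.L} (hA0 : 0 ≤ A) {Lm : ℝ} (hLm1 : 1 ≤ Lm)
    (hAle : ‖A‖ ≤ Lm) (n : ℕ) : ∃ a h, C.IsCutoff A a h Lm n := by
  have hLm0 : 0 < Lm := zero_lt_one.trans_le hLm1
  have hAle' : A ≤ Lm • 1 := by
    refine (IsSelfAdjoint.le_algebraMap_norm_self (IsSelfAdjoint.of_nonneg hA0)).trans ?_
    rw [Algebra.algebraMap_eq_smul_one]
    exact smul_le_smul_of_nonneg_right hAle zero_le_one
  obtain ⟨a, h, ha0, ha1, hA_eq, hadef, hh0, hhdef, hAh, hh2, hh2A⟩ :=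
    exists_truncation hA0 hLm0 hAle' n
  refine ⟨a, h, hLm0, ha0, ha1, hA_eq, hh0, hAh, hh2, hh2A, ?_, ?_⟩
  · intro hAB
    have haB : a ∈ C.BB := by
      rw [hadef]
      refine sub_mem (one_mem _) ?_
      rw [← Complex.coe_smul]
      exact C.BB.smul_mem hAB _
    rw [hhdef, ← Complex.coe_smul]
    exact C.BB.smul_mem (sum_mem fun k _ => pow_mem haB k) _
  · intro Af hAl hAfn
    set af : C(C.Spec, ℝ) →L[ℝ] C(C.Spec, ℝ) := 1 - Lm⁻¹ • Af with hafdef
    have hal : C.Lifts (1 - Lm⁻¹ • A) af := Lifts.one.sub (hAl.smul _)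
    have h1 : ‖(1 : C(C.Spec, ℝ) →L[ℝ] C(C.Spec, ℝ))‖ ≤ 1 := ContinuousLinearMap.norm_id_le
    have h2 : ‖Lm⁻¹ • Af‖ ≤ 1 := by
      refine (ContinuousLinearMap.opNorm_smul_le _ _).trans ?_
      rw [Real.norm_eq_abs, abs_of_pos (inv_pos.2 hLm0), inv_mul_le_iff₀ hLm0]
      linarith
    have hafn : ‖af‖ ≤ 2 := by
      have h3 : ‖af‖ ≤ ‖(1 : C(C.Spec, ℝ) →L[ℝ] C(C.Spec, ℝ))‖ + ‖Lm⁻¹ • Af‖ :=
        norm_sub_le (E := C(C.Spec, ℝ) →L[ℝ] C(C.Spec, ℝ)) _ _
      linarith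
    refine ⟨Lm⁻¹ • ∑ k ∈ Finset.range n, af ^ k, ?_, ?_⟩
    · rw [hhdef]
      refine C.lifts_geom ?_ n
      rw [hadef]
      exact hal
    refine (ContinuousLinearMap.opNorm_smul_le _ _).trans ?_
    rw [Real.norm_eq_abs, abs_of_pos (inv_pos.2 hLm0), inv_mul_le_iff₀ hLm0]
    refine (norm_sum_le (E := C(C.Spec, ℝ) →L[ℝ] C(C.Spec, ℝ)) _ _).trans
      ((Finset.sum_le_sum fun k _ => C.norm_pow_le_two hafn k).trans ?_)
    rw [geom_sum_eq (by norm_num : (2 : ℝ) ≠ 1)]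
    have : (1 : ℝ) * 2 ^ n ≤ Lm * 2 ^ n :=
      mul_le_mul_of_nonneg_right hLm1 (pow_nonneg zero_le_two _)
    linarith

variable {C} in
theorem IsCutoff.self_adjoint {A a h : C.L →L[ℂ] C.L} {Lm : ℝ} {n : ℕ}
    (c : C.IsCutoff A a h Lm n) : IsSelfAdjoint h := IsSelfAdjoint.of_nonneg c.h_nonneg

theorem eventually_re_le {X Y : C.L →L[ℂ] C.L} (hX : X ∈ C.BB) (hY : Y ∈ C.BB) {η : ℝ}
    (hη : 0 < η) : ∀ᶠ s in (atTop : Filter (Part C)),
      (C.trS s (X * Y)).re ≤ (C.trS s (Y * X)).re + η := by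
  filter_upwards [(tendsto_zero_iff_norm_tendsto_zero.1 (C.tendsto_trS_comm hX hY)).eventually
    (eventually_le_nhds hη)] with s hs
  have := (Complex.re_le_norm _).trans hs
  rw [Complex.sub_re] at this
  linarith

theorem eventually_sqrt_swap {S P Q : C.L →L[ℂ] C.L} {η : ℝ} (hη : 0 < η) (hS0 : 0 ≤ S)
    (hP : P ∈ C.BB) (hQ : Q ∈ C.BB) (hS : CFC.sqrt S ∈ C.BB) :
    ∀ᶠ s in (atTop : Filter (Part C)), (C.trS s (P * S * Q)).re ≤
      (C.trS s (CFC.sqrt S * (Q * P) * CFC.sqrt S)).re + η := by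
  filter_upwards [C.eventually_re_le (mul_mem hP hS) (mul_mem hS hQ) hη] with s hs
  have e1 : P * CFC.sqrt S * (CFC.sqrt S * Q) = P * S * Q := by
    conv_rhs => rw [← CFC.sqrt_mul_sqrt_self S hS0]
    simp only [mul_assoc]
  have e2 : CFC.sqrt S * Q * (P * CFC.sqrt S) = CFC.sqrt S * (Q * P) * CFC.sqrt S := by
    simp only [mul_assoc]
  rwa [e1, e2] at hs

theorem eventually_swap {X Y Z : C.L →L[ℂ] C.L} {η : ℝ} (hη : 0 < η) (hX : X ∈ C.BB)
    (hY : Y ∈ C.BB) (hZ : Z ∈ C.BB) : ∀ᶠ s in (atTop : Filter (Part C)),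
      (C.trS s (X * Y * Z)).re ≤ (C.trS s (Y * (Z * X))).re + η := by
  filter_upwards [C.eventually_re_le hX (mul_mem hY hZ) hη] with s hs
  rwa [← mul_assoc X, mul_assoc Y] at hs

theorem sum_sandwich_le (s : Part C) {S : C.L →L[ℂ] C.L} (hS0 : 0 ≤ S)
    {X : Fin r → C.L →L[ℂ] C.L} (hle : ∑ i, X i ≤ 1) :
    ∑ i, (C.trS s (CFC.sqrt S * X i * CFC.sqrt S)).re ≤ (C.trS s S).re := by
  rw [← Complex.re_sum, ← C.trS_sum, ← Finset.sum_mul, ← Finset.mul_sum]
  have hss : IsSelfAdjoint (CFC.sqrt S) := IsSelfAdjoint.of_nonneg (CFC.sqrt_nonneg _)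
  have := star_left_conjugate_le_conjugate hle (CFC.sqrt S)
  rw [hss.star_eq, mul_one, CFC.sqrt_mul_sqrt_self S hS0] at this
  exact C.trS_re_mono s this

theorem trS_mono_mult (s : Part C) {U : C(C.Spec, ℝ)} {X : C.L →L[ℂ] C.L}
    (hUl : ∀ v, C.gam (C.op U) 1 (C.vec v) = C.vec (U * v))
    (hX : X ≤ C.gam (C.op U) 1) : (C.trS s X).re ≤ C.intA U := by
  refine (C.trS_re_mono s hX).trans_eq ?_
  rw [C.trS_mult s hUl, Complex.ofReal_re]

theorem cutoff_le_mult {U : C(C.Spec, ℝ)} (hU : U * U = U) {A a h : C.L →L[ℂ] C.L} {Lm : ℝ}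
    {n : ℕ} (hc : C.IsCutoff A a h Lm n) (hAs : IsSelfAdjoint A)
    (hUl : ∀ v, C.gam (C.op U) 1 (C.vec v) = C.vec (U * v))
    (hUA : C.gam (C.op U) 1 * A = A) (m : ℕ) : 1 - a ^ m ≤ C.gam (C.op U) 1 := by
  have hUproj := C.isStarProjection_mult hU hUl
  have hAU : A * C.gam (C.op U) 1 = A := by
    have := congrArg star hUA
    rwa [star_mul, hUproj.isSelfAdjoint.star_eq, hAs.star_eq] at this
  have ha : a = 1 - Lm⁻¹ • A := by
    rw [hc.eq_A, smul_smul, inv_mul_cancel₀ hc.pos.ne', one_smul, sub_sub_cancel]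
  have hfix : a * (1 - C.gam (C.op U) 1) = 1 - C.gam (C.op U) 1 := by
    rw [ha, sub_mul, one_mul, smul_mul_assoc, mul_sub, hAU, mul_one, sub_self, smul_zero,
      sub_zero]
  have hcomm : C.gam (C.op U) 1 * a = a * C.gam (C.op U) 1 := by
    rw [ha, mul_sub, sub_mul, mul_one, one_mul, mul_smul_comm, smul_mul_assoc, hUA, hAU]
  exact one_sub_pow_le hc.a_nonneg hUproj hfix hcomm m

theorem kerBlock_mem {Lo : Fin r → C.L →L[ℂ] C.L} (hLB : ∀ i, Lo i ∈ C.BB) {h : C.L →L[ℂ] C.L}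
    (hh : h ∈ C.BB) (i j : Fin r) : C.kerBlock Lo h i j ∈ C.BB := by
  refine sub_mem ?_ (mul_mem (mul_mem (star_mem (hLB i)) hh) (hLB j))
  split_ifs
  exacts [one_mem _, zero_mem _]

theorem sqrt_mem_BB {S : C.L →L[ℂ] C.L} (hS0 : 0 ≤ S) (hSB : S ∈ C.BB) :
    CFC.sqrt S ∈ C.BB := by
  rw [CFC.sqrt_eq_real_sqrt S hS0, cfcₙ_eq_cfc]
  exact C.cfc_mem_BB hSB _

/-- The averaged trace of the forms pushed through the blocks. -/
theorem eventually_trace_le {C1 η : ℝ} (hC1 : 0 ≤ C1) (hη : 0 < η)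
    {U : C(C.Spec, ℝ)} (hU : U * U = U) {Lo S : Fin r → C.L →L[ℂ] C.L}
    (hLB : ∀ i, Lo i ∈ C.BB)
    (hUl : ∀ v, C.gam (C.op U) 1 (C.vec v) = C.vec (U * v))
    (hUA : C.gam (C.op U) 1 * (∑ j, Lo j * star (Lo j)) = ∑ j, Lo j * star (Lo j))
    (hS0 : ∀ i, 0 ≤ S i) (hSB : ∀ i, S i ∈ C.BB) {a h : C.L →L[ℂ] C.L} {Lm : ℝ} {n : ℕ}
    (hc : C.IsCutoff (∑ j, Lo j * star (Lo j)) a h Lm n) :
    ∀ᶠ s in (atTop : Filter (Part C)),
      ∑ j, ∑ i, ((C.trS s (C.kerBlock Lo h i j * S j * C.kerBlock Lo h j i)).re -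
          C1 * (C.trS s (C.kerBlock Lo h i j * C.kerBlock Lo h j i)).re) ≤
        ∑ i, (C.trS s (S i)).re - C1 * ((r : ℝ) * ‖C.Ω‖ ^ 2 - C.intA U) + η := by
  classical
  have hAB : (∑ j, Lo j * star (Lo j)) ∈ C.BB :=
    sum_mem fun j _ => mul_mem (hLB j) (star_mem (hLB j))
  have hhB : h ∈ C.BB := hc.h_mem hAB
  have hAs : IsSelfAdjoint (∑ j, Lo j * star (Lo j)) := IsSelfAdjoint.of_nonneg
    (Finset.sum_nonneg fun j _ => mul_star_self_nonneg _)
  have hh2B : h + h - h * (∑ j, Lo j * star (Lo j)) * h ∈ C.BB :=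
    sub_mem (add_mem hhB hhB) (mul_mem (mul_mem hhB hAB) hhB)
  have hsum1 : ∀ j, ∑ i, C.kerBlock Lo h j i * C.kerBlock Lo h i j ≤ 1 := fun j => by
    rw [C.sum_kerBlock_sq rfl j]
    exact sub_le_self _ (star_left_conjugate_nonneg hc.h2_nonneg _)
  have hden : (0 : ℝ) < (r : ℝ) * r + C1 * r + 1 :=
    add_pos_of_nonneg_of_pos (add_nonneg (by positivity) (mul_nonneg hC1 (Nat.cast_nonneg r)))
      one_pos
  obtain ⟨η', hη'def⟩ : ∃ η', η' = η / ((r : ℝ) * r + C1 * r + 1) := ⟨_, rfl⟩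
  have hη' : 0 < η' := hη'def ▸ div_pos hη hden
  filter_upwards [eventually_all.2 fun i => eventually_all.2 fun j =>
      C.eventually_sqrt_swap hη' (hS0 j) (C.kerBlock_mem hLB hhB i j) (C.kerBlock_mem hLB hhB j i)
        (C.sqrt_mem_BB (hS0 j) (hSB j)),
    eventually_all.2 fun i => C.eventually_swap hη' (star_mem (hLB i)) hh2B (hLB i)] with s hq hd
  simp only [Finset.sum_sub_distrib, ← Finset.mul_sum]
  have h1 : ∀ j, ∑ i, (C.trS s (C.kerBlock Lo h i j * S j * C.kerBlock Lo h j i)).re ≤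
      (C.trS s (S j)).re + r * η' := by
    intro j
    refine (Finset.sum_le_sum fun i _ => hq i j).trans ?_
    rw [Finset.sum_add_distrib, Finset.sum_const, Finset.card_univ, Fintype.card_fin, nsmul_eq_mul]
    linarith [C.sum_sandwich_le s (hS0 j) (hsum1 j)]
  have h2' : (r : ℝ) * ‖C.Ω‖ ^ 2 - C.intA U - r * η' ≤
      ∑ j, ∑ i, (C.trS s (C.kerBlock Lo h i j * C.kerBlock Lo h j i)).re := by
    rw [Finset.sum_comm]
    have e : ∀ i, ∑ j, (C.trS s (C.kerBlock Lo h i j * C.kerBlock Lo h j i)).re = ‖C.Ω‖ ^ 2 -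
        (C.trS s (star (Lo i) * (h + h - h * (∑ j, Lo j * star (Lo j)) * h) * Lo i)).re :=
      fun i => by
        rw [← Complex.re_sum, ← C.trS_sum, C.sum_kerBlock_sq rfl i, C.trS_sub, C.trS_one,
          Complex.sub_re, ← Complex.ofReal_pow, Complex.ofReal_re]
    rw [Finset.sum_congr rfl fun i _ => e i, Finset.sum_sub_distrib, Finset.sum_const,
      Finset.card_univ, Fintype.card_fin, nsmul_eq_mul]
    have h3 : ∑ i, (C.trS s ((h + h - h * (∑ j, Lo j * star (Lo j)) * h) *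
        (Lo i * star (Lo i)))).re ≤ C.intA U := by
      rw [← Complex.re_sum, ← C.trS_sum, ← Finset.mul_sum, hc.h2_mul]
      exact C.trS_mono_mult s hUl (C.cutoff_le_mult hU hc hAs hUl hUA (2 * n))
    have h3' := Finset.sum_le_sum (s := Finset.univ) fun i _ => hd i
    rw [Finset.sum_add_distrib, Finset.sum_const, Finset.card_univ, Fintype.card_fin,
      nsmul_eq_mul] at h3'
    linarith
  have h4 := mul_le_mul_of_nonneg_left h2' hC1
  have h5 := Finset.sum_le_sum (s := Finset.univ) fun j _ => h1 j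
  rw [Finset.sum_add_distrib, Finset.sum_const, Finset.card_univ, Fintype.card_fin,
    nsmul_eq_mul] at h5
  have h6 : ((r : ℝ) * r + C1 * r) * η' ≤ η := by
    rw [hη'def, mul_div_assoc', div_le_iff₀ hden]
    linarith [mul_comm ((r : ℝ) * r + C1 * r) η]
  linarith

/-- The joint value of the operators on the pushed pattern is small. -/
theorem sq_norm_pushed_le {Lo : Fin r → C.L →L[ℂ] C.L} {a h : C.L →L[ℂ] C.L} {Lm : ℝ} {n : ℕ}
    (hc : C.IsCutoff (∑ j, Lo j * star (Lo j)) a h Lm n) (w : Fin r → C.L) {T : ℝ}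
    (hT : ∀ i, ‖w i‖ ^ 2 = T) :
    ‖∑ j, Lo j (∑ i, C.kerBlock Lo h j i (w i))‖ ^ 2 ≤ Lm * (r * T) / (2 * n + 1) := by
  classical
  set A := ∑ j, Lo j * star (Lo j) with hAdef
  have has : IsSelfAdjoint a := IsSelfAdjoint.of_nonneg hc.a_nonneg
  set y0 : C.L := ∑ i, Lo i (w i) with hy0
  have hLv : ∑ j, Lo j (∑ i, C.kerBlock Lo h j i (w i)) = (a ^ n) y0 := by
    calc ∑ j, Lo j (∑ i, C.kerBlock Lo h j i (w i))
        = ∑ i, (∑ j, Lo j * C.kerBlock Lo h j i) (w i) := by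
          simp only [map_sum, _root_.sum_apply]
          rw [Finset.sum_comm]
          rfl
      _ = ∑ i, ((1 - A * h) * Lo i) (w i) := by
          refine Finset.sum_congr rfl fun i _ => ?_
          congr 1
          unfold kerBlock
          simp only [mul_sub, mul_ite, mul_one, mul_zero, Finset.sum_sub_distrib,
            Finset.sum_ite_eq', Finset.mem_univ, if_true]
          rw [sub_mul, one_mul, hAdef, Finset.sum_mul, Finset.sum_mul]
          simp only [mul_assoc]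
      _ = (a ^ n) y0 := by
          rw [hc.mul_h, sub_sub_cancel, hy0, map_sum]
          rfl
  rw [hLv]
  set y := (a ^ n) y0 with hydef
  set x := (a ^ n) y with hxdef
  have hAx : (⟪x, A x⟫_ℂ).re ≤ Lm / (2 * n + 1) * ‖y‖ ^ 2 := by
    have hp := pow_defect_le hc.a_nonneg n
    have e : ⟪x, A x⟫_ℂ = (Lm : ℂ) * ⟪y, ((1 - a) * a ^ (2 * n)) y⟫_ℂ := by
      rw [hxdef]
      calc ⟪(a ^ n) y, A ((a ^ n) y)⟫_ℂ = ⟪y, (a ^ n * A * a ^ n) y⟫_ℂ := by
            conv_lhs => rw [← star_pow_self has n, ContinuousLinearMap.star_eq_adjoint,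
              ContinuousLinearMap.adjoint_inner_left]
            rw [← ContinuousLinearMap.star_eq_adjoint, star_pow_self has n]
            rfl
        _ = ⟪y, (Lm • ((1 - a) * a ^ (2 * n))) y⟫_ℂ := by
            congr 2
            have hcm : a ^ n * (1 - a) = (1 - a) * a ^ n := by
              rw [mul_sub, sub_mul, mul_one, one_mul, ← pow_succ, ← pow_succ']
            rw [hc.eq_A, mul_smul_comm, smul_mul_assoc, hcm, mul_assoc, ← pow_add, two_mul]
        _ = _ := by rw [smul_apply, ← Complex.coe_smul, inner_smul_right]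
    rw [e, Complex.re_ofReal_mul]
    have hpos := ((ContinuousLinearMap.nonneg_iff_isPositive _).1
      (sub_nonneg.2 hp)).re_inner_nonneg_right y
    rw [sub_apply, one_apply_eq_self, smul_apply, inner_sub_right, inner_self_eq_norm_sq_to_K,
      ← Nat.cast_smul_eq_nsmul ℂ, inner_smul_right] at hpos
    simp only [map_sub, RCLike.re_to_complex, Nat.cast_add, Nat.cast_mul, Nat.cast_ofNat,
      Nat.cast_one] at hpos
    have hre : ((2 * (n : ℂ) + 1) * ⟪y, ((1 - a) * a ^ (2 * n)) y⟫_ℂ).re =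
        (2 * (n : ℝ) + 1) * (⟪y, ((1 - a) * a ^ (2 * n)) y⟫_ℂ).re := by
      simp [Complex.mul_re]
    have hn2 : ((RCLike.ofReal ‖y‖ : ℂ) ^ 2).re = ‖y‖ ^ 2 :=
      (congrArg Complex.re (Complex.ofReal_pow _ _).symm).trans (Complex.ofReal_re _)
    rw [hre, hn2] at hpos
    rw [div_mul_eq_mul_div, le_div_iff₀ (by positivity), mul_assoc]
    refine mul_le_mul_of_nonneg_left ?_ hc.pos.le
    linarith
  have hyy : ‖y‖ ^ 2 ≤ ∑ i, ‖star (Lo i) x‖ * ‖w i‖ := by
    have e : ⟪y, y⟫_ℂ = ∑ i, ⟪star (Lo i) x, w i⟫_ℂ := by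
      calc ⟪y, y⟫_ℂ = ⟪x, y0⟫_ℂ := by
            rw [hxdef]
            conv_rhs => rw [← star_pow_self has n, ContinuousLinearMap.star_eq_adjoint,
              ContinuousLinearMap.adjoint_inner_left]
        _ = ∑ i, ⟪x, Lo i (w i)⟫_ℂ := by rw [hy0, inner_sum]
        _ = _ := Finset.sum_congr rfl fun i _ => by
            rw [ContinuousLinearMap.star_eq_adjoint, ContinuousLinearMap.adjoint_inner_left]
    rw [← inner_self_eq_norm_sq (𝕜 := ℂ), e]
    refine (RCLike.re_le_norm _).trans ((norm_sum_le _ _).trans ?_)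
    exact Finset.sum_le_sum fun i _ => norm_inner_le_norm _ _
  have hsum : ∑ i, ‖star (Lo i) x‖ ^ 2 = (⟪x, A x⟫_ℂ).re := by
    rw [hAdef, _root_.sum_apply, inner_sum, Complex.re_sum]
    refine Finset.sum_congr rfl fun i _ => ?_
    rw [← inner_self_eq_norm_sq (𝕜 := ℂ), ContinuousLinearMap.star_eq_adjoint,
      ContinuousLinearMap.adjoint_inner_left]
    rfl
  have hcs := Finset.sum_mul_sq_le_sq_mul_sq Finset.univ (fun i => ‖star (Lo i) x‖)
    (fun i => ‖w i‖)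
  rw [hsum, Finset.sum_congr rfl fun i _ => hT i] at hcs
  simp only [Finset.sum_const, Finset.card_univ, Fintype.card_fin, nsmul_eq_mul] at hcs
  rcases (sq_nonneg ‖y‖).eq_or_lt with h0 | h0
  · rw [← h0]
    rcases Nat.eq_zero_or_pos r with hr | hr
    · subst hr; simp
    · have hT0 : 0 ≤ T := (hT ⟨0, hr⟩) ▸ sq_nonneg _
      exact div_nonneg (mul_nonneg hc.pos.le (mul_nonneg (Nat.cast_nonneg r) hT0)) (by positivity)
  have hT1 : 0 ≤ (r : ℝ) * T := by
    rcases Nat.eq_zero_or_pos r with hr | hr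
    · subst hr; simp
    · exact mul_nonneg (Nat.cast_nonneg r) ((hT ⟨0, hr⟩) ▸ sq_nonneg _)
  have h7 := ((pow_le_pow_left₀ h0.le hyy 2).trans hcs).trans
    (mul_le_mul_of_nonneg_right hAx hT1)
  rw [sq (‖y‖ ^ 2)] at h7
  refine le_of_mul_le_mul_right (h7.trans_eq ?_) h0
  ring

/-- A sign combination of the cells of a partition. -/
def pattern (s : Part C) (e : Fin s.n → ℝ) : C(C.Spec, ℝ) := ∑ c, e c • s.c c

theorem pattern_sq (s : Part C) {e : Fin s.n → ℝ} (he : ∀ c, e c = 1 ∨ e c = -1) (χ : C.Spec) :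
    C.pattern s e χ * C.pattern s e χ = 1 := by
  obtain ⟨c0, hc0⟩ := s.exists_one χ
  have hval : C.pattern s e χ = e c0 := by
    simp only [pattern, ContinuousMap.sum_apply, ContinuousMap.smul_apply, smul_eq_mul]
    rw [Finset.sum_eq_single c0 (fun c _ hc => ?_) fun hn => absurd (Finset.mem_univ _) hn,
      hc0, mul_one]
    have := congrArg (fun F : C(C.Spec, ℝ) => F χ) (s.orth hc)
    simp only [ContinuousMap.mul_apply, hc0, mul_one, ContinuousMap.zero_apply] at this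
    rw [this, mul_zero]
  rw [hval]
  rcases he c0 with h | h <;> rw [h] <;> norm_num

theorem form_expand {ι : Type*} (t : Finset ι) (e : ι → ℝ) (g : ι → C(C.Spec, ℝ))
    (T : C(C.Spec, ℝ) →L[ℝ] C(C.Spec, ℝ)) :
    C.intA ((∑ k ∈ t, e k • g k) * T (∑ k ∈ t, e k • g k)) =
      ∑ k ∈ t, ∑ l ∈ t, e k * e l * C.intA (g k * T (g l)) := by
  rw [map_sum, Finset.sum_mul_sum, C.intA_sum]
  refine Finset.sum_congr rfl fun k _ => ?_
  rw [C.intA_sum]
  refine Finset.sum_congr rfl fun l _ => ?_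
  rw [map_smul, smul_mul_smul_comm, C.intA_smul]

theorem exists_direction (n : ℕ) {CL C1 η : ℝ} (hC1 : 0 ≤ C1) (hη : 0 < η)
    {U : C(C.Spec, ℝ)} (hU : U * U = U)
    {Lo S : Fin r → C.L →L[ℂ] C.L}
    {Lf Lt Sf : Fin r → C(C.Spec, ℝ) →L[ℝ] C(C.Spec, ℝ)}
    (hLo : ∀ i, C.Lifts (Lo i) (Lf i)) (hLt : ∀ i, C.Lifts (star (Lo i)) (Lt i))
    (hLfn : ∀ i, ‖Lf i‖ ≤ CL) (hLtn : ∀ i, ‖Lt i‖ ≤ CL) (hLB : ∀ i, Lo i ∈ C.BB)
    (hUL : ∀ i v, U * Lf i v = Lf i v)
    (hUl : ∀ v, C.gam (C.op U) 1 (C.vec v) = C.vec (U * v))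
    (hS0 : ∀ i, 0 ≤ S i) (hSB : ∀ i, S i ∈ C.BB) (hSl : ∀ i, C.Lifts (S i) (Sf i)) :
    ∀ᶠ s in (atTop : Filter (Part C)), ∃ v : Fin r → C(C.Spec, ℝ),
      (∀ i, ‖v i‖ ≤ dirBound r n CL) ∧
      ∑ i, (C.intA (v i * Sf i (v i)) - C1 * C.intA (v i * v i)) ≤
        ∑ i, (C.trS s (S i)).re - C1 * ((r : ℝ) * ‖C.Ω‖ ^ 2 - C.intA U) + η ∧
      ‖∑ i, Lo i (C.vec (v i))‖ ^ 2 ≤
        (r * CL ^ 2 + 1) * (r * ‖C.Ω‖ ^ 2) / (2 * n + 1) := by
  classical
  set A : C.L →L[ℂ] C.L := ∑ j, Lo j * star (Lo j) with hAdef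
  have hAl : C.Lifts A (∑ j, Lf j * Lt j) := Lifts.sum _ fun j _ => (hLo j).mul (hLt j)
  have hA0 : 0 ≤ A := Finset.sum_nonneg fun j _ => mul_star_self_nonneg _
  have hAfn : ‖∑ j, Lf j * Lt j‖ ≤ r * CL ^ 2 := by
    refine (norm_sum_le (E := C(C.Spec, ℝ) →L[ℝ] C(C.Spec, ℝ)) _ _).trans ?_
    calc ∑ j, ‖Lf j * Lt j‖ ≤ ∑ _j : Fin r, CL ^ 2 := Finset.sum_le_sum fun j _ => by
          rw [sq]
          exact (C.opN_mul_le _ _).trans (mul_le_mul (hLfn j) (hLtn j) (C.opN_nonneg (Lt j))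
            ((C.opN_nonneg (Lf j)).trans (hLfn j)))
      _ = r * CL ^ 2 := by simp
  have hLm1 : (1 : ℝ) ≤ r * CL ^ 2 + 1 := by
    have : 0 ≤ (r : ℝ) * CL ^ 2 := mul_nonneg (Nat.cast_nonneg r) (sq_nonneg _)
    linarith
  obtain ⟨a, h, hc⟩ := C.exists_cutoff hA0 hLm1
    ((norm_le_of_lifts hAl (IsSelfAdjoint.of_nonneg hA0) hAfn).trans (by linarith)) n
  have hhs := hc.self_adjoint
  obtain ⟨hf, hhl, hhfn⟩ := hc.h_lift hAl (by linarith)
  have hUA : C.gam (C.op U) 1 * A = A := by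
    rw [hAdef, Finset.mul_sum]
    refine Finset.sum_congr rfl fun j _ => C.ext_real fun v => ?_
    change C.gam (C.op U) 1 (Lo j (star (Lo j) (C.vec v))) = Lo j (star (Lo j) (C.vec v))
    rw [hLt j, hLo j, hUl, hUL]
  set Pf : Fin r → Fin r → C(C.Spec, ℝ) →L[ℝ] C(C.Spec, ℝ) := fun i j =>
    (if i = j then 1 else 0) - Lt i * hf * Lf j
  have hPl : ∀ i j, C.Lifts (C.kerBlock Lo h i j) (Pf i j) := fun i j => by
    refine Lifts.sub ?_ (((hLt i).mul hhl).mul (hLo j))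
    split_ifs
    exacts [Lifts.one, Lifts.zero]
  have hPfn : ∀ i j, ‖Pf i j‖ ≤ 1 + CL ^ 2 * 2 ^ n := fun i j => by
    have hCL : 0 ≤ CL := (C.opN_nonneg (Lf j)).trans (hLfn j)
    refine (norm_sub_le (E := C(C.Spec, ℝ) →L[ℝ] C(C.Spec, ℝ)) _ _).trans (add_le_add ?_ ?_)
    · split_ifs
      · exact ContinuousLinearMap.norm_id_le
      · exact ContinuousLinearMap.opNorm_zero.trans_le zero_le_one
    · calc ‖Lt i * hf * Lf j‖ ≤ ‖Lt i‖ * ‖hf‖ * ‖Lf j‖ :=
            (C.opN_mul_le _ _).trans (mul_le_mul_of_nonneg_right (C.opN_mul_le _ _) (C.opN_nonneg _))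
        _ ≤ CL * 2 ^ n * CL := mul_le_mul (mul_le_mul (hLtn i) hhfn (C.opN_nonneg hf) hCL) (hLfn j)
            (C.opN_nonneg (Lf j)) (mul_nonneg hCL (pow_nonneg zero_le_two _))
        _ = _ := by ring
  filter_upwards [C.eventually_trace_le hC1 hη hU hLB hUl hUA hS0 hSB hc] with s hs
  let T : Fin r → C(C.Spec, ℝ) →L[ℝ] C(C.Spec, ℝ) := fun j => Sf j - C1 • 1
  let g : Fin r → Fin r × Fin s.n → C(C.Spec, ℝ) := fun j k => Pf j k.1 (s.c k.2)
  obtain ⟨e, he, hle⟩ := exists_signs (Finset.univ : Finset (Fin r × Fin s.n))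
    fun k l => ∑ j, C.intA (g j k * T j (g j l))
  let w : Fin r → C(C.Spec, ℝ) := fun i => C.pattern s fun c => e (i, c)
  have hww : ∀ i χ, w i χ * w i χ = 1 := fun i => C.pattern_sq s fun c => he (i, c)
  let v : Fin r → C(C.Spec, ℝ) := fun j => ∑ i, Pf j i (w i)
  refine ⟨v, fun j => ?_, ?_, ?_⟩
  · refine (norm_sum_le _ _).trans ?_
    calc ∑ i, ‖Pf j i (w i)‖ ≤ ∑ _i : Fin r, (1 + CL ^ 2 * 2 ^ n) :=
          Finset.sum_le_sum fun i _ => ((Pf j i).le_of_opNorm_le (hPfn j i) _).trans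
            (mul_le_of_le_one_right ((C.opN_nonneg _).trans (hPfn j i))
              ((ContinuousMap.norm_le _ zero_le_one).2 fun χ => by
                rw [Real.norm_eq_abs, ← sq_le_one_iff_abs_le_one, sq, hww]))
      _ = _ := by simp [dirBound]; ring
  · have hv : ∀ j, v j = ∑ k : Fin r × Fin s.n, e k • g j k := fun j => by
      simp only [v, w, g, pattern, map_sum, map_smul, Fintype.sum_prod_type]
    have hTv : ∀ j, C.intA (v j * Sf j (v j)) - C1 * C.intA (v j * v j) =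
        C.intA (v j * T j (v j)) := fun j => by
      rw [show T j (v j) = Sf j (v j) - C1 • v j from rfl, mul_sub, mul_smul_comm,
        sub_eq_add_neg (v j * Sf j (v j)), ← neg_smul, C.intA_add, C.intA_smul]
      ring
    rw [Finset.sum_congr rfl fun j _ => (hTv j).trans (by rw [hv j, C.form_expand]),
      Finset.sum_comm]
    have hswap : ∀ k : Fin r × Fin s.n,
        ∑ j, ∑ l : Fin r × Fin s.n, e k * e l * C.intA (g j k * T j (g j l)) =
        ∑ l : Fin r × Fin s.n, e k * e l * ∑ j, C.intA (g j k * T j (g j l)) := by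
      intro k
      rw [Finset.sum_comm]
      exact Finset.sum_congr rfl fun l _ => by rw [Finset.mul_sum]
    rw [Finset.sum_congr rfl fun k _ => hswap k]
    refine hle.trans (le_trans (le_of_eq ?_) hs)
    rw [Fintype.sum_prod_type, Finset.sum_congr rfl fun i _ => Finset.sum_comm, Finset.sum_comm]
    refine Finset.sum_congr rfl fun j _ => Finset.sum_congr rfl fun i _ => ?_
    have hs' : star (C.kerBlock Lo h j i) = C.kerBlock Lo h i j := C.star_kerBlock hhs j i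
    have hST : C.Lifts (S j - C1 • 1) (T j) := (hSl j).sub (Lifts.one.smul C1)
    have e2 : (C.trS s (C.kerBlock Lo h i j * (S j - C1 • 1) * C.kerBlock Lo h j i)).re =
        ∑ c, C.intA (g j (i, c) * T j (g j (i, c))) := by
      rw [← hs', C.trS_sandwich, Complex.re_sum]
      refine Finset.sum_congr rfl fun c _ => ?_
      rw [hPl j i, hST.inner, Complex.ofReal_re]
    rw [← e2, mul_sub, sub_mul, mul_smul_comm, smul_mul_assoc, mul_one, C.trS_sub,
      ← Complex.coe_smul, C.trS_smul, Complex.sub_re, Complex.re_ofReal_mul]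
  · have e1 : ∀ j, C.vec (v j) = ∑ i, C.kerBlock Lo h j i (C.vec (w i)) := fun j => by
      rw [C.vec_sum]
      exact Finset.sum_congr rfl fun i _ => (hPl j i _).symm
    rw [Finset.sum_congr rfl fun j _ => congrArg (Lo j) (e1 j)]
    refine C.sq_norm_pushed_le hc (fun i => C.vec (w i)) fun i => ?_
    rw [C.sq_norm_vec, show w i * w i = algebraMap ℝ _ 1 from ContinuousMap.ext fun χ => by
      simpa using hww i χ, C.intA_const, one_mul]

end Ctx

end Vale.Agent.P078.Finite
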