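import Vale.Agent.P078.Finite.Bounds
import Vale.Agent.P078.Finite.Forms

/-!
The first variation of the surplus as an operator, with uniform bounds.
-/

noncomputable section

namespace Vale.Agent.P078.Finite

universe u

variable {K : Type u} [NormedAddCommGroup K] [InnerProductSpace ℂ K] [CompleteSpace K]

namespace St

variable {C : Ctx K} {P : Par} {s : St C P} {y0 : K →L[ℂ] K}

theorem Inv.op_R_mul (h : s.Inv y0) (i : Fin P.r) (x : C(C.Spec, ℝ)) :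
    C.op (s.R i * x) = s.rt i * C.op x * s.rt i := by
  rw [rt, ← map_mul, ← map_mul, mul_right_comm, h.sq_R]

theorem Inv.abs_e1_le (h : s.Inv y0) {gam : ℝ} (hg : 0 < gam) (hgz : gam ≤ P.z) {i : Fin P.r}
    (hB : ‖s.B i‖ ≤ P.z - gam) {x : C(C.Spec, ℝ)} {b : ℝ} (hx : ‖x‖ ≤ b) (χ : C.Spec) :
    |s.e1 i (s.R i * x) χ| ≤ b * (P.z / gam) * s.e i χ := by
  have G := h.gap_of hg hgz hB
  have key : ∀ σ : ℝ, |σ| = 1 → |C.Er (s.Z σ i * C.op (s.R i * x) * s.Z σ i) χ| ≤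
      b * (P.z / gam) * C.Er (s.W σ i) χ := by
    intro σ hσ
    obtain ⟨h1, h2⟩ := G.Zf_conj_le hσ (C.op_sa x)
    have e : s.Z σ i * C.op (s.R i * x) * s.Z σ i =
        s.Z σ i * s.rt i * C.op x * s.rt i * s.Z σ i := by
      rw [h.op_R_mul]; simp only [mul_assoc]
    refine (C.abs_Er_le (k := ‖C.op x‖ * (P.z / gam)) (mul_mem (mul_mem (h.Z_mem σ i) (C.op_mem_M _)) (h.Z_mem σ i))
      (h.W_mem σ i) ?_ ?_ χ).trans ?_
    · rw [e]; exact h1
    · rw [e]; exact h2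
    · rw [C.norm_op]
      exact mul_le_mul_of_nonneg_right (mul_le_mul_of_nonneg_right hx
        (div_nonneg P.z_pos.le hg.le)) (h.Er_W_nonneg hσ i χ)
  rw [e1, ContinuousMap.add_apply, e, ContinuousMap.add_apply, mul_add]
  exact (abs_add_le _ _).trans (add_le_add (key 1 abs_one) (key (-1) (by norm_num)))

theorem Inv.abs_l1_le (h : s.Inv y0) (i : Fin P.r) {x : C(C.Spec, ℝ)} {b : ℝ} (hx : ‖x‖ ≤ b)
    (χ : C.Spec) : |s.l1 i (s.R i * x) χ| ≤ b * s.l i χ := by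
  have hb : 0 ≤ b := (norm_nonneg x).trans hx
  have hxb : ∀ χ', |s.R i χ' * x χ'| ≤ b * s.R i χ' := fun χ' => by
    rw [abs_mul, abs_of_nonneg (h.R_nonneg i χ'), mul_comm b]
    exact mul_le_mul_of_nonneg_left ((x.norm_coe_le_norm χ').trans hx) (h.R_nonneg i χ')
  have hR := sandwich_mem (h.y_mem i) (s.R i)
  have conj : ∀ f g : C(C.Spec, ℝ), (∀ χ', f χ' ≤ g χ') →
      s.y i * C.op f * s.y i ≤ s.y i * C.op g * s.y i := fun f g hfg => by
    have := star_left_conjugate_le_conjugate (C.op_mono hfg) (s.y i)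
    rwa [(h.y_sa i).star_eq] at this
  have e : C.Er (s.y i * C.op (s.R i * x) * s.y i) χ ≤ b * C.Er (s.y i * C.op (s.R i) * s.y i) χ ∧
      -(b * C.Er (s.y i * C.op (s.R i) * s.y i) χ) ≤ C.Er (s.y i * C.op (s.R i * x) * s.y i) χ := by
    have h1 := conj (s.R i * x) (b • s.R i) fun χ' => (le_abs_self _).trans (hxb χ')
    have h2 := conj ((-b) • s.R i) (s.R i * x) fun χ' => by
      change -b * s.R i χ' ≤ s.R i χ' * x χ'
      linarith [neg_abs_le (s.R i χ' * x χ'), hxb χ']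
    rw [map_smul, mul_smul_comm, smul_mul_assoc] at h1 h2
    have h3 := C.Er_mono (sandwich_mem (h.y_mem i) _) (real_smul_mem hR b) h1 χ
    have h4 := C.Er_mono (real_smul_mem hR (-b)) (sandwich_mem (h.y_mem i) _) h2 χ
    rw [C.Er_smul b hR, ContinuousMap.smul_apply, smul_eq_mul] at h3
    rw [C.Er_smul (-b) hR, ContinuousMap.smul_apply, smul_eq_mul, neg_mul] at h4
    exact ⟨h3, h4⟩
  rw [l1, l, ContinuousMap.smul_apply, ContinuousMap.smul_apply, smul_eq_mul, smul_eq_mul,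
    abs_mul, abs_of_nonneg (inv_nonneg.2 (sq_nonneg P.z)), mul_left_comm b]
  exact mul_le_mul_of_nonneg_left (abs_le.2 ⟨e.2, e.1⟩) (inv_nonneg.2 (sq_nonneg P.z))

/-- The uniform sup-norm bound of the first-variation operators. -/
def opBound (P : Par) (gam : ℝ) : ℝ :=
  (P.r / √P.zeta) * √((2 / P.η) ^ 3) * ((1 / 2 + P.r / 2) + (P.r / 2) * (P.z / gam + 1))

theorem Inv.abs_w32_le (h : s.Inv y0) (χ : C.Spec) :
    0 ≤ s.w32 χ ∧ s.w32 χ ≤ √((2 / P.η) ^ 3) := by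
  refine ⟨Real.sqrt_nonneg _, Real.sqrt_le_sqrt ?_⟩
  change s.w χ * s.w χ * s.w χ ≤ _
  rw [show (2 / P.η) ^ 3 = 2 / P.η * (2 / P.η) * (2 / P.η) by ring]
  have hw := h.w_le χ
  have hw0 := h.w_nonneg χ
  exact mul_le_mul (mul_le_mul hw hw hw0 (hw0.trans hw)) hw hw0
    (mul_nonneg (hw0.trans hw) (hw0.trans hw))

theorem Inv.w32_eq_zero (h : s.Inv y0) {χ : C.Spec} (hU : s.U χ ≠ 1) : s.w32 χ = 0 := by
  have h0 := (h.U_values χ).resolve_right hU
  change √(s.w χ * s.w χ * s.w χ) = 0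
  rw [w_apply, h0, zero_mul, zero_mul, zero_mul, Real.sqrt_zero]

theorem mulCoef_apply (i : Fin P.r) (χ : C.Spec) :
    s.mulCoef i χ = 1 - 1 / 4 * (1 - 2 * s.R i χ) - 1000000 * (s.e i χ + s.l i χ) := rfl

theorem Inv.R_mulCoef_le (h : s.Inv y0) {χ : C.Spec} (hU : s.U χ = 1) (i : Fin P.r) :
    s.R i χ * |s.mulCoef i χ| ≤ 1 / 2 + P.r / 2 := by
  have h1 := h.R_nonneg i χ
  have h2 := h.R_le i χ
  have h3 := h.R_el_le hU i
  have h4 := mul_nonneg h1 (h.el_nonneg i χ)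
  rw [← abs_of_nonneg h1, ← abs_mul, mulCoef_apply]
  rw [abs_le]
  constructor <;> nlinarith

/-- One colour's weighted load, for a move of relative size `b`. -/
theorem Inv.load1_le (h : s.Inv y0) {gam : ℝ} (hg : 0 < gam) (hgz : gam ≤ P.z) {i : Fin P.r}
    (hB : ‖s.B i‖ ≤ P.z - gam) {x : C(C.Spec, ℝ)} {b : ℝ} (hx : ‖x‖ ≤ b) {χ : C.Spec}
    (hU : s.U χ = 1) :
    1000000 * (s.R i χ * |s.e1 i (s.R i * x) χ + s.l1 i (s.R i * x) χ|) ≤
      b * ((P.r / 2) * (P.z / gam + 1)) := by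
  have hb : 0 ≤ b := (norm_nonneg x).trans hx
  have hq : 0 ≤ P.z / gam := div_nonneg P.z_pos.le hg.le
  have h1 : |s.e1 i (s.R i * x) χ + s.l1 i (s.R i * x) χ| ≤
      b * ((P.z / gam + 1) * (s.e i χ + s.l i χ)) := by
    refine ((abs_add_le _ _).trans
      (add_le_add (h.abs_e1_le hg hgz hB hx χ) (h.abs_l1_le i hx χ))).trans ?_
    nlinarith [mul_nonneg hb (h.e_nonneg i χ), mul_nonneg (mul_nonneg hb hq) (h.l_nonneg i χ)]
  calc 1000000 * (s.R i χ * |s.e1 i (s.R i * x) χ + s.l1 i (s.R i * x) χ|)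
      ≤ 1000000 * (s.R i χ * (b * ((P.z / gam + 1) * (s.e i χ + s.l i χ)))) :=
        mul_le_mul_of_nonneg_left (mul_le_mul_of_nonneg_left h1 (h.R_nonneg i χ)) (by norm_num)
    _ = b * (P.z / gam + 1) * (1000000 * (s.R i χ * (s.e i χ + s.l i χ))) := by ring
    _ ≤ b * (P.z / gam + 1) * (P.r / 2) :=
        mul_le_mul_of_nonneg_left (h.R_el_le hU i) (mul_nonneg hb (add_nonneg hq zero_le_one))
    _ = _ := by ring

theorem psi1_apply (i : Fin P.r) (X : C(C.Spec, ℝ)) (χ : C.Spec) :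
    s.psi1 i X χ = X χ * (1 - 1 / 4 * (1 - 2 * s.R i χ)) -
      1000000 * (X χ * (s.e i χ + s.l i χ) + s.R i χ * (s.e1 i X χ + s.l1 i X χ)) := rfl

theorem Inv.exists_Lop (h : s.Inv y0) {gam : ℝ} (hg : 0 < gam) (hgz : gam ≤ P.z) {i : Fin P.r}
    (hB : ‖s.B i‖ ≤ P.z - gam) :
    s.Lop i ∈ C.BB ∧ ∃ Lf Lt : C(C.Spec, ℝ) →L[ℝ] C(C.Spec, ℝ),
      C.Lifts (s.Lop i) Lf ∧ C.Lifts (star (s.Lop i)) Lt ∧
      ‖Lf‖ ≤ opBound P gam ∧ ‖Lt‖ ≤ opBound P gam ∧
      (∀ v, s.U * Lf v = Lf v) ∧ ∀ v, Lf v = s.w32 * s.psi1 i (s.D i * v) := by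
  let Z1 : C.M := ⟨s.Z 1 i, h.Z_mem 1 i⟩
  let Z2 : C.M := ⟨s.Z (-1) i, h.Z_mem (-1) i⟩
  let Y : C.M := ⟨s.y i, h.y_mem i⟩
  have s1 : IsSelfAdjoint (Z1 : K →L[ℂ] K) := h.Z_sa 1 i
  have s2 : IsSelfAdjoint (Z2 : K →L[ℂ] K) := h.Z_sa (-1) i
  have s3 : IsSelfAdjoint (Y : K →L[ℂ] K) := h.y_sa i
  set a0 := s.w32 * s.mulCoef i * s.D i
  set b0 := s.w32 * s.R i
  set D := s.D i
  let mk : C(C.Spec, ℝ) → C(C.Spec, ℝ) → C(C.Spec, ℝ) →L[ℝ] C(C.Spec, ℝ) := fun f g =>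
    C.mulMap a0 - (1000000 : ℝ) • (C.sandMap f g Z1 s1 + C.sandMap f g Z2 s2 +
      (P.z ^ 2)⁻¹ • C.sandMap f g Y s3)
  have hL : C.Lifts (s.Lop i) (mk b0 D) :=
    (C.lifts_mulMap a0).sub ((((C.lifts_sandMap b0 D Z1 s1).add (C.lifts_sandMap b0 D Z2 s2)).add
      ((C.lifts_sandMap b0 D Y s3).smul _)).smul _)
  have hLs : C.Lifts (star (s.Lop i)) (mk D b0) := by
    have e : star (s.Lop i) = C.gam (C.op a0) 1 - (1000000 : ℝ) •
        (C.gam (C.op D * (Z1 : K →L[ℂ] K) * C.op b0) Z1 + C.gam (C.op D * (Z2 : K →L[ℂ] K) * C.op b0) Z2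
          + (P.z ^ 2)⁻¹ • C.gam (C.op D * (Y : K →L[ℂ] K) * C.op b0) Y) := by
      rw [Lop, star_sub, star_smul, star_add, star_add, star_smul, star_trivial (1000000 : ℝ),
        star_trivial ((P.z ^ 2)⁻¹),
        C.star_gam_op, C.star_gam_sand _ _ (h.Z_mem 1 i) s1, C.star_gam_sand _ _ (h.Z_mem (-1) i) s2,
        C.star_gam_sand _ _ (h.y_mem i) s3]
    rw [e]
    exact (C.lifts_mulMap a0).sub ((((C.lifts_sandMap D b0 Z1 s1).add
      (C.lifts_sandMap D b0 Z2 s2)).add ((C.lifts_sandMap D b0 Y s3).smul _)).smul _)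
  have hmk : ∀ f g v χ, mk f g v χ = a0 χ * v χ -
      1000000 * (f χ * (s.e1 i (g * v) χ + s.l1 i (g * v) χ)) := by
    intro f g v χ
    simp only [mk, e1, l1, sub_apply, smul_apply, add_apply, Ctx.mulMap_apply, Ctx.sandMap_apply,
      ContinuousMap.sub_apply, ContinuousMap.smul_apply, ContinuousMap.add_apply,
      ContinuousMap.mul_apply, smul_eq_mul, Z1, Z2, Y]
    ring
  have hdmax : ∀ χ, |s.dir i χ| ≤ P.r / √P.zeta := h.abs_dir_le i
  have hd0 : (0 : ℝ) ≤ P.r / √P.zeta := div_nonneg P.r_pos.le (Real.sqrt_nonneg _)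
  set W := √((2 / P.η) ^ 3)
  have hW0 : 0 ≤ W := Real.sqrt_nonneg _
  have hk1 : (0 : ℝ) ≤ 1 / 2 + P.r / 2 := by linarith [P.r_pos]
  have hk2 : (0 : ℝ) ≤ (P.r / 2) * (P.z / gam + 1) :=
    mul_nonneg (by linarith [P.r_pos]) (add_nonneg (div_nonneg P.z_pos.le hg.le) zero_le_one)
  have hB0 : 0 ≤ opBound P gam := mul_nonneg (mul_nonneg hd0 hW0) (add_nonneg hk1 hk2)
  have hA0 : ∀ (v : C(C.Spec, ℝ)) (χ : C.Spec), s.U χ = 1 →
      |a0 χ * v χ| ≤ (P.r / √P.zeta) * W * (1 / 2 + P.r / 2) * ‖v‖ := by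
    intro v χ hU
    have h1 := h.R_mulCoef_le hU i
    have h2 := h.abs_w32_le χ
    calc |a0 χ * v χ| = |s.dir i χ| * s.w32 χ * (s.R i χ * |s.mulCoef i χ|) * |v χ| := by
          simp only [a0, ContinuousMap.mul_apply, D_apply, abs_mul, abs_of_nonneg h2.1,
            abs_of_nonneg (h.R_nonneg i χ)]
          ring
      _ ≤ _ := mul_le_mul (mul_le_mul (mul_le_mul (hdmax χ) h2.2 h2.1 hd0) h1
          (mul_nonneg (h.R_nonneg i χ) (abs_nonneg _)) (mul_nonneg hd0 hW0))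
          (v.norm_coe_le_norm χ) (abs_nonneg _) (mul_nonneg (mul_nonneg hd0 hW0) hk1)
  have hnorm : ∀ (v : C(C.Spec, ℝ)) (f g x : C(C.Spec, ℝ)) (b : ℝ), ‖x‖ ≤ b → g * v = s.R i * x →
      ∀ χ, s.U χ = 1 → ∀ c, 0 ≤ c → |f χ| ≤ c * s.R i χ →
      c * b ≤ (P.r / √P.zeta) * W * ‖v‖ →
      |mk f g v χ| ≤ opBound P gam * ‖v‖ := by
    intro v f g x b hx hgv χ hU c hc hf hcb
    rw [hmk, hgv]
    have h1 := hA0 v χ hU
    have h2 := h.load1_le hg hgz hB hx hU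
    have h3 : |1000000 * (f χ * (s.e1 i (s.R i * x) χ + s.l1 i (s.R i * x) χ))| ≤
        c * (b * ((P.r / 2) * (P.z / gam + 1))) := by
      rw [abs_mul, abs_mul, abs_of_pos (by norm_num : (0 : ℝ) < 1000000)]
      calc 1000000 * (|f χ| * |s.e1 i (s.R i * x) χ + s.l1 i (s.R i * x) χ|)
          ≤ 1000000 * (c * s.R i χ * |s.e1 i (s.R i * x) χ + s.l1 i (s.R i * x) χ|) :=
            mul_le_mul_of_nonneg_left (mul_le_mul_of_nonneg_right hf (abs_nonneg _)) (by norm_num)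
        _ = c * (1000000 * (s.R i χ * |s.e1 i (s.R i * x) χ + s.l1 i (s.R i * x) χ|)) := by ring
        _ ≤ _ := mul_le_mul_of_nonneg_left h2 hc
    refine (abs_sub _ _).trans ((add_le_add h1 h3).trans ?_)
    rw [← mul_assoc c b]
    refine (add_le_add le_rfl (mul_le_mul_of_nonneg_right hcb hk2)).trans_eq ?_
    simp only [opBound, W]
    ring
  refine ⟨?_, mk b0 D, mk D b0, hL, hLs, ?_, ?_, ?_, ?_⟩
  · have hm : ∀ f g {Z : K →L[ℂ] K}, Z ∈ C.M → C.gam (C.op f * Z * C.op g) Z ∈ C.BB :=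
      fun f g Z hZ => C.gam_mem_BB (mul_mem (mul_mem (C.op_mem_M f) hZ) (C.op_mem_M g)) hZ
    rw [Lop, ← Complex.coe_smul, ← Complex.coe_smul]
    exact sub_mem (C.gam_one_mem_BB (C.op_mem _)) (C.BB.smul_mem (add_mem (add_mem
      (hm _ _ (h.Z_mem 1 i)) (hm _ _ (h.Z_mem (-1) i))) (C.BB.smul_mem (hm _ _ (h.y_mem i)) _)) _)
  · refine ContinuousLinearMap.opNorm_le_bound _ hB0 fun v =>
      (ContinuousMap.norm_le _ (mul_nonneg hB0 (norm_nonneg v))).2 fun χ => ?_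
    rw [Real.norm_eq_abs]
    by_cases hU : s.U χ = 1
    · refine hnorm v b0 D (s.dir i * v) ((P.r / √P.zeta) * ‖v‖) ?_ (mul_assoc _ _ _) χ hU W hW0 ?_
        (le_of_eq (by ring))
      · refine (ContinuousMap.norm_le _ (mul_nonneg hd0 (norm_nonneg v))).2 fun χ' => ?_
        rw [Real.norm_eq_abs, ContinuousMap.mul_apply, abs_mul]
        exact mul_le_mul (hdmax χ') (v.norm_coe_le_norm χ') (abs_nonneg _) hd0
      · rw [ContinuousMap.mul_apply, abs_mul, abs_of_nonneg (h.abs_w32_le χ).1,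
          abs_of_nonneg (h.R_nonneg i χ)]
        exact mul_le_mul_of_nonneg_right (h.abs_w32_le χ).2 (h.R_nonneg i χ)
    · rw [hmk]
      simp only [a0, b0, ContinuousMap.mul_apply, h.w32_eq_zero hU, zero_mul, mul_zero, sub_zero,
        abs_zero]
      exact mul_nonneg hB0 (norm_nonneg v)
  · refine ContinuousLinearMap.opNorm_le_bound _ hB0 fun v =>
      (ContinuousMap.norm_le _ (mul_nonneg hB0 (norm_nonneg v))).2 fun χ => ?_
    rw [Real.norm_eq_abs]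
    by_cases hU : s.U χ = 1
    · refine hnorm v D b0 (s.w32 * v) (W * ‖v‖) ?_
        (by rw [← mul_assoc, mul_comm (s.R i) s.w32]) χ hU (P.r / √P.zeta) hd0 ?_
        (le_of_eq (by ring))
      · refine (ContinuousMap.norm_le _ (mul_nonneg hW0 (norm_nonneg v))).2 fun χ' => ?_
        rw [Real.norm_eq_abs, ContinuousMap.mul_apply, abs_mul,
          abs_of_nonneg (h.abs_w32_le χ').1]
        exact mul_le_mul (h.abs_w32_le χ').2 (v.norm_coe_le_norm χ') (abs_nonneg _) hW0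
      · rw [D_apply, abs_mul, abs_of_nonneg (h.R_nonneg i χ), mul_comm]
        exact mul_le_mul_of_nonneg_right (hdmax χ) (h.R_nonneg i χ)
    · have hD : D χ = 0 := by
        rw [D_apply, dir_apply]
        have := h.free_U i χ
        rw [(h.U_values χ).resolve_right hU, zero_mul] at this
        rw [← this, zero_mul, mul_zero]
      rw [hmk, hD]
      simp only [a0, ContinuousMap.mul_apply, h.w32_eq_zero hU, zero_mul, mul_zero, sub_zero,
        abs_zero]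
      exact mul_nonneg hB0 (norm_nonneg v)
  · intro v
    ext χ
    rw [ContinuousMap.mul_apply, hmk]
    rcases h.U_values χ with hU | hU
    · have hU1 : s.U χ ≠ 1 := by rw [hU]; norm_num
      simp only [a0, b0, ContinuousMap.mul_apply, h.w32_eq_zero hU1, zero_mul, mul_zero, sub_zero]
    · rw [hU, one_mul]
  · intro v
    ext χ
    rw [hmk]
    simp only [ContinuousMap.mul_apply]
    rw [psi1_apply]
    simp only [a0, b0, D, ContinuousMap.mul_apply, mulCoef_apply]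
    ring

end St

end Vale.Agent.P078.Finite
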