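import Vale.Agent.P078.Finite.StateDefs

/-!
The monotone moves of the iteration (cut, thin, finish), the initial state and the paving read off
from a state with little mass left.
-/

noncomputable section

open scoped InnerProductSpace

namespace Vale.Agent.P078.Finite

universe u

variable {K : Type u} [NormedAddCommGroup K] [InnerProductSpace ℂ K] [CompleteSpace K]

theorem op_le_norm_smul {a : K →L[ℂ] K} (ha : IsSelfAdjoint a) :
    a ≤ ‖a‖ • (1 : K →L[ℂ] K) ∧ -(‖a‖ • (1 : K →L[ℂ] K)) ≤ a := by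
  rw [← Algebra.algebraMap_eq_smul_one]
  exact ⟨ha.le_algebraMap_norm_self, ha.neg_algebraMap_norm_le_self⟩

theorem op_norm_le_of_between {a : K →L[ℂ] K} (ha : IsSelfAdjoint a) {c : ℝ} (hc : 0 ≤ c)
    (h1 : a ≤ c • (1 : K →L[ℂ] K)) (h2 : -(c • (1 : K →L[ℂ] K)) ≤ a) : ‖a‖ ≤ c := by
  rw [← Algebra.algebraMap_eq_smul_one] at h1 h2
  rw [← map_neg] at h2
  rw [le_algebraMap_iff_spectrum_le ha] at h1
  rw [algebraMap_le_iff_le_spectrum ha] at h2
  rw [← cfc_id' ℝ a ha]
  exact norm_cfc_le hc fun x hx => abs_le.2 ⟨h2 x hx, h1 x hx⟩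

theorem conj_le {h a b : K →L[ℂ] K} (hh : IsSelfAdjoint h) (hab : a ≤ b) :
    h * a * h ≤ h * b * h := by
  simpa [hh.star_eq] using star_left_conjugate_le_conjugate hab h

theorem conj_nonneg_op {h a : K →L[ℂ] K} (hh : IsSelfAdjoint h) (ha : 0 ≤ a) :
    0 ≤ h * a * h := by
  simpa using conj_le hh ha

theorem conj_sa {h a : K →L[ℂ] K} (hh : IsSelfAdjoint h) (ha : IsSelfAdjoint a) :
    IsSelfAdjoint (h * a * h) := isSelfAdjoint_ryr hh ha

namespace Ctx

variable (C : Ctx K)

/-- The range projection of a selfadjoint element of `M` belongs to `M`. -/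
theorem exists_range_proj_M {a : K →L[ℂ] K} (ha : a ∈ C.M) (hs : IsSelfAdjoint a) :
    ∃ P ∈ C.M, IsStarProjection P ∧ P * a = a ∧
      (∀ T : K →L[ℂ] K, T * a = 0 → T * P = 0) ∧
      ∀ T : K →L[ℂ] K, IsSelfAdjoint T → T * a = a * T → P * T = T * P := by
  set W : Submodule ℂ K :=
    (LinearMap.range ((a : K →L[ℂ] K) : K →ₗ[ℂ] K)).topologicalClosure with hW
  have : CompleteSpace W := (Submodule.isClosed_topologicalClosure _).completeSpace_coe
  set P := W.starProjection with hP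
  have hinv : ∀ T : K →L[ℂ] K, T * a = a * T → ∀ v ∈ W, T v ∈ W := by
    intro T hT v hv
    refine map_mem_closure T.continuous hv ?_
    rintro w ⟨u, rfl⟩
    exact ⟨T u, (congrArg (fun S : K →L[ℂ] K => S u) hT).symm⟩
  have hcomm : ∀ T : K →L[ℂ] K, T * a = a * T →
      star T * a = a * star T → P * T = T * P := by
    intro T h1 h2
    ext v
    change W.starProjection (T v) = T (W.starProjection v)
    refine Submodule.eq_starProjection_of_mem_orthogonal (hinv T h1 _
      (W.starProjection_apply_mem v)) ?_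
    rw [Submodule.mem_orthogonal']
    intro w hw
    rw [← map_sub, ← ContinuousLinearMap.adjoint_inner_right, ← ContinuousLinearMap.star_eq_adjoint]
    exact Submodule.starProjection_inner_eq_zero v _ (hinv _ h2 w hw)
  have hPM : P ∈ C.M := by
    refine C.mem_M_of_comm fun s hs' => hcomm s (hs' _ ha).symm ?_
    have h := congrArg star (hs' _ ha)
    rwa [star_mul, star_mul, hs.star_eq] at h
  refine ⟨P, hPM, isStarProjection_starProjection, ?_, fun T hT => ?_,
    fun T hTs hT => hcomm T hT (by rw [hTs.star_eq]; exact hT)⟩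
  · ext v
    exact Submodule.starProjection_eq_self_iff.2 (Submodule.le_topologicalClosure _ ⟨v, rfl⟩)
  · ext v
    have hker : W ≤ LinearMap.ker ((T : K →L[ℂ] K) : K →ₗ[ℂ] K) := by
      refine Submodule.topologicalClosure_minimal _ ?_ T.isClosed_ker
      rintro w ⟨u, rfl⟩
      exact congrArg (fun S : K →L[ℂ] K => S u) hT
    exact hker (W.starProjection_apply_mem v)

/-- Compressing a positive element by a projection does not increase its trace. -/
theorem tr_compress_le {x p : K →L[ℂ] K} (hx : x ∈ C.M) (hp : p ∈ C.M) (hpp : IsStarProjection p)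
    (h0 : 0 ≤ x) : (C.tr (p * x * p)).re ≤ (C.tr x).re := by
  have hq : IsStarProjection (1 - p) := hpp.one_sub
  have h1 := C.tr_nonneg (conj_nonneg_op hq.isSelfAdjoint h0)
  have e : ∀ q ∈ C.M, IsStarProjection q → C.tr (q * x * q) = C.tr (q * x) := by
    intro q hqM hqp
    rw [C.tr_comm (mul_mem hqM hx) hqM, ← mul_assoc, hqp.isIdempotentElem.eq]
  rw [e _ (sub_mem (one_mem _) hp) hq, sub_mul, one_mul, C.tr_sub, Complex.sub_re] at h1
  rw [e _ hp hpp]
  linarith

theorem Er_const (c : ℝ) : C.Er (c • (1 : K →L[ℂ] K)) = c • 1 := by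
  rw [C.Er_smul c (one_mem _), ← map_one C.op, C.Er_op]

theorem Er_le_const {x : K →L[ℂ] K} (hx : x ∈ C.M) {c : ℝ} (h : x ≤ c • (1 : K →L[ℂ] K))
    (χ : C.Spec) : C.Er x χ ≤ c := by
  have hm : c • (1 : K →L[ℂ] K) ∈ C.M := real_smul_mem (one_mem _) _
  have := C.Er_mono hx hm h χ
  rwa [C.Er_const, ContinuousMap.smul_apply, ContinuousMap.one_apply, smul_eq_mul, mul_one] at this

end Ctx

theorem sqC_mul_idem {X : Type*} [TopologicalSpace X] (f c : C(X, ℝ))
    (hc : ∀ x, c x = 0 ∨ c x = 1) : sqC (f * c) = sqC f * c := by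
  ext x
  simp only [sqC_apply, ContinuousMap.mul_apply]
  rcases hc x with h | h <;> simp [h]

theorem idem_of_values {X : Type*} [TopologicalSpace X] {c : C(X, ℝ)}
    (hc : ∀ x, c x = 0 ∨ c x = 1) : c * c = c := by
  ext x
  rw [ContinuousMap.mul_apply]
  rcases hc x with h | h <;> simp [h]

namespace St

variable {C : Ctx K} {P : Par} {s t : St C P} {y0 : K →L[ℂ] K}

private theorem rt_sa (s : St C P) (i : Fin P.r) : IsSelfAdjoint (s.rt i) := C.op_sa _

private theorem rt_mem (s : St C P) (i : Fin P.r) : s.rt i ∈ C.M := C.op_mem_M _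

theorem rt_mul_rt (hR : ∀ i χ, 0 ≤ s.R i χ) (i : Fin P.r) :
    s.rt i * s.rt i = C.op (s.R i) := by
  rw [rt, ← map_mul]
  congr 1
  ext χ
  exact Real.mul_self_sqrt (hR i χ)

theorem W_mem (hy : ∀ i, s.y i ∈ C.M) (σ : ℝ) (i : Fin P.r) : s.W σ i ∈ C.M :=
  Zo_mem C.isClosed_M (s.rt_mem i) (hy i) _ _

theorem W_sa (hy : ∀ i, IsSelfAdjoint (s.y i)) (σ : ℝ) (i : Fin P.r) : IsSelfAdjoint (s.W σ i) :=
  Zo_sa (s.rt_sa i) (hy i)

namespace Inv

variable (h : s.Inv y0)
include h

theorem gapB (i : Fin P.r) : Gap P.z (P.z - ‖s.B i‖) (s.rt i) (s.y i) :=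
  ⟨s.rt_sa i, h.y_sa i, sub_pos.2 (h.gap i), by linarith [norm_nonneg (s.B i)], by
    rw [sub_sub_cancel]; exact le_rfl⟩

theorem W_nonneg (i : Fin P.r) {σ : ℝ} (hσ : |σ| = 1) : 0 ≤ s.W σ i :=
  (h.gapB i).Zo_nonneg hσ

private theorem e_nonneg (i : Fin P.r) (χ : C.Spec) : 0 ≤ s.e i χ :=
  add_nonneg (C.Er_nonneg (W_mem h.y_mem 1 i) (h.W_nonneg i abs_one) χ)
    (C.Er_nonneg (W_mem h.y_mem (-1) i) (h.W_nonneg i (by norm_num)) χ)

private theorem l_nonneg (i : Fin P.r) (χ : C.Spec) : 0 ≤ s.l i χ := by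
  refine mul_nonneg (inv_nonneg.2 (sq_nonneg _)) (C.Er_nonneg ?_ ?_ χ)
  · exact mul_mem (mul_mem (h.y_mem i) (C.op_mem_M _)) (h.y_mem i)
  · exact conj_nonneg_op (h.y_sa i) (C.op_nonneg (h.R_nonneg i))

private theorem U_values (χ : C.Spec) : s.U χ = 0 ∨ s.U χ = 1 := idem_values h.U_idem χ

theorem fin_values (i : Fin P.r) (χ : C.Spec) : s.fin i χ = 0 ∨ s.fin i χ = 1 :=
  idem_values (h.fin_idem i) χ

theorem fin_nonneg (i : Fin P.r) (χ : C.Spec) : 0 ≤ s.fin i χ := by
  rcases h.fin_values i χ with e | e <;> simp [e]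

theorem U_nonneg (χ : C.Spec) : 0 ≤ s.U χ := by
  rcases h.U_values χ with e | e <;> simp [e]

private theorem w_nonneg (χ : C.Spec) : 0 ≤ s.w χ := by
  rw [w, ContinuousMap.mul_apply, invC_apply]
  exact mul_nonneg (h.U_nonneg χ) (inv_nonneg.2 ((half_pos P.hη).le.trans (le_max_right _ _)))

theorem Phi_nonneg : 0 ≤ s.Phi := by
  refine add_nonneg (mul_nonneg P.eps0_pos.le (Finset.sum_nonneg fun i _ => ?_))
    (C.intA_nonneg h.w_nonneg)
  refine C.intA_nonneg fun χ => ?_
  simp only [ContinuousMap.mul_apply, ContinuousMap.add_apply, ContinuousMap.one_apply]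
  exact mul_nonneg (by linarith [h.R_nonneg i χ]) (add_nonneg (h.e_nonneg i χ) (h.l_nonneg i χ))

theorem removed_nonneg (χ : C.Spec) : 0 ≤ s.removed χ := by
  rw [removed, ContinuousMap.sub_apply, ContinuousMap.sub_apply, ContinuousMap.sum_apply,
    ContinuousMap.one_apply]
  linarith [h.fit χ]

private theorem F_le (χ : C.Spec) : s.F χ ≤ P.r / 2 := by
  rw [F, ContinuousMap.sum_apply]
  refine (Finset.sum_le_sum (g := fun _ => (1 / 2 : ℝ)) fun i _ => ?_).trans_eq (by simp; ring)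
  simp only [psi, ContinuousMap.sub_apply, ContinuousMap.mul_apply, ContinuousMap.smul_apply,
    ContinuousMap.add_apply, ContinuousMap.one_apply, smul_eq_mul]
  have h1 := h.R_nonneg i χ
  have h2 := h.R_le i χ
  nlinarith [mul_nonneg h1 (add_nonneg (h.e_nonneg i χ) (h.l_nonneg i χ))]

end Inv

/-- Consequences of lowering weights and loads. -/
theorem drop_bound (h : s.Inv y0) (hR : ∀ i χ, t.R i χ ≤ s.R i χ)
    (hload : ∀ i χ, t.e i χ + t.l i χ ≤ s.e i χ + s.l i χ)
    (hload0 : ∀ i χ, 0 ≤ t.e i χ + t.l i χ)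
    (hU : ∀ χ, (t.U χ = 0 ∨ t.U χ = 1) ∧ t.U χ ≤ s.U χ)
    (hUR : ∀ χ, t.U χ = 1 → ∀ i, t.R i χ = s.R i χ) :
    (∀ χ, t.U χ = 1 → s.F χ ≤ t.F χ) ∧
      t.Phi + C.intA ((s.U - t.U) * invC (half_pos P.hη) (s.F - (128 : ℝ) • 1)) +
        P.eps0 * ∑ i, C.intA ((s.e i + s.l i) - (t.e i + t.l i)) ≤ s.Phi := by
  have hF : ∀ χ, t.U χ = 1 → s.F χ ≤ t.F χ := by
    intro χ hχ
    rw [F, F, ContinuousMap.sum_apply, ContinuousMap.sum_apply]
    refine Finset.sum_le_sum fun i _ => ?_
    simp only [psi, ContinuousMap.sub_apply, ContinuousMap.mul_apply, ContinuousMap.smul_apply,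
      ContinuousMap.add_apply, ContinuousMap.one_apply, smul_eq_mul, hUR χ hχ i]
    linarith [mul_le_mul_of_nonneg_left (hload i χ) (h.R_nonneg i χ)]
  refine ⟨hF, ?_⟩
  have hw : C.intA t.w + C.intA ((s.U - t.U) * invC (half_pos P.hη) (s.F - (128 : ℝ) • 1)) ≤
      C.intA s.w := by
    rw [← C.intA_add]
    refine C.intA_mono fun χ => ?_
    simp only [w, ContinuousMap.add_apply, ContinuousMap.mul_apply, ContinuousMap.sub_apply,
      invC_apply, ContinuousMap.smul_apply, ContinuousMap.one_apply, smul_eq_mul, mul_one]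
    rcases (hU χ).1 with e | e
    · rw [e]; linarith
    · have hle : (max (t.F χ - 128) (P.η / 2))⁻¹ ≤ (max (s.F χ - 128) (P.η / 2))⁻¹ :=
        inv_anti₀ (lt_max_of_lt_right (half_pos P.hη))
          (max_le_max (by linarith [hF χ e]) le_rfl)
      rw [e]
      linarith
  have hload' : ∑ i, C.intA ((1 + t.R i) * (t.e i + t.l i)) +
      ∑ i, C.intA ((s.e i + s.l i) - (t.e i + t.l i)) ≤
      ∑ i, C.intA ((1 + s.R i) * (s.e i + s.l i)) := by
    rw [← Finset.sum_add_distrib]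
    refine Finset.sum_le_sum fun i _ => ?_
    rw [← C.intA_add]
    refine C.intA_mono fun χ => ?_
    simp only [ContinuousMap.add_apply, ContinuousMap.mul_apply, ContinuousMap.sub_apply,
      ContinuousMap.one_apply]
    linarith [mul_le_mul (hR i χ) (hload i χ) (hload0 i χ) (h.R_nonneg i χ)]
  have hmul := mul_le_mul_of_nonneg_left hload' P.eps0_pos.le
  rw [mul_add] at hmul
  simp only [Phi]
  linarith

/-- Multiplying weights by `0`-`1` symbols lowers the compressions and the loads. -/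
theorem reweight_le (h : s.Inv y0) (c : Fin P.r → C(C.Spec, ℝ))
    (hc : ∀ i χ, c i χ = 0 ∨ c i χ = 1) (hy : t.y = s.y) (hR : ∀ i, t.R i = s.R i * c i)
    (i : Fin P.r) :
    ‖t.B i‖ ≤ ‖s.B i‖ ∧ (∀ σ : ℝ, |σ| = 1 → t.W σ i ≤ s.W σ i ∧ 0 ≤ t.W σ i) ∧
      ∀ χ, t.l i χ ≤ s.l i χ ∧ 0 ≤ t.l i χ := by
  have hrt : t.rt i = s.rt i * C.op (c i) := by
    rw [rt, rt, hR i, sqC_mul_idem _ _ (hc i), map_mul]
  have hci := idem_of_values (hc i)
  have hyi : t.y i = s.y i := by rw [hy]
  have hn : ‖C.op (c i)‖ ≤ 1 := IsStarProjection.norm_le _ (C.isStarProjection_op hci)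
  have key := fun (σ : ℝ) (hσ : |σ| = 1) =>
    (h.gapB i).Zo_mul_le hσ (C.op_sa (c i)) (C.op_comm _ _) hn
  refine ⟨?_, fun σ hσ => ?_, fun χ => ?_⟩
  · have := (key 1 abs_one).1.norm_le
    rw [B, hrt, hyi]
    simpa using this
  · obtain ⟨hg, hle⟩ := key σ hσ
    rw [W, hrt, hyi]
    exact ⟨hle, hg.Zo_nonneg hσ⟩
  · have hR' : ∀ χ, 0 ≤ t.R i χ ∧ t.R i χ ≤ s.R i χ := fun χ => by
      rw [hR i, ContinuousMap.mul_apply]
      rcases hc i χ with e | e <;> simp [e, h.R_nonneg i χ]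
    have hm : ∀ f, s.y i * C.op f * s.y i ∈ C.M := fun f =>
      mul_mem (mul_mem (h.y_mem i) (C.op_mem_M _)) (h.y_mem i)
    have hz : 0 ≤ (P.z ^ 2)⁻¹ := inv_nonneg.2 (sq_nonneg _)
    simp only [l, hyi, ContinuousMap.smul_apply, smul_eq_mul]
    exact ⟨mul_le_mul_of_nonneg_left (C.Er_mono (hm _) (hm _)
        (conj_le (h.y_sa i) (C.op_mono fun χ => (hR' χ).2)) χ) hz,
      mul_nonneg hz (C.Er_nonneg (hm _)
        (conj_nonneg_op (h.y_sa i) (C.op_nonneg fun χ => (hR' χ).1)) χ)⟩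

/-- A state obtained by deleting colours on some cells. -/
theorem reweight (h : s.Inv y0) (c : Fin P.r → C(C.Spec, ℝ))
    (hc : ∀ i χ, c i χ = 0 ∨ c i χ = 1) (U' : C(C.Spec, ℝ)) (fin' : Fin P.r → C(C.Spec, ℝ))
    (hU : ∀ χ, (U' χ = 0 ∨ U' χ = 1) ∧ U' χ ≤ s.U χ) (hUc : ∀ χ, U' χ = 1 → ∀ i, c i χ = 1)
    (hfin : ∀ i χ, fin' i χ = 0 ∨ fin' i χ = 1) (hfit : ∀ χ, U' χ + ∑ i, fin' i χ ≤ 1)
    (hfinR : ∀ i χ, fin' i χ = 1 → 1 / 4 ≤ s.R i χ * c i χ) :
    let t : St C P := { s with U := U', R := fun i => s.R i * c i, fin := fin' }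
    t.Inv y0 ∧ (∀ i, ‖t.B i‖ ≤ ‖s.B i‖) ∧ (∀ χ, t.U χ = 1 → s.F χ ≤ t.F χ) ∧
      t.Phi + C.intA ((s.U - U') * invC (half_pos P.hη) (s.F - (128 : ℝ) • 1)) ≤ s.Phi := by
  intro t
  have hle := fun i => reweight_le (t := t) h c hc rfl (fun _ => rfl) i
  have hR : ∀ i χ, 0 ≤ t.R i χ ∧ t.R i χ ≤ s.R i χ := fun i χ => by
    change 0 ≤ s.R i χ * c i χ ∧ s.R i χ * c i χ ≤ s.R i χ
    rcases hc i χ with e | e <;> simp [e, h.R_nonneg i χ]
  have hl : ∀ i χ, t.e i χ + t.l i χ ≤ s.e i χ + s.l i χ ∧ 0 ≤ t.e i χ + t.l i χ := by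
    intro i χ
    obtain ⟨-, hW, hll⟩ := hle i
    obtain ⟨a1, b1⟩ := hW 1 abs_one
    obtain ⟨a2, b2⟩ := hW (-1) (by norm_num)
    have hm : ∀ σ, t.W σ i ∈ C.M := fun σ => W_mem (s := t) h.y_mem σ i
    simp only [e, ContinuousMap.add_apply]
    exact ⟨add_le_add (add_le_add (C.Er_mono (hm _) (W_mem h.y_mem _ i) a1 χ)
        (C.Er_mono (hm _) (W_mem h.y_mem _ i) a2 χ)) (hll χ).1,
      add_nonneg (add_nonneg (C.Er_nonneg (hm _) b1 χ) (C.Er_nonneg (hm _) b2 χ)) (hll χ).2⟩
  obtain ⟨hF, hPhi⟩ := drop_bound (t := t) h (fun i χ => (hR i χ).2)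
    (fun i χ => (hl i χ).1) (fun i χ => (hl i χ).2) hU (fun χ hχ i => by
      change s.R i χ * c i χ = s.R i χ
      rw [hUc χ hχ i, mul_one])
  have hpos : 0 ≤ P.eps0 * ∑ i, C.intA ((s.e i + s.l i) - (t.e i + t.l i)) :=
    mul_nonneg P.eps0_pos.le (Finset.sum_nonneg fun i _ => C.intA_nonneg fun χ => by
      simp only [ContinuousMap.sub_apply, ContinuousMap.add_apply]
      linarith [(hl i χ).1])
  refine ⟨?_, fun i => (hle i).1, hF, by linarith⟩
  refine ⟨idem_of_values fun χ => (hU χ).1, fun i => idem_of_values (hfin i), hfit,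
    fun i χ => (hR i χ).1, fun i χ => (hR i χ).2.trans (h.R_le i χ), hfinR, h.y_mem, h.y_sa,
    h.corr_mem, h.corr_nonneg, h.diff_le, fun i => (hle i).1.trans_lt (h.gap i), fun χ hχ => ?_⟩
  have hUs : s.U χ = 1 := by
    have h1 := (hU χ).2
    rcases h.U_values χ with e | e
    · rw [e] at h1; change U' χ = 1 at hχ; linarith
    · exact e
  exact (h.floor χ hUs).trans (hF χ hχ)

theorem Budget.step {gam Φ0 : ℝ} (hb : s.Budget gam Φ0) (hgam : 0 ≤ gam) (hcorr : t.corr = s.corr)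
    (hPhi : t.Phi ≤ s.Phi)
    (hrem : C.intA t.removed ≤ C.intA s.removed + P.η * (s.Phi - t.Phi)) : t.Budget gam Φ0 := by
  constructor
  · rw [hcorr]
    refine hb.corr_le.trans (mul_le_mul_of_nonneg_left (by linarith) ?_)
    exact div_nonneg (by linarith) P.eps0_pos.le
  · linarith [hb.removed_le]

/-- Points where the surplus is close to the floor are removed. -/
theorem exists_thin {gam Φ0 : ℝ} (h : s.Inv y0) (hb : s.Budget gam Φ0) (hgam : 0 ≤ gam)
    (hgap : ∀ i, ‖s.B i‖ ≤ P.z - gam) :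
    ∃ t : St C P, t.Inv y0 ∧ t.Budget gam Φ0 ∧ t.Phi ≤ s.Phi ∧
      (∀ i, ‖t.B i‖ ≤ P.z - gam) ∧ (∀ χ, t.U χ ≤ s.U χ) ∧
      ∀ χ, t.U χ = 1 → 128 + P.η ≤ t.F χ := by
  classical
  set p := C.cutAt s.F (128 + P.η) with hp
  set g : C(C.Spec, ℝ) := s.U * (1 - p) with hg
  have pv : ∀ χ, p χ = 0 ∨ p χ = 1 := idem_values (C.cutAt_idem _ _)
  have gv : ∀ χ, g χ = 0 ∨ g χ = 1 := fun χ => by
    rw [hg, ContinuousMap.mul_apply, ContinuousMap.sub_apply, ContinuousMap.one_apply]
    rcases pv χ with e | e <;> rcases h.U_values χ with e' | e' <;> simp [e, e']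
  have hU : ∀ χ, ((s.U * p) χ = 0 ∨ (s.U * p) χ = 1) ∧ (s.U * p) χ ≤ s.U χ := fun χ => by
    rw [ContinuousMap.mul_apply]
    rcases pv χ with e | e <;> rcases h.U_values χ with e' | e' <;> simp [e, e']
  obtain ⟨hi, hB, hF, hPhi⟩ := reweight h (fun _ => 1 - g)
    (fun _ χ => by rw [ContinuousMap.sub_apply, ContinuousMap.one_apply]
                   rcases gv χ with e | e <;> simp [e])
    (s.U * p) s.fin hU
    (fun χ hχ _ => by
      rw [ContinuousMap.mul_apply] at hχ
      rw [ContinuousMap.sub_apply, hg, ContinuousMap.mul_apply, ContinuousMap.sub_apply,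
        ContinuousMap.one_apply]
      rcases pv χ with e | e
      · rw [e, mul_zero] at hχ; exact absurd hχ zero_ne_one
      · rw [e]; ring)
    h.fin_values (fun χ => by linarith [h.fit χ, (hU χ).2])
    (fun i χ hχ => by
      have hU0 : s.U χ = 0 := by
        have hsum : s.fin i χ ≤ ∑ j, s.fin j χ :=
          Finset.single_le_sum (fun j _ => h.fin_nonneg j χ) (Finset.mem_univ i)
        rcases h.U_values χ with e | e
        · exact e
        · linarith [h.fit χ]
      rw [ContinuousMap.sub_apply, hg, ContinuousMap.mul_apply, hU0, zero_mul,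
        ContinuousMap.one_apply, sub_zero, mul_one]
      exact h.fin_R i χ hχ)
  have hg' : s.U - s.U * p = g := by rw [hg, mul_sub, mul_one]
  rw [hg'] at hPhi
  have hwt : C.intA g ≤ P.η * C.intA (g * invC (half_pos P.hη) (s.F - (128 : ℝ) • 1)) := by
    rw [← C.intA_smul]
    refine C.intA_mono fun χ => ?_
    change g χ ≤ P.η * (g χ * (max (s.F χ - 128 * 1) (P.η / 2))⁻¹)
    rw [mul_one]
    rcases gv χ with e | e
    · simp [e]
    · rw [e, one_mul]
      have hF1 : s.F χ ≤ 128 + P.η := by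
        refine C.le_of_cutAt_eq_zero ?_
        rcases pv χ with e' | e'
        · exact e'
        · rw [hg, ContinuousMap.mul_apply, ContinuousMap.sub_apply, ContinuousMap.one_apply, e',
            sub_self, mul_zero] at e
          exact absurd e zero_ne_one
      rw [← div_eq_mul_inv, le_div_iff₀ (lt_max_of_lt_right (half_pos P.hη)), one_mul]
      exact max_le (by linarith) (by linarith [P.hη])
  have hg0 : 0 ≤ C.intA (g * invC (half_pos P.hη) (s.F - (128 : ℝ) • 1)) :=
    C.intA_nonneg fun χ => by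
      rw [ContinuousMap.mul_apply, invC_apply]
      exact mul_nonneg (by rcases gv χ with e | e <;> simp [e])
        (inv_nonneg.2 ((half_pos P.hη).le.trans (le_max_right _ _)))
  let t : St C P := { s with U := s.U * p, R := fun i => s.R i * (1 - g) }
  refine ⟨t, hi, ?_, by linarith, fun i => (hB i).trans (hgap i), fun χ => (hU χ).2,
    fun χ hχ => ?_⟩
  · refine hb.step hgam rfl (by linarith) ?_
    have e : ∀ t : St C P, t.U = s.U * p → t.fin = s.fin → t.removed = s.removed + g := by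
      intro t e1 e2
      rw [removed, removed, e1, e2, ← hg']
      abel
    rw [e t rfl rfl, C.intA_add]
    have := mul_le_mul_of_nonneg_left
      (show C.intA (g * invC (half_pos P.hη) (s.F - (128 : ℝ) • 1)) ≤ s.Phi - _ from
        le_sub_iff_add_le'.2 hPhi) P.hη.le
    linarith
  · have hp1 : p χ = 1 := by
      change (s.U * p) χ = 1 at hχ
      rcases pv χ with e | e
      · rw [ContinuousMap.mul_apply, e, mul_zero] at hχ; exact absurd hχ zero_ne_one
      · exact e
    exact (C.le_of_cutAt_eq_one hp1).trans (hF χ hχ)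

/-- Points where some weight has reached `1/4` are finished. -/
theorem exists_finish {gam Φ0 : ℝ} (h : s.Inv y0) (hb : s.Budget gam Φ0) (hgam : 0 ≤ gam) :
    ∃ t : St C P, t.Inv y0 ∧ t.Budget gam Φ0 ∧
      t.Phi ≤ s.Phi - 1 / (P.r : ℝ) * C.intA (s.U * s.finishable) ∧
      (∀ i, ‖t.B i‖ ≤ ‖s.B i‖) ∧ ∀ χ, t.U χ = 1 → s.F χ ≤ t.F χ := by
  classical
  set p := fun i => C.cutAt (s.R i) (1 / 4) with hp
  set q := fun i => p i * ∏ j ∈ Finset.univ.filter (· < i), (1 - p j) with hq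
  set f : C(C.Spec, ℝ) := s.U * s.finishable with hf
  have pv : ∀ i χ, p i χ = 0 ∨ p i χ = 1 := fun i => idem_values (C.cutAt_idem _ _)
  have qv : ∀ i χ, q i χ = 0 ∨ q i χ = 1 := fun i χ => by
    rw [hq]
    simp only [ContinuousMap.mul_apply, ContinuousMap.prod_apply, ContinuousMap.sub_apply,
      ContinuousMap.one_apply]
    rcases pv i χ with e | e
    · simp [e]
    rw [e, one_mul]
    by_cases h1 : ∀ j ∈ Finset.univ.filter (· < i), p j χ = 0
    · exact Or.inr (Finset.prod_eq_one fun j hj => by rw [h1 j hj, sub_zero])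
    · push Not at h1
      obtain ⟨j, hj, hj'⟩ := h1
      exact Or.inl (Finset.prod_eq_zero hj (by rw [(pv j χ).resolve_left hj', sub_self]))
  have hqp : ∀ i χ, q i χ = 1 → 1 / 4 ≤ s.R i χ := fun i χ hi => by
    rcases pv i χ with e | e
    · rw [hq] at hi
      simp only [ContinuousMap.mul_apply, e, zero_mul] at hi
      exact absurd hi zero_ne_one
    · exact C.le_of_cutAt_eq_one e
  have hqsum : ∑ i, q i = s.finishable := by
    rw [finishable, Finset.prod_one_sub_ordered, sub_sub_cancel]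
  have hqs : ∀ χ, ∑ i, q i χ = s.finishable χ := fun χ => by
    rw [← hqsum, ContinuousMap.sum_apply]
  have fv : ∀ χ, s.finishable χ = 0 ∨ s.finishable χ = 1 := fun χ => by
    rw [finishable, ContinuousMap.sub_apply, ContinuousMap.prod_apply, ContinuousMap.one_apply]
    simp only [ContinuousMap.sub_apply, ContinuousMap.one_apply]
    by_cases h1 : ∀ j, p j χ = 0
    · exact Or.inl (by rw [Finset.prod_eq_one fun j _ => by
        show 1 - p j χ = 1
        rw [h1 j, sub_zero]]; ring)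
    · push Not at h1
      obtain ⟨j, hj⟩ := h1
      refine Or.inr ?_
      rw [Finset.prod_eq_zero (Finset.mem_univ j) (show 1 - p j χ = 0 by
        rw [(pv j χ).resolve_left hj, sub_self]), sub_zero]
  have qle : ∀ i χ, q i χ ≤ s.finishable χ := fun i χ => by
    rw [← hqs χ]
    exact Finset.single_le_sum (f := fun j => q j χ)
      (fun j _ => by rcases qv j χ with e | e <;> simp [e])
      (Finset.mem_univ i)
  set c : Fin P.r → C(C.Spec, ℝ) := fun i => 1 - f + s.U * q i with hc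
  have hcv : ∀ i χ, c i χ = 1 - s.U χ * (s.finishable χ - q i χ) := fun i χ => by
    simp only [hc, hf, ContinuousMap.add_apply, ContinuousMap.sub_apply, ContinuousMap.mul_apply,
      ContinuousMap.one_apply]
    ring
  have hfU : ∀ χ, (s.U - f) χ = s.U χ * (1 - s.finishable χ) := fun χ => by
    rw [ContinuousMap.sub_apply, hf, ContinuousMap.mul_apply]; ring
  have hU : ∀ χ, ((s.U - f) χ = 0 ∨ (s.U - f) χ = 1) ∧ (s.U - f) χ ≤ s.U χ := fun χ => by
    rw [hfU]
    rcases fv χ with e | e <;> rcases h.U_values χ with e' | e' <;> simp [e, e']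
  obtain ⟨hi, hB, hF, hPhi⟩ := reweight h c
    (fun i χ => by
      rw [hcv]
      rcases h.U_values χ with e' | e'
      · simp [e']
      rcases qv i χ with e | e <;> rcases fv χ with e'' | e'' <;> simp [e, e', e'']
      have := qle i χ
      rw [e, e''] at this
      linarith)
    (s.U - f) (fun i => s.fin i + s.U * q i) hU
    (fun χ hχ i => by
      rw [hfU] at hχ
      rw [hcv]
      rcases fv χ with e | e
      · have := qle i χ
        rw [e] at this
        rcases qv i χ with e' | e'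
        · rw [e, e']; ring
        · linarith
      · rw [e, sub_self, mul_zero] at hχ; exact absurd hχ zero_ne_one)
    (fun i χ => by
      rw [ContinuousMap.add_apply, ContinuousMap.mul_apply]
      rcases h.U_values χ with e | e
      · rw [e, zero_mul, add_zero]; exact h.fin_values i χ
      · have h1 : s.fin i χ = 0 := by
          have := Finset.single_le_sum (fun j _ => h.fin_nonneg j χ) (Finset.mem_univ i)
          linarith [h.fit χ, h.fin_nonneg i χ]
        rw [h1, e, one_mul, zero_add]; exact qv i χ)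
    (fun χ => by
      simp only [hfU, ContinuousMap.add_apply, ContinuousMap.mul_apply, Finset.sum_add_distrib,
        ← Finset.mul_sum, hqs]
      linarith [h.fit χ])
    (fun i χ hχ => by
      rw [ContinuousMap.add_apply, ContinuousMap.mul_apply] at hχ
      rw [hcv]
      rcases h.U_values χ with e | e
      · rw [e, zero_mul, add_zero] at hχ
        rw [e, zero_mul, sub_zero, mul_one]
        exact h.fin_R i χ hχ
      · have h1 : s.fin i χ = 0 := by
          have := Finset.single_le_sum (fun j _ => h.fin_nonneg j χ) (Finset.mem_univ i)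
          linarith [h.fit χ, h.fin_nonneg i χ]
        rw [h1, e, one_mul, zero_add] at hχ
        have : s.finishable χ = 1 := by
          rcases fv χ with e' | e'
          · have := qle i χ; linarith
          · exact e'
        rw [e, this, hχ, sub_self, mul_zero, sub_zero, mul_one]
        exact hqp i χ hχ)
  have hg' : s.U - (s.U - f) = f := sub_sub_cancel _ _
  rw [hg'] at hPhi
  have hwt : 1 / (P.r : ℝ) * C.intA f ≤
      C.intA (f * invC (half_pos P.hη) (s.F - (128 : ℝ) • 1)) := by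
    rw [← C.intA_smul]
    refine C.intA_mono fun χ => ?_
    change 1 / (P.r : ℝ) * (s.U χ * s.finishable χ) ≤
      s.U χ * s.finishable χ * (max (s.F χ - 128 * 1) (P.η / 2))⁻¹
    rw [mul_one]
    rcases h.U_values χ with e | e
    · simp [e]
    rw [e, one_mul, one_div, mul_comm]
    refine mul_le_mul_of_nonneg_left ?_ (by rcases fv χ with e' | e' <;> simp [e'])
    have := P.r_pos
    refine inv_anti₀ (lt_max_of_lt_right (half_pos P.hη)) (max_le (by linarith [h.F_le χ]) ?_)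
    linarith [h.F_le χ, h.floor χ e]
  let t : St C P :=
    { s with U := s.U - f, R := fun i => s.R i * c i, fin := fun i => s.fin i + s.U * q i }
  refine ⟨t, hi, ?_, by linarith, hB, hF⟩
  have h0 : 0 ≤ 1 / (P.r : ℝ) * C.intA f := by
    refine mul_nonneg (by positivity) (C.intA_nonneg fun χ => ?_)
    rw [hf, ContinuousMap.mul_apply]
    rcases fv χ with e' | e' <;> simp [e', h.U_nonneg χ]
  refine hb.step hgam rfl (by linarith) ?_
  have e : ∀ t : St C P, t.U = s.U - f → t.fin = (fun i => s.fin i + s.U * q i) →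
      t.removed = s.removed := by
    intro t e1 e2
    simp only [removed, e1, e2]
    rw [Finset.sum_add_distrib, ← Finset.mul_sum, hqsum, hf]
    abel
  rw [e t rfl rfl]
  exact le_add_of_nonneg_right (mul_nonneg P.hη.le (by linarith))

/-- All colours are cut at the level `z - gam`. -/
theorem exists_cut {gam Φ0 : ℝ} (h : s.Inv y0) (hb : s.Budget gam Φ0) (hgam : 0 < gam)
    (hgam2 : gam ≤ P.z / 2) :
    ∃ t : St C P, t.Inv y0 ∧ t.Budget gam Φ0 ∧ t.Phi ≤ s.Phi ∧ t.U = s.U ∧ t.R = s.R ∧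
      ∀ i, ‖t.B i‖ ≤ P.z - gam := by
  have hC : ∀ i, Cut P.z gam (s.rt i) (s.y i) := fun i =>
    ⟨s.rt_sa i, h.y_sa i, hgam, hgam2, h.gap i⟩
  let t : St C P :=
    { s with
      y := fun i => cutY (P.z - gam) (s.rt i) (s.y i)
      corr := fun i => s.corr i + cutP (P.z - gam) (s.rt i) (s.y i) }
  have hym : ∀ i, t.y i ∈ C.M := fun i => cutY_mem C.isClosed_M (s.rt_mem i) (h.y_mem i) _
  have hysa : ∀ i, IsSelfAdjoint (t.y i) := fun i => cutY_sa _ (s.rt_sa i) (h.y_sa i)
  have hB : ∀ i, ‖t.B i‖ ≤ P.z - gam := fun i => (hC i).norm_r_cutY_r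
  have hW : ∀ i σ, |σ| = 1 → t.W σ i ≤ s.W σ i ∧ 0 ≤ t.W σ i := fun i σ hσ =>
    ⟨(hC i).Zo_cutY_le hσ, (hC i).gap'.Zo_nonneg hσ⟩
  have hWm : ∀ i σ, t.W σ i ∈ C.M := fun i σ => W_mem hym σ i
  have hWs : ∀ i σ, IsSelfAdjoint (t.W σ i) := fun i σ => W_sa hysa σ i
  have hl : ∀ i χ, t.l i χ ≤ s.l i χ ∧ 0 ≤ t.l i χ := by
    intro i χ
    have hz : 0 ≤ (P.z ^ 2)⁻¹ := inv_nonneg.2 (sq_nonneg _)
    have hle : t.y i * C.op (s.R i) * t.y i ≤ s.y i * C.op (s.R i) * s.y i := by
      rw [← rt_mul_rt h.R_nonneg]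
      exact (hC i).cutY_rr_le
    simp only [l, ContinuousMap.smul_apply, smul_eq_mul]
    exact ⟨mul_le_mul_of_nonneg_left (C.Er_mono (mul_mem (mul_mem (hym i) (C.op_mem_M _)) (hym i))
        (mul_mem (mul_mem (h.y_mem i) (C.op_mem_M _)) (h.y_mem i)) hle χ) hz,
      mul_nonneg hz (C.Er_nonneg (mul_mem (mul_mem (hym i) (C.op_mem_M _)) (hym i))
        (conj_nonneg_op (hysa i) (C.op_nonneg (h.R_nonneg i))) χ)⟩
  have he : ∀ i χ, t.e i χ ≤ s.e i χ ∧ 0 ≤ t.e i χ := by
    intro i χ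
    obtain ⟨a1, b1⟩ := hW i 1 abs_one
    obtain ⟨a2, b2⟩ := hW i (-1) (by norm_num)
    simp only [e, ContinuousMap.add_apply]
    exact ⟨add_le_add (C.Er_mono (hWm i _) (W_mem h.y_mem _ i) a1 χ)
        (C.Er_mono (hWm i _) (W_mem h.y_mem _ i) a2 χ),
      add_nonneg (C.Er_nonneg (hWm i _) b1 χ) (C.Er_nonneg (hWm i _) b2 χ)⟩
  obtain ⟨hF, hPhi⟩ := drop_bound (t := t) h (fun _ _ => le_rfl)
    (fun i χ => add_le_add (he i χ).1 (hl i χ).1) (fun i χ => add_nonneg (he i χ).2 (hl i χ).2)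
    (fun χ => ⟨h.U_values χ, le_rfl⟩) (fun _ _ _ => rfl)
  have hrem : t.removed = s.removed := rfl
  have hP0 : C.intA ((s.U - t.U) * invC (half_pos P.hη) (s.F - (128 : ℝ) • 1)) = 0 := by
    change C.intA ((s.U - s.U) * _) = 0
    rw [sub_self, zero_mul, Ctx.intA, map_zero]
    simp [Ctx.tr]
  rw [hP0, add_zero] at hPhi
  have hterm : ∀ i, (C.tr (cutP (P.z - gam) (s.rt i) (s.y i))).re ≤
      2 * gam * C.intA ((s.e i + s.l i) - (t.e i + t.l i)) := by
    intro i
    have hm := W_mem (s := s) h.y_mem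
    have hs := W_sa (s := s) h.y_sa
    have h1 := C.tr_mono (hC i).cutP_le
    rw [← Complex.coe_smul, C.tr_smul, Complex.re_ofReal_mul, C.tr_add, C.tr_sub, C.tr_sub,
      Complex.add_re, Complex.sub_re, Complex.sub_re] at h1
    change _ ≤ 2 * gam * ((C.tr (s.W 1 i)).re - (C.tr (t.W 1 i)).re +
      ((C.tr (s.W (-1) i)).re - (C.tr (t.W (-1) i)).re)) at h1
    rw [← C.intA_Er (hm 1 i) (hs 1 i), ← C.intA_Er (hm (-1) i) (hs (-1) i),
      ← C.intA_Er (hWm i 1) (hWs i 1), ← C.intA_Er (hWm i (-1)) (hWs i (-1))] at h1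
    refine h1.trans (mul_le_mul_of_nonneg_left ?_ (by linarith))
    have h2 : C.intA (t.e i) + (C.intA ((s.e i + s.l i) - (t.e i + t.l i))) ≥ C.intA (s.e i) := by
      rw [← C.intA_add]
      refine C.intA_mono fun χ => ?_
      simp only [ContinuousMap.add_apply, ContinuousMap.sub_apply]
      linarith [(hl i χ).1]
    have e1 : C.intA (s.e i) = C.intA (C.Er (s.W 1 i)) + C.intA (C.Er (s.W (-1) i)) :=
      C.intA_add _ _
    have e2 : C.intA (t.e i) = C.intA (C.Er (t.W 1 i)) + C.intA (C.Er (t.W (-1) i)) :=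
      C.intA_add _ _
    linarith
  have hdrop : 0 ≤ P.eps0 * ∑ i, C.intA ((s.e i + s.l i) - (t.e i + t.l i)) :=
    mul_nonneg P.eps0_pos.le (Finset.sum_nonneg fun i _ => C.intA_nonneg fun χ => by
      simp only [ContinuousMap.sub_apply, ContinuousMap.add_apply]
      linarith [(he i χ).1, (hl i χ).1])
  refine ⟨t, ?_, ?_, by linarith, rfl, rfl, hB⟩
  · refine ⟨h.U_idem, h.fin_idem, h.fit, h.R_nonneg, h.R_le, h.fin_R, hym, hysa,
      fun i => add_mem (h.corr_mem i) (cutP_mem C.isClosed_M (s.rt_mem i) (h.y_mem i) _),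
      fun i => add_nonneg (h.corr_nonneg i) (hC i).cutP_nonneg, fun i => ?_,
      fun i => (hB i).trans_lt (by linarith), fun χ hχ => (h.floor χ hχ).trans (hF χ hχ)⟩
    obtain ⟨a, b⟩ := h.diff_le i
    obtain ⟨c, d⟩ := (hC i).sub_cutY_le
    constructor
    · refine le_trans (le_of_eq ?_) (add_le_add a d)
      change y0 - cutY (P.z - gam) (s.rt i) (s.y i) = _
      abel
    · refine le_trans (le_of_eq ?_) (add_le_add b (neg_le.1 c))
      change cutY (P.z - gam) (s.rt i) (s.y i) - y0 = _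
      abel
  · constructor
    · have e1 : ∑ i, (C.tr (t.corr i)).re =
          ∑ i, (C.tr (s.corr i)).re + ∑ i, (C.tr (cutP (P.z - gam) (s.rt i) (s.y i))).re := by
        rw [← Finset.sum_add_distrib]
        exact Finset.sum_congr rfl fun i _ => by rw [← Complex.add_re, ← C.tr_add]
      rw [e1]
      have h2 : ∑ i, (C.tr (cutP (P.z - gam) (s.rt i) (s.y i))).re ≤
          2 * gam / P.eps0 * (s.Phi - t.Phi) := by
        refine (Finset.sum_le_sum fun i _ => hterm i).trans ?_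
        rw [← Finset.mul_sum, div_mul_eq_mul_div, le_div_iff₀ P.eps0_pos, mul_assoc]
        refine mul_le_mul_of_nonneg_left ?_ (by linarith)
        linarith
      linarith [hb.corr_le]
    · rw [hrem]
      have := mul_le_mul_of_nonneg_left (show t.Phi ≤ s.Phi by linarith) P.hη.le
      linarith [hb.removed_le]

/-- The initial state. -/
theorem exists_init (hη : P.η ≤ 64) (hy0 : y0 ∈ C.M) (hsa : IsSelfAdjoint y0) (hn : ‖y0‖ ≤ 1) :
    ∃ s : St C P, s.Inv y0 ∧ s.U = 1 ∧ s.Phi ≤ 2 * ‖C.Ω‖ ^ 2 ∧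
      ∀ gam : ℝ, s.Budget gam s.Phi := by
  let s : St C P :=
    { U := 1, R := fun _ => P.rho • 1, fin := fun _ => 0, y := fun _ => y0, corr := fun _ => 0 }
  have hrho := P.rho_pos
  have hrho2 := P.rho_le
  have hz := P.z_pos
  have hz2 := P.z_sq
  have hrz : P.rho ≤ P.z / 2 := by nlinarith
  have hrt : ∀ i, s.rt i = Real.sqrt P.rho • (1 : K →L[ℂ] K) := fun i => by
    rw [rt, ← map_one C.op, ← map_smul]
    congr 1
    ext χ
    simp [s, sqC_apply]
  have hB : ∀ i, ‖s.B i‖ ≤ P.rho := fun i => by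
    rw [B, hrt, smul_mul_assoc, one_mul, smul_mul_assoc, mul_smul_comm, mul_one, smul_smul,
      Real.mul_self_sqrt hrho.le, norm_smul, Real.norm_eq_abs, abs_of_pos hrho]
    exact mul_le_of_le_one_right hrho.le hn
  have hG : ∀ i, Gap P.z (P.z / 2) (s.rt i) (s.y i) := fun i =>
    ⟨s.rt_sa i, hsa, by linarith, by linarith, ((hB i).trans hrz).trans_eq (by ring)⟩
  have hyy : y0 * y0 ≤ (1 : K →L[ℂ] K) := by
    have h0 : 0 ≤ y0 * y0 := hsa.mul_self_nonneg
    refine (CStarAlgebra.norm_le_one_iff_of_nonneg _ h0).1 ((norm_mul_le _ _).trans ?_)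
    exact mul_le_one₀ hn (norm_nonneg _) hn
  have hsy : ∀ i, y0 * C.op (s.R i) * y0 ≤ P.rho • (1 : K →L[ℂ] K) := fun i => by
    simp only [s, map_smul, map_one, mul_smul_comm, mul_one, smul_mul_assoc]
    exact smul_le_smul_of_nonneg_left hyy hrho.le
  have hW : ∀ i σ, |σ| = 1 → s.W σ i ≤ (2 * P.rho / P.z ^ 2) • (1 : K →L[ℂ] K) := by
    intro i σ hσ
    rw [W, Zo]
    refine (smul_le_smul_of_nonneg_left (conj_mono (s.rt_sa i) hsa ((hG i).res_le hσ))
      (inv_nonneg.2 hz.le)).trans ?_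
    have e : y0 * s.rt i * ((P.z / 2)⁻¹ • (1 : K →L[ℂ] K)) * s.rt i * y0 =
        ((P.z / 2)⁻¹ * P.rho) • (y0 * y0) := by
      rw [hrt]
      simp only [smul_mul_assoc, mul_smul_comm, mul_one, smul_smul]
      congr 1
      rw [mul_left_comm, Real.mul_self_sqrt hrho.le]
    change P.z⁻¹ • (y0 * s.rt i * ((P.z / 2)⁻¹ • (1 : K →L[ℂ] K)) * s.rt i * y0) ≤ _
    rw [e, smul_smul]
    refine (smul_le_smul_of_nonneg_left hyy (by positivity)).trans_eq ?_
    congr 1
    field_simp
  have hload : ∀ i χ, s.e i χ + s.l i χ ≤ 5 * P.rho / P.z ^ 2 := by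
    intro i χ
    simp only [e, l, ContinuousMap.add_apply, ContinuousMap.smul_apply, smul_eq_mul]
    have hm : ∀ σ, s.W σ i ∈ C.M := fun σ => W_mem (s := s) (fun _ => hy0) σ i
    have a := C.Er_le_const (hm 1) (hW i 1 abs_one) χ
    have b := C.Er_le_const (hm (-1)) (hW i (-1) (by norm_num)) χ
    have c := mul_le_mul_of_nonneg_left
      (C.Er_le_const (mul_mem (mul_mem hy0 (C.op_mem_M _)) hy0) (hsy i) χ)
      (inv_nonneg.2 (sq_nonneg P.z))
    have e : (P.z ^ 2)⁻¹ * P.rho + 2 * P.rho / P.z ^ 2 + 2 * P.rho / P.z ^ 2 =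
        5 * P.rho / P.z ^ 2 := by ring
    change _ + _ + (P.z ^ 2)⁻¹ * C.Er (y0 * C.op (s.R i) * y0) χ ≤ _
    linarith
  have hload' : ∀ i χ, s.e i χ + s.l i χ ≤ 1 / 4000000 := fun i χ => by
    refine (hload i χ).trans_eq ?_
    rw [hz2]
    field_simp
    ring
  have hF : ∀ χ, 192 ≤ s.F χ := by
    intro χ
    rw [F, ContinuousMap.sum_apply]
    refine le_trans (le_of_eq ?_) (Finset.card_nsmul_le_sum _ _ (P.rho / 2) fun i _ => ?_)
    · rw [Finset.card_univ, Fintype.card_fin, nsmul_eq_mul, Par.rho]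
      field_simp [P.r_pos.ne']
      ring
    · simp only [psi, s, ContinuousMap.sub_apply, ContinuousMap.mul_apply,
        ContinuousMap.smul_apply, ContinuousMap.add_apply, ContinuousMap.one_apply, smul_eq_mul,
        mul_one]
      have := mul_le_mul_of_nonneg_left (hload' i χ) hrho.le
      nlinarith [mul_pos hrho hrho]
  have hInv : s.Inv y0 :=
    ⟨one_mul 1, fun _ => mul_zero 0, fun χ => by simp [s], fun i χ => by simp [s, hrho.le],
      fun i χ => by simpa [s] using hrho2, fun i χ hχ => by simp [s] at hχ, fun _ => hy0,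
      fun _ => hsa, fun _ => zero_mem _, fun _ => le_rfl, fun i => by simp [s],
      fun i => (hB i).trans_lt (by linarith), fun χ _ => by linarith [hF χ]⟩
  refine ⟨s, hInv, rfl, ?_, fun gam => ⟨by simp [s, Ctx.tr], by
    simp [removed, s, Ctx.intA, Ctx.tr]⟩⟩
  have hc : ∀ c : ℝ, C.intA (c • (1 : C(C.Spec, ℝ))) = c * ‖C.Ω‖ ^ 2 := fun c => by
    rw [← C.intA_const, Algebra.algebraMap_eq_smul_one]
  have h1 : C.intA s.w ≤ 1 * ‖C.Ω‖ ^ 2 := by
    rw [← hc]
    refine C.intA_mono fun χ => ?_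
    simp only [w, ContinuousMap.mul_apply, invC_apply, ContinuousMap.smul_apply,
      ContinuousMap.sub_apply, ContinuousMap.one_apply, smul_eq_mul, mul_one]
    change 1 * _ ≤ _
    rw [one_mul]
    exact inv_le_one_of_one_le₀ (le_max_of_le_left (by linarith [hF χ]))
  have h2 : P.eps0 * ∑ i, C.intA ((1 + s.R i) * (s.e i + s.l i)) ≤ 1 * ‖C.Ω‖ ^ 2 := by
    have : ∀ i, C.intA ((1 + s.R i) * (s.e i + s.l i)) ≤ 1 * ‖C.Ω‖ ^ 2 := fun i => by
      rw [← hc]
      refine C.intA_mono fun χ => ?_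
      simp only [ContinuousMap.mul_apply, ContinuousMap.add_apply, ContinuousMap.one_apply,
        ContinuousMap.smul_apply, smul_eq_mul, mul_one]
      nlinarith [hload' i χ, hInv.R_le i χ, hInv.R_nonneg i χ, hInv.e_nonneg i χ,
        hInv.l_nonneg i χ]
    refine (mul_le_mul_of_nonneg_left (Finset.sum_le_card_nsmul _ _ _ fun i _ => this i)
      P.eps0_pos.le).trans ?_
    rw [Finset.card_univ, Fintype.card_fin, nsmul_eq_mul, ← mul_assoc]
    refine mul_le_of_le_one_left (by positivity) ?_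
    have hr : (768 : ℝ) ≤ P.r := by exact_mod_cast P.hr
    rw [Par.eps0, div_mul_eq_mul_div, one_mul, div_le_one (by positivity)]
    nlinarith
  unfold Phi
  linarith

/-- The paving read off from a state. -/
theorem exists_paving_of_state {gam Φ0 : ℝ} (h : s.Inv y0) (hb : s.Budget gam Φ0)
    (hgam : 0 ≤ gam) (hsa : IsSelfAdjoint y0) :
    ∃ f : Fin P.r → C(C.Spec, ℝ), (∀ i, f i * f i = f i) ∧ ∑ i, f i = 1 ∧
      ∃ q ∈ C.M, IsStarProjection q ∧
        (C.tr (1 - q)).re ≤ C.intA s.U + P.η * Φ0 + 2 * gam * Φ0 / (P.eps0 * P.z) ∧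
        ‖q * (∑ i, C.op (f i) * y0 * C.op (f i)) * q‖ ≤ 5 * P.z := by
  classical
  have hz := P.z_pos
  have hr : 0 < P.r := lt_of_lt_of_le (by norm_num) P.hr
  set i0 : Fin P.r := ⟨0, hr⟩
  set q0s : C(C.Spec, ℝ) := ∑ i, s.fin i with hq0s
  have hsum : ∀ χ, q0s χ = ∑ i, s.fin i χ := fun χ => by rw [hq0s, ContinuousMap.sum_apply]
  have q0v : ∀ χ, q0s χ = 0 ∨ q0s χ = 1 := fun χ => by
    rw [hsum]
    by_cases h1 : ∀ j, s.fin j χ = 0
    · exact Or.inl (Finset.sum_eq_zero fun j _ => h1 j)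
    · push Not at h1
      obtain ⟨j, hj⟩ := h1
      refine Or.inr (le_antisymm (by linarith [h.fit χ, h.U_nonneg χ]) ?_)
      rw [← (h.fin_values j χ).resolve_left hj]
      exact Finset.single_le_sum (fun k _ => h.fin_nonneg k χ) (Finset.mem_univ j)
  have hq0f : ∀ i, q0s * s.fin i = s.fin i := fun i => by
    ext χ
    rw [ContinuousMap.mul_apply]
    rcases h.fin_values i χ with e | e
    · rw [e, mul_zero]
    · have : s.fin i χ ≤ q0s χ := by
        rw [hsum]; exact Finset.single_le_sum (fun k _ => h.fin_nonneg k χ) (Finset.mem_univ i)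
      rcases q0v χ with e' | e' <;> rw [e'] at this ⊢
      · linarith
      · rw [one_mul]
  have hq0i : q0s * q0s = q0s := idem_of_values q0v
  set f : Fin P.r → C(C.Spec, ℝ) := fun i => s.fin i + if i = i0 then 1 - q0s else 0 with hf
  have hfq : ∀ i, q0s * f i = s.fin i := fun i => by
    simp only [hf, mul_add, hq0f i]
    split_ifs
    · rw [mul_sub, mul_one, hq0i, sub_self, add_zero]
    · rw [mul_zero, add_zero]
  refine ⟨f, fun i => ?_, ?_, ?_⟩
  · simp only [hf, mul_add, add_mul, h.fin_idem i]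
    split_ifs
    · have e : s.fin i * (1 - q0s) = 0 := by
        rw [mul_sub, mul_one, mul_comm, hq0f, sub_self]
      rw [e, mul_comm (1 - q0s) (s.fin i), e]
      simp [mul_sub, sub_mul, hq0i]
    · simp
  · simp [hf, Finset.sum_add_distrib, ← hq0s]
  set g := fun i => C.op (s.fin i) with hg
  have hgm : ∀ i, g i ∈ C.M := fun i => C.op_mem_M _
  have hgs : ∀ i, IsSelfAdjoint (g i) := fun i => C.op_sa _
  have hgp : ∀ i, IsStarProjection (g i) := fun i => C.isStarProjection_op (h.fin_idem i)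
  set D : K →L[ℂ] K := ∑ i, g i * s.corr i * g i with hD
  have hDM : D ∈ C.M := sum_mem fun i _ => mul_mem (mul_mem (hgm i) (h.corr_mem i)) (hgm i)
  have hD0 : 0 ≤ D := Finset.sum_nonneg fun i _ => conj_nonneg_op (hgs i) (h.corr_nonneg i)
  have hDsa : IsSelfAdjoint D := IsSelfAdjoint.of_nonneg hD0
  set a : K →L[ℂ] K := cfc (fun x : ℝ => max (x - P.z) 0) D with ha
  set b : K →L[ℂ] K := cfc (fun x : ℝ => max (P.z - x) 0) D with hb'
  have haM : a ∈ C.M := cfc_mem_closed C.isClosed_M _ hDM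
  obtain ⟨E, hEM, hE, hEa, hann, hcomm⟩ := C.exists_range_proj_M haM (cfc_predicate _ D)
  have hba : b * a = 0 := by
    rw [ha, hb', ← cfc_mul _ _ D, ← cfc_const_zero ℝ D]
    refine cfc_congr fun x _ => ?_
    rcases le_total x P.z with hx | hx
    · rw [max_eq_right (by linarith : x - P.z ≤ 0), mul_zero]
    · rw [max_eq_right (by linarith : P.z - x ≤ 0), zero_mul]
  have hbE : b * E = 0 := hann b hba
  have hdec : D = a - b + P.z • (1 : K →L[ℂ] K) := by
    rw [ha, hb', ← Algebra.algebraMap_eq_smul_one, ← cfc_const P.z D hDsa, ← cfc_sub _ _ D,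
      ← cfc_add D _ _]
    conv_lhs => rw [← cfc_id' ℝ D hDsa]
    refine cfc_congr fun x _ => ?_
    rcases le_total x P.z with hx | hx
    · simp only [max_eq_right (by linarith : x - P.z ≤ 0),
        max_eq_left (by linarith : 0 ≤ P.z - x)]
      ring
    · simp only [max_eq_left (by linarith : 0 ≤ x - P.z),
        max_eq_right (by linarith : P.z - x ≤ 0)]
      ring
  have haE : a * E = a := by
    have := congrArg star hEa
    rwa [star_mul, hE.isSelfAdjoint.star_eq, (cfc_predicate _ D : IsSelfAdjoint a).star_eq] at this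
  have hEDE : P.z • E ≤ E * D * E := by
    rw [hdec, mul_add, add_mul, mul_sub, sub_mul, mul_assoc E b, hbE, mul_zero, sub_zero,
      mul_smul_comm, mul_one, smul_mul_assoc, hE.isIdempotentElem.eq]
    exact le_add_of_nonneg_left (conj_nonneg_op hE.isSelfAdjoint
      (cfc_nonneg fun x _ => le_max_right _ _))
  set Q0 := C.op q0s with hQ0
  have hQ0p : IsStarProjection Q0 := C.isStarProjection_op hq0i
  have hQ0g : ∀ i, Q0 * g i = g i := fun i => by rw [hQ0, hg, ← map_mul, hq0f]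
  have hgQ0 : ∀ i, g i * Q0 = g i := fun i => by
    rw [hQ0, hg, ← map_mul, mul_comm, hq0f]
  have hQD : Q0 * D = D := by
    rw [hD, Finset.mul_sum]
    simp only [← mul_assoc, hQ0g]
  have hDQ : D * Q0 = D := by
    rw [hD, Finset.sum_mul]
    simp only [mul_assoc, hgQ0]
  have hQa : Commute Q0 a :=
    (Commute.cfc_real (show Commute D Q0 from hDQ.trans hQD.symm) _).symm
  have hEQ : E * Q0 = Q0 * E := hcomm Q0 hQ0p.isSelfAdjoint hQa.eq
  set q := Q0 * (1 - E) with hq
  have hqc : Commute Q0 (1 - E) := (Commute.one_right _).sub_right hEQ.symm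
  have hqp : IsStarProjection q := hQ0p.mul hE.one_sub hqc
  have hqM : q ∈ C.M := mul_mem (C.op_mem_M _) (sub_mem (one_mem _) hEM)
  refine ⟨q, hqM, hqp, ?_, ?_⟩
  · have e : 1 - q = (1 - Q0) + Q0 * E * Q0 := by
      rw [mul_assoc Q0 E Q0, hEQ, ← mul_assoc, hQ0p.isIdempotentElem.eq, hq, mul_sub, mul_one]
      abel
    rw [e, C.tr_add, Complex.add_re]
    have t1 : (C.tr (1 - Q0)).re = C.intA s.U + C.intA s.removed := by
      rw [← C.intA_add, Ctx.intA]
      congr 2
      rw [removed, ← hq0s, hQ0, ← map_one C.op, ← map_sub]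
      congr 1
      abel
    have t2 : (C.tr (Q0 * E * Q0)).re ≤ (C.tr E).re :=
      C.tr_compress_le hEM (C.op_mem_M _) hQ0p hE.nonneg
    have t3 : P.z * (C.tr E).re ≤ (C.tr D).re := by
      have := (C.tr_mono hEDE).trans (C.tr_compress_le hDM hEM hE hD0)
      rwa [← Complex.coe_smul, C.tr_smul, Complex.re_ofReal_mul] at this
    have t4 : (C.tr D).re ≤ 2 * gam / P.eps0 * Φ0 := by
      rw [hD, C.tr_sum, Complex.re_sum]
      refine ((Finset.sum_le_sum fun i _ =>
        C.tr_compress_le (h.corr_mem i) (hgm i) (hgp i) (h.corr_nonneg i)).trans hb.corr_le).trans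
        (mul_le_mul_of_nonneg_left (by linarith [h.Phi_nonneg]) ?_)
      exact div_nonneg (by linarith) P.eps0_pos.le
    have t5 : C.intA s.removed ≤ P.η * Φ0 :=
      hb.removed_le.trans (mul_le_mul_of_nonneg_left (by linarith [h.Phi_nonneg]) P.hη.le)
    have t6 : (C.tr E).re ≤ 2 * gam * Φ0 / (P.eps0 * P.z) := by
      rw [le_div_iff₀ (mul_pos P.eps0_pos hz)]
      rw [div_mul_eq_mul_div, le_div_iff₀ P.eps0_pos] at t4
      nlinarith [mul_le_mul_of_nonneg_right t3 P.eps0_pos.le]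
    linarith
  set X := ∑ i, C.op (f i) * y0 * C.op (f i) with hX
  set Y := ∑ i, g i * y0 * g i with hY
  have hqY : q * X * q = q * Y * q := by
    have e : Q0 * X * Q0 = Y := by
      rw [hX, hY, Finset.mul_sum, Finset.sum_mul]
      refine Finset.sum_congr rfl fun i _ => ?_
      have e1 : Q0 * C.op (f i) = g i := by rw [hQ0, hg, ← map_mul, hfq]
      have e2 : C.op (f i) * Q0 = g i := by rw [hQ0, hg, ← map_mul, mul_comm, hfq]
      rw [← e1]
      conv_rhs => arg 2; rw [e1, ← e2]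
      simp only [mul_assoc]
    have e1 : q * Q0 = q := by
      rw [hq, mul_assoc, ← hqc.eq, ← mul_assoc, hQ0p.isIdempotentElem.eq]
    have e2 : Q0 * q = q := by rw [hq, ← mul_assoc, hQ0p.isIdempotentElem.eq]
    conv_rhs => rw [← e]
    simp only [← mul_assoc, e1]
    rw [mul_assoc (q * X), e2]
  rw [hqY]
  have hqDq : q * D * q ≤ P.z • (1 : K →L[ℂ] K) := by
    have h1 : (1 - E) * D * (1 - E) ≤ P.z • (1 : K →L[ℂ] K) := by
      have h2 : (1 - E) * a = 0 := by rw [sub_mul, one_mul, hEa, sub_self]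
      have h3 : (1 - E) * D * (1 - E) =
          P.z • (1 - E) - (1 - E) * b * (1 - E) := by
        rw [hdec, mul_add (1 - E) (a - b), add_mul ((1 - E) * (a - b)), mul_sub (1 - E) a b,
          sub_mul ((1 - E) * a), h2, zero_mul, zero_sub, mul_smul_comm,
          mul_one, smul_mul_assoc, hE.one_sub.isIdempotentElem.eq]
        abel
      rw [h3]
      refine (sub_le_self _ (conj_nonneg_op hE.one_sub.isSelfAdjoint
        (cfc_nonneg fun x _ => le_max_right _ _))).trans ?_
      exact smul_le_smul_of_nonneg_left (sub_le_self _ hE.nonneg) hz.le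
    have h4 : q * D * q = Q0 * ((1 - E) * D * (1 - E)) * Q0 := by
      conv_lhs => arg 2; rw [hq, hqc.eq]
      simp only [hq, mul_assoc]
    rw [h4]
    refine (conj_le hQ0p.isSelfAdjoint h1).trans ?_
    rw [mul_smul_comm, mul_one, smul_mul_assoc, hQ0p.isIdempotentElem.eq]
    exact smul_le_smul_of_nonneg_left hQ0p.le_one hz.le
  have hterm : ∀ i, g i * y0 * g i ≤ (4 * P.z) • g i + g i * s.corr i * g i ∧
      -((4 * P.z) • g i + g i * s.corr i * g i) ≤ g i * y0 * g i := by
    intro i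
    set kf : C(C.Spec, ℝ) := s.fin i * invC (show (0:ℝ) < 1 / 2 by norm_num) (sqC (s.R i))
    have hk : kf * sqC (s.R i) = s.fin i := by
      ext χ
      simp only [kf, ContinuousMap.mul_apply, invC_apply]
      rcases h.fin_values i χ with e | e
      · rw [e, zero_mul, zero_mul]
      · have : 1 / 2 ≤ sqC (s.R i) χ := by
          rw [sqC_apply, Real.le_sqrt (by norm_num) (h.R_nonneg i χ)]
          linarith [h.fin_R i χ e]
        rw [e, one_mul, max_eq_left this, inv_mul_cancel₀ (by linarith)]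
    have e1 : C.op kf * s.rt i = g i := by rw [rt, ← map_mul, hk]
    have e2 : s.rt i * C.op kf = g i := by rw [rt, ← map_mul, mul_comm, hk]
    have hkn : ‖C.op kf‖ ≤ 2 := by
      rw [C.norm_op]
      refine (ContinuousMap.norm_le _ zero_le_two).2 fun χ => ?_
      simp only [kf, ContinuousMap.mul_apply, invC_apply, Real.norm_eq_abs]
      rw [abs_mul, abs_inv, abs_of_pos (lt_max_of_lt_right (by norm_num : (0:ℝ) < 1 / 2))]
      have h2 : (max (sqC (s.R i) χ) (1 / 2))⁻¹ ≤ 2 := by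
        rw [inv_le_iff_one_le_mul₀ (lt_max_of_lt_right (by norm_num))]
        linarith [le_max_right (sqC (s.R i) χ) (1 / 2)]
      rcases h.fin_values i χ with e | e <;> simp [e]
      linarith
    have hBsa : IsSelfAdjoint (s.B i) := conj_sa (s.rt_sa i) (h.y_sa i)
    set T := C.op kf * s.B i * C.op kf with hT
    have hTn : ‖T‖ ≤ 4 * P.z := by
      refine (norm_mul_le _ _).trans ((mul_le_mul_of_nonneg_right (norm_mul_le _ _)
        (norm_nonneg _)).trans ?_)
      have := (h.gap i).le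
      nlinarith [norm_nonneg (s.B i), norm_nonneg (C.op kf), mul_le_mul hkn this
        (norm_nonneg _) zero_le_two]
    have hTe : g i * s.y i * g i = T := by
      rw [hT, B]
      conv_lhs => rw [← e1]; arg 2; rw [e1, ← e2]
      simp only [mul_assoc]
    have hgT : g i * T * g i = T := by
      rw [← hTe]
      simp only [← mul_assoc, (hgp i).isIdempotentElem.eq]
      simp only [mul_assoc, (hgp i).isIdempotentElem.eq]
    have hTsa : IsSelfAdjoint T := conj_sa (C.op_sa _) hBsa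
    obtain ⟨t1, t2⟩ := op_le_norm_smul hTsa
    have hcg : ∀ c : ℝ, g i * (c • (1 : K →L[ℂ] K)) * g i = c • g i := fun c => by
      rw [mul_smul_comm, mul_one, smul_mul_assoc, (hgp i).isIdempotentElem.eq]
    have b1 : T ≤ (4 * P.z) • g i := by
      have := conj_le (hgs i) t1
      rw [hgT, hcg] at this
      exact this.trans (smul_le_smul_of_nonneg_right hTn (hgp i).nonneg)
    have b2 : -((4 * P.z) • g i) ≤ T := by
      have := conj_le (hgs i) t2
      rw [mul_neg, neg_mul, hgT, hcg] at this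
      exact le_trans (neg_le_neg (smul_le_smul_of_nonneg_right hTn (hgp i).nonneg)) this
    obtain ⟨d1, d2⟩ := h.diff_le i
    have c1 := conj_le (hgs i) d1
    have c2 := conj_le (hgs i) d2
    rw [mul_sub, sub_mul, hTe] at c1 c2
    refine ⟨(sub_le_iff_le_add'.1 c1).trans (add_le_add_left b1 _), neg_le.1 ?_⟩
    calc -(g i * y0 * g i) ≤ g i * s.corr i * g i - T := by
          rwa [le_sub_iff_add_le, neg_add_eq_sub]
      _ = g i * s.corr i * g i + -T := sub_eq_add_neg _ _
      _ ≤ g i * s.corr i * g i + (4 * P.z) • g i := add_le_add le_rfl (neg_le.1 b2)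
      _ = _ := add_comm _ _
  have hYle : Y ≤ (4 * P.z) • Q0 + D ∧ -((4 * P.z) • Q0 + D) ≤ Y := by
    have e : (4 * P.z) • Q0 + D = ∑ i, ((4 * P.z) • g i + g i * s.corr i * g i) := by
      rw [Finset.sum_add_distrib, ← Finset.smul_sum, hQ0, hq0s, map_sum]
    rw [e, hY, ← Finset.sum_neg_distrib]
    exact ⟨Finset.sum_le_sum fun i _ => (hterm i).1, Finset.sum_le_sum fun i _ => (hterm i).2⟩
  have hU1 : q * ((4 * P.z) • Q0 + D) * q ≤ (5 * P.z) • (1 : K →L[ℂ] K) := by
    rw [mul_add, add_mul, mul_smul_comm, smul_mul_assoc]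
    have e : q * Q0 * q ≤ 1 := by
      refine (conj_le hqp.isSelfAdjoint hQ0p.le_one).trans ?_
      rw [mul_one, hqp.isIdempotentElem.eq]
      exact hqp.le_one
    refine (add_le_add (smul_le_smul_of_nonneg_left e (by linarith)) hqDq).trans_eq ?_
    rw [← add_smul]
    ring_nf
  refine op_norm_le_of_between (conj_sa hqp.isSelfAdjoint ?_) (by linarith)
    ((conj_le hqp.isSelfAdjoint hYle.1).trans hU1) ?_
  · rw [hY]
    exact isSelfAdjoint_sum _ fun i _ => conj_sa (hgs i) hsa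
  · refine (neg_le_neg hU1).trans ?_
    rw [← neg_mul, ← mul_neg]
    exact conj_le hqp.isSelfAdjoint hYle.2

theorem Phi_nonneg (h : s.Inv y0) : 0 ≤ s.Phi := h.Phi_nonneg

end St

end Vale.Agent.P078.Finite
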