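import Vale.Agent.P078.Finite.NormalTools

/-!
Inside a projection `q` of `A`, the measure `p ↦ E (b* p b)` is, off a small exceptional set,
almost concentrated at one point of the spectrum.  This gives partial intertwiners, and the
diagonal sums of `p ↦ E (y p b)` are controlled by their inner products with `y*`.
-/

noncomputable section

open scoped InnerProductSpace
open Filter Topology

namespace Vale.Agent.P078.Finite

universe u

variable {K : Type u} [NormedAddCommGroup K] [InnerProductSpace ℂ K] [CompleteSpace K]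

namespace Ctx

variable (C : Ctx K)

/-- A left intertwiner: every projection of `A` moves across it. -/
def Inter (w : K →L[ℂ] K) : Prop :=
  w ∈ C.M ∧ ∀ p : C(C.Spec, ℝ), p * p = p → ∃ e, C.op p * w = w * C.op e

/-- `w` has all the commutation relations of `b` with `A`. -/
def Inherit (b w : K →L[ℂ] K) : Prop :=
  ∀ f g : C(C.Spec, ℝ), b * C.op f = C.op g * b → w * C.op f = C.op g * w

theorem fn_sum {ι : Type*} (s : Finset ι) {F : ι → K →L[ℂ] K} (hF : ∀ i ∈ s, F i ∈ C.A) :
    C.fn (∑ i ∈ s, F i) = ∑ i ∈ s, C.fn (F i) := by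
  classical
  induction s using Finset.induction_on with
  | empty =>
    simp only [Finset.sum_empty]
    rw [← C.opC_zero, C.fn_opC]
  | @insert a s ha ih =>
    rw [Finset.sum_insert ha, Finset.sum_insert ha, C.fn_add (hF a (Finset.mem_insert_self a s))
      (sum_mem fun i hi => hF i (Finset.mem_insert_of_mem hi)),
      ih fun i hi => hF i (Finset.mem_insert_of_mem hi)]

variable (b : K →L[ℂ] K) (q : C(C.Spec, ℝ))

/-- The spreading of `E (b* · b)` inside `q`, seen by a partition. -/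
def excess (t : Part C) : C(C.Spec, ℝ) :=
  C.nu b q * C.nu b q - ∑ j, C.nu b (q * t.c j) * C.nu b (q * t.c j)

theorem excess_apply (t : Part C) (χ : C.Spec) : C.excess b q t χ =
    C.nu b q χ * C.nu b q χ - ∑ j, C.nu b (q * t.c j) χ * C.nu b (q * t.c j) χ := by
  simp [excess]

variable {b q}

theorem nu_split (hb : b ∈ C.M) (f : C(C.Spec, ℝ)) (t : Part C) (χ : C.Spec) :
    ∑ j, C.nu b (f * t.c j) χ = C.nu b f χ := by
  rw [← ContinuousMap.sum_apply, ← C.nu_sum hb, ← Finset.mul_sum, t.sum_eq, mul_one]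

theorem nu_cell_nonneg (hb : b ∈ C.M) (hq : q * q = q) {p : C(C.Spec, ℝ)} (hp : p * p = p)
    (χ : C.Spec) : 0 ≤ C.nu b (q * p) χ :=
  C.nu_nonneg hb (C.idem_nonneg (C.idem_mul hq hp)) χ

theorem nu_cell_mono (hb : b ∈ C.M) (hq : q * q = q) {p p' : C(C.Spec, ℝ)} (hp : p * p = p)
    (hp' : p' * p' = p') (χ : C.Spec) : C.nu b (q * (p * p')) χ ≤ C.nu b (q * p) χ := by
  have h : q * p = q * (p * p') + q * (p * (1 - p')) := by ring
  rw [h, C.nu_add hb, ContinuousMap.add_apply]
  linarith [C.nu_cell_nonneg hb hq (C.idem_mul hp (C.idem_one_sub hp')) χ]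

theorem excess_mono (hb : b ∈ C.M) (hq : q * q = q) {t t' : Part C} (h : t ≤ t') (χ : C.Spec) :
    C.excess b q t χ ≤ C.excess b q t' χ := by
  rw [C.excess_apply, C.excess_apply, C.sum_split (fun f => C.nu b (q * f) χ * C.nu b (q * f) χ)
    (by simp [C.nu_zero]) h]
  refine sub_le_sub_left (Finset.sum_le_sum fun i _ => ?_) _
  rw [← C.nu_split hb (q * t.c i) t' χ, Finset.sum_mul]
  refine Finset.sum_le_sum fun j _ => ?_
  rw [← mul_assoc q]
  refine mul_le_mul_of_nonneg_left ?_ (by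
    rw [mul_assoc]; exact C.nu_cell_nonneg hb hq (C.idem_mul (t.idem i) (t'.idem j)) χ)
  refine Finset.single_le_sum (f := fun j => C.nu b (q * t.c i * t'.c j) χ) (fun k _ => ?_)
    (Finset.mem_univ j)
  simp only [mul_assoc]
  exact C.nu_cell_nonneg hb hq (C.idem_mul (t.idem i) (t'.idem k)) χ

theorem nu_idem_le (hb : b ∈ C.M) (hq : q * q = q) (χ : C.Spec) : C.nu b q χ ≤ ‖b‖ ^ 2 := by
  refine le_trans ?_ (C.nu_one_le hb χ)
  have h : (1 : C(C.Spec, ℝ)) = q + (1 - q) := by ring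
  rw [h, C.nu_add hb, ContinuousMap.add_apply]
  linarith [C.nu_nonneg hb (C.idem_nonneg (C.idem_one_sub hq)) χ]

theorem excess_bounds (hb : b ∈ C.M) (hq : q * q = q) (t : Part C) (χ : C.Spec) :
    0 ≤ C.excess b q t χ ∧ C.excess b q t χ ≤ ‖b‖ ^ 4 := by
  have h0 : 0 ≤ C.nu b q χ := C.nu_nonneg hb (C.idem_nonneg hq) χ
  have hj : ∀ j, 0 ≤ C.nu b (q * t.c j) χ := fun j => C.nu_cell_nonneg hb hq (t.idem j) χ
  have h1 : ∑ j, C.nu b (q * t.c j) χ * C.nu b (q * t.c j) χ ≤ C.nu b q χ * C.nu b q χ :=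
    calc ∑ j, C.nu b (q * t.c j) χ * C.nu b (q * t.c j) χ
        ≤ ∑ j, C.nu b (q * t.c j) χ * C.nu b q χ := by
          refine Finset.sum_le_sum fun j _ => mul_le_mul_of_nonneg_left ?_ (hj j)
          rw [← C.nu_split hb q t χ]
          exact Finset.single_le_sum (f := fun k => C.nu b (q * t.c k) χ) (fun k _ => hj k)
            (Finset.mem_univ j)
      _ = _ := by rw [← Finset.sum_mul, C.nu_split hb q t χ]
  have h2 := C.nu_idem_le hb hq χ
  have h3 : C.nu b q χ * C.nu b q χ ≤ ‖b‖ ^ 2 * ‖b‖ ^ 2 :=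
    mul_le_mul h2 h2 h0 (sq_nonneg _)
  have h4 : 0 ≤ ∑ j, C.nu b (q * t.c j) χ * C.nu b (q * t.c j) χ :=
    Finset.sum_nonneg fun j _ => mul_self_nonneg _
  rw [C.excess_apply]
  constructor
  · linarith
  · nlinarith

theorem norm_op_apply_le {f : C(C.Spec, ℝ)} {c : ℝ} (hc : 0 ≤ c) (h : ∀ χ, |f χ| ≤ c) (v : K) :
    ‖C.op f v‖ ≤ c * ‖v‖ := by
  refine ((C.op f).le_opNorm v).trans (mul_le_mul_of_nonneg_right ?_ (norm_nonneg _))
  rw [C.norm_op]
  exact (ContinuousMap.norm_le _ hc).2 h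

theorem intA_neg (f : C(C.Spec, ℝ)) : C.intA (-f) = -C.intA f := by
  rw [← neg_one_smul ℝ f, C.intA_smul, neg_one_mul]

theorem intA_sub (f g : C(C.Spec, ℝ)) : C.intA (f - g) = C.intA f - C.intA g := by
  rw [sub_eq_add_neg, C.intA_add, C.intA_neg, sub_eq_add_neg]

theorem nrm_op_sq (f : C(C.Spec, ℝ)) : C.nrm (C.op f) ^ 2 = C.intA (f * f) := by
  rw [intA, map_mul]
  conv_rhs => enter [1, 2, 1]; rw [← (C.op_sa f).star_eq]
  rw [C.tr_star_mul_self, ← Complex.ofReal_pow, Complex.ofReal_re]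

/-- The limit of the excess along refinement. -/
theorem exists_excess_limit (hb : b ∈ C.M) (hq : q * q = q) : ∃ L : C(C.Spec, ℝ),
    (∀ t χ, C.excess b q t χ ≤ L χ) ∧
      Tendsto (fun t : Part C => C.intA (C.excess b q t)) atTop (𝓝 (C.intA L)) := by
  obtain ⟨T, hTM, -, hlim⟩ := C.exists_strong_limit
    (x := fun t => C.op (C.excess b q t)) (s0 := Part.top C) (β := ‖b‖ ^ 4)
    (G := fun t => -(‖b‖ ^ 4 * C.intA (C.excess b q t))) (fun t _ => C.op_mem_M _)
    (fun t _ v => C.norm_op_apply_le (by positivity) (fun χ => by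
      rw [abs_of_nonneg (C.excess_bounds hb hq t χ).1]
      exact (C.excess_bounds hb hq t χ).2) v)
    ⟨-(‖b‖ ^ 4 * C.intA (algebraMap ℝ _ (‖b‖ ^ 4))), by
      rintro _ ⟨t, -, rfl⟩
      exact neg_le_neg (mul_le_mul_of_nonneg_left
        (C.intA_mono fun χ => by simpa using (C.excess_bounds hb hq t χ).2) (by positivity))⟩
    (fun s t _ hst => by
      rw [← sub_apply, ← map_sub]
      change C.nrm _ ^ 2 ≤ _
      rw [C.nrm_op_sq, sub_neg_eq_add, neg_add_eq_sub, ← mul_sub, ← C.intA_sub, ← C.intA_smul]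
      refine C.intA_mono fun χ => ?_
      have h1 := C.excess_mono hb hq hst χ
      have h2 := C.excess_bounds hb hq s χ
      have h3 := C.excess_bounds hb hq t χ
      simp only [ContinuousMap.mul_apply, ContinuousMap.sub_apply, ContinuousMap.smul_apply,
        smul_eq_mul]
      nlinarith)
  have hTA : T ∈ C.A := (C.hA T hTM).2 fun a ha => by
    ext v
    refine tendsto_nhds_unique (hlim (a v))
      (((a.continuous.tendsto _).comp (hlim v)).congr fun t => ?_)
    exact congrArg (fun R : K →L[ℂ] K => R v) (C.A_comm ha (C.op_mem _))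
  refine ⟨C.re T, fun t χ => ?_, ?_⟩
  · set f := C.excess b q t - C.re T with hf
    set g : C(C.Spec, ℝ) := ⟨fun χ => max (f χ) 0, f.continuous.max continuous_const⟩ with hg
    have e : C.intA (g * C.re T) = (C.tr (C.op g * T)).re := by
      rw [← C.intA_re (mul_mem (C.op_mem g) hTA)]
      congr 1
      ext χ'
      simp [re, C.fn_mul (C.op_mem g) hTA, C.fn_op]
    have hle : C.intA (g * C.excess b q t) ≤ C.intA (g * C.re T) := by
      rw [e]
      refine ge_of_tendsto ((Complex.continuous_re.tendsto _).comp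
        (tendsto_const_nhds.inner (((C.op g).continuous.tendsto _).comp (hlim C.Ω)))) ?_
      filter_upwards [eventually_ge_atTop t] with t' ht'
      change _ ≤ (C.tr (C.op g * C.op (C.excess b q t'))).re
      rw [← map_mul]
      exact C.intA_mono fun χ' => mul_le_mul_of_nonneg_left (C.excess_mono hb hq ht' χ')
        (le_max_right _ _)
    have hgg : g * g = g * f := by
      ext χ'
      change max (f χ') 0 * max (f χ') 0 = max (f χ') 0 * f χ'
      rcases le_total (f χ') 0 with h | h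
      · simp [max_eq_right h]
      · rw [max_eq_left h]
    have h0 : C.nrm (C.op g) ^ 2 ≤ 0 := by
      rw [C.nrm_op_sq, hgg, hf, mul_sub, C.intA_sub]
      linarith
    have h1 : C.op g = 0 := C.hsep _ (C.op_mem_M g)
      (norm_eq_zero.1 ((pow_eq_zero_iff two_ne_zero).1 (le_antisymm h0 (sq_nonneg _))))
    have h2 : max (f χ) 0 = 0 := by
      have := congrArg (fun F : C(C.Spec, ℝ) => F χ)
        (C.op_inj (h1.trans (map_zero C.op).symm))
      exact this
    have h3 := max_eq_right_iff.1 h2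
    simp only [hf, ContinuousMap.sub_apply] at h3
    linarith
  · rw [C.intA_re hTA]
    exact (Complex.continuous_re.tendsto _).comp (tendsto_const_nhds.inner (hlim C.Ω))

/-- `S` is a part of the spectrum where `E (b* · b)` inside `q` is almost a point mass. -/
structure Good (b : K →L[ℂ] K) (q S : C(C.Spec, ℝ)) (k e : ℝ) : Prop where
  hb : b ∈ C.M
  hq : q * q = q
  hS : S * S = S
  hk : 0 < k
  he : 4 * e < k ^ 2
  big : ∀ χ, S χ = 1 → k ≤ C.nu b q χ
  small : ∀ t χ, S χ = 1 → C.excess b q t χ ≤ e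

/-- The point towards which a projection is concentrated. -/
def theta (b : K →L[ℂ] K) (q S p : C(C.Spec, ℝ)) : C(C.Spec, ℝ) :=
  S * C.cutAt ((2 : ℝ) • C.nu b (q * p) - C.nu b q) 0

/-- The approximate intertwiner of a partition. -/
def etaS (b : K →L[ℂ] K) (q S : C(C.Spec, ℝ)) (t : Part C) : K →L[ℂ] K :=
  ∑ j, C.op (q * t.c j) * b * C.op (C.theta b q S (t.c j))

variable {C} {S : C(C.Spec, ℝ)} {k e : ℝ}

theorem Good.theta_idem (h : C.Good b q S k e) (p : C(C.Spec, ℝ)) :
    C.theta b q S p * C.theta b q S p = C.theta b q S p :=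
  C.idem_mul h.hS (C.cutAt_idem _ _)

theorem theta_of_zero {p : C(C.Spec, ℝ)} {χ : C.Spec} (hχ : S χ = 0) :
    C.theta b q S p χ = 0 := by
  simp [theta, hχ]

theorem Good.val (h : C.Good b q S k e) {p : C(C.Spec, ℝ)} (hp : p * p = p) {χ : C.Spec}
    (hχ : S χ = 1) : (C.theta b q S p χ = 0 ∧ C.nu b (q * p) χ ≤ e / k) ∨
      (C.theta b q S p χ = 1 ∧ C.nu b q χ - C.nu b (q * p) χ ≤ e / k) := by
  set ν := C.nu b q χ with hν
  set a := C.nu b (q * p) χ with ha
  have hkν := h.big χ hχ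
  have ha0 : 0 ≤ a := C.nu_cell_nonneg h.hb h.hq hp χ
  have hsub : C.nu b (q * (1 - p)) χ = ν - a := by
    rw [hν, ha, eq_sub_iff_add_eq', ← ContinuousMap.add_apply, ← C.nu_add h.hb]
    congr 1
    ring_nf
  have hle : a ≤ ν := by linarith [C.nu_cell_nonneg h.hb h.hq (C.idem_one_sub hp) χ, hsub.ge]
  have hX := h.small (Part.pair p hp) χ hχ
  rw [C.excess_apply] at hX
  unfold Part.pair at hX
  rw [Part.sum_ofFintype (fun f => C.nu b (q * f) χ * C.nu b (q * f) χ), Fintype.sum_bool] at hX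
  simp only [if_true, Bool.false_eq_true, if_false, hsub, ← hν, ← ha] at hX
  have hth : C.theta b q S p χ = C.cutAt ((2 : ℝ) • C.nu b (q * p) - C.nu b q) 0 χ := by
    simp [theta, hχ]
  have hfv : ((2 : ℝ) • C.nu b (q * p) - C.nu b q) χ = 2 * a - ν := by simp [ha, hν]
  rw [hth]
  rcases idem_values (C.cutAt_idem ((2 : ℝ) • C.nu b (q * p) - C.nu b q) 0) χ with h0 | h1
  · refine Or.inl ⟨h0, ?_⟩
    have hf := C.le_of_cutAt_eq_zero h0
    rw [hfv] at hf
    rw [le_div_iff₀ h.hk]
    nlinarith [h.hk]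
  · refine Or.inr ⟨h1, ?_⟩
    have hf := C.le_of_cutAt_eq_one h1
    rw [hfv] at hf
    rw [le_div_iff₀ h.hk]
    nlinarith [h.hk]

theorem Good.four_mul (h : C.Good b q S k e) {χ : C.Spec} (hχ : S χ = 1) :
    4 * (e / k) < C.nu b q χ := by
  refine lt_of_lt_of_le ?_ (h.big χ hχ)
  rw [mul_div_assoc', div_lt_iff₀ h.hk]
  nlinarith [h.he]

theorem Good.unique (h : C.Good b q S k e) {p p' : C(C.Spec, ℝ)} (hp : p * p = p)
    (hp' : p' * p' = p') (hpp : p * p' = 0) {χ : C.Spec} (hχ : S χ = 1)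
    (h1 : C.theta b q S p χ = 1) (h2 : C.theta b q S p' χ = 1) : False := by
  rcases h.val hp hχ with ⟨a, -⟩ | ⟨-, u1⟩
  · rw [h1] at a; exact one_ne_zero a
  rcases h.val hp' hχ with ⟨a, -⟩ | ⟨-, u2⟩
  · rw [h2] at a; exact one_ne_zero a
  have hle := C.nu_cell_mono (q := q) h.hb h.hq (p := 1 - p) (p' := p') (C.idem_one_sub hp) hp' χ
  have e1 : (1 - p) * p' = p' := by rw [sub_mul, one_mul, hpp, sub_zero]
  have e2 : C.nu b (q * p) χ + C.nu b (q * (1 - p)) χ = C.nu b q χ := by
    rw [← ContinuousMap.add_apply, ← C.nu_add h.hb]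
    congr 1
    ring_nf
  rw [e1] at hle
  have := h.four_mul hχ
  linarith [C.nu_cell_nonneg (b := b) h.hb h.hq hp χ, C.nu_cell_nonneg (b := b) h.hb h.hq hp' χ]

theorem Good.zero_of_le (h : C.Good b q S k e) {p p' : C(C.Spec, ℝ)} (hp : p * p = p)
    (hp' : p' * p' = p') (hle : p * p' = p') {χ : C.Spec} (h0 : C.theta b q S p χ = 0) :
    C.theta b q S p' χ = 0 := by
  rcases idem_values h.hS χ with hχ | hχ
  · exact theta_of_zero hχ
  rcases h.val hp' hχ with ⟨a, -⟩ | ⟨-, u2⟩
  · exact a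
  rcases h.val hp hχ with ⟨-, u1⟩ | ⟨a, -⟩
  · exfalso
    have hm := C.nu_cell_mono (q := q) h.hb h.hq hp hp' χ
    rw [hle] at hm
    have := h.four_mul hχ
    linarith [C.nu_cell_nonneg (b := b) h.hb h.hq hp' χ]
  · rw [h0] at a; exact absurd a zero_ne_one

theorem Good.theta_mul_of_le (h : C.Good b q S k e) {p p' : C(C.Spec, ℝ)} (hp : p * p = p)
    (hp' : p' * p' = p') (hle : p * p' = p') :
    C.theta b q S p * C.theta b q S p' = C.theta b q S p' := by
  ext χ
  rw [ContinuousMap.mul_apply]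
  rcases idem_values (h.theta_idem p) χ with h0 | h1
  · rw [h0, h.zero_of_le hp hp' hle h0, mul_zero]
  · rw [h1, one_mul]

theorem Good.theta_mul_of_orth (h : C.Good b q S k e) {p p' : C(C.Spec, ℝ)} (hp : p * p = p)
    (hp' : p' * p' = p') (hpp : p * p' = 0) :
    C.theta b q S p * C.theta b q S p' = 0 := by
  ext χ
  rw [ContinuousMap.mul_apply, ContinuousMap.zero_apply]
  rcases idem_values (h.theta_idem p) χ with h0 | h1
  · rw [h0, zero_mul]
  rcases idem_values (h.theta_idem p') χ with h0' | h1'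
  · rw [h0', mul_zero]
  rcases idem_values h.hS χ with hχ | hχ
  · rw [theta_of_zero hχ, zero_mul]
  exact (h.unique hp hp' hpp hχ h1 h1').elim

theorem Good.theta_zero (h : C.Good b q S k e) : C.theta b q S 0 = 0 := by
  have h0 := h.theta_mul_of_orth (mul_zero 0) (mul_zero 0) (mul_zero 0)
  rwa [h.theta_idem] at h0

/-- The cell carrying the mass at a point of `S`. -/
theorem Good.exists_big (h : C.Good b q S k e) (t : Part C) {χ : C.Spec} (hχ : S χ = 1) :
    ∃ j0, C.theta b q S (t.c j0) χ = 1 ∧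
      ∀ j, j ≠ j0 → C.theta b q S (t.c j) χ = 0 ∧ C.nu b (q * t.c j) χ ≤ e / k := by
  by_cases hex : ∃ j0, C.theta b q S (t.c j0) χ = 1
  · obtain ⟨j0, hj0⟩ := hex
    refine ⟨j0, hj0, fun j hj => ?_⟩
    rcases h.val (t.idem j) hχ with hv | ⟨h1, -⟩
    · exact hv
    · exact (h.unique (t.idem j0) (t.idem j) (t.orth (Ne.symm hj)) hχ hj0 h1).elim
  · exfalso
    push Not at hex
    have hall : ∀ j, C.nu b (q * t.c j) χ ≤ e / k := fun j => by
      rcases h.val (t.idem j) hχ with ⟨-, hv⟩ | ⟨h1, -⟩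
      · exact hv
      · exact absurd h1 (hex j)
    have hX := h.small t χ hχ
    rw [C.excess_apply] at hX
    have hsum : ∑ j, C.nu b (q * t.c j) χ * C.nu b (q * t.c j) χ ≤ e / k * C.nu b q χ := by
      rw [← C.nu_split h.hb q t χ, Finset.mul_sum]
      exact Finset.sum_le_sum fun j _ => mul_le_mul_of_nonneg_right (hall j)
        (C.nu_cell_nonneg h.hb h.hq (t.idem j) χ)
    have h4 := h.four_mul hχ
    have hkν := h.big χ hχ
    have hek : e / k * k = e := by field_simp [h.hk.ne']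
    nlinarith [h.hk, h.he]

theorem Good.sum_theta (h : C.Good b q S k e) (t : Part C) :
    ∑ j, C.theta b q S (t.c j) = S := by
  ext χ
  rw [ContinuousMap.sum_apply]
  rcases idem_values h.hS χ with hχ | hχ
  · rw [hχ]
    exact Finset.sum_eq_zero fun j _ => theta_of_zero hχ
  · obtain ⟨j0, h1, h0⟩ := h.exists_big t hχ
    rw [hχ, Finset.sum_eq_single j0 (fun j _ hj => (h0 j hj).1)
      (fun hm => absurd (Finset.mem_univ j0) hm), h1]

theorem Good.etaS_mem (h : C.Good b q S k e) (t : Part C) : C.etaS b q S t ∈ C.M :=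
  sum_mem fun _ _ => mul_mem (mul_mem (C.op_mem_M _) h.hb) (C.op_mem_M _)

theorem Good.orth_cells (_h : C.Good b q S k e) (t : Part C) {i j : Fin t.n} (hij : i ≠ j) :
    q * t.c i * (q * t.c j) = 0 := by
  rw [mul_mul_mul_comm, t.orth hij, mul_zero]

theorem Good.etaS_norm (h : C.Good b q S k e) (t : Part C) (v : K) :
    ‖C.etaS b q S t v‖ ≤ ‖b‖ * ‖v‖ := by
  have e1 : C.etaS b q S t v =
      ∑ j, C.op (q * t.c j) (b (C.op (C.theta b q S (t.c j)) v)) := by
    rw [etaS, _root_.sum_apply]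
    rfl
  rw [← pow_le_pow_iff_left₀ (norm_nonneg _) (by positivity) two_ne_zero, e1,
    C.norm_sq_sum_orth _ fun i _ j _ hij => h.orth_cells t hij, mul_pow]
  refine le_trans ?_ (mul_le_mul_of_nonneg_left
    (C.sum_norm_sq_le _ (fun j _ => h.theta_idem (t.c j)) h.hS (h.sum_theta t) v) (sq_nonneg _))
  rw [Finset.mul_sum]
  refine Finset.sum_le_sum fun j _ => ?_
  rw [← mul_pow]
  refine pow_le_pow_left₀ (norm_nonneg _) ((C.norm_op_apply_le zero_le_one (fun χ => ?_) _).trans
    (by rw [one_mul]; exact b.le_opNorm _)) 2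
  have h0 := C.idem_nonneg (C.idem_mul h.hq (t.idem j)) χ
  rw [abs_of_nonneg h0]
  exact C.idem_le_one (C.idem_mul h.hq (t.idem j)) χ

/-- The mass captured by the approximate intertwiner. -/
def captured (C : Ctx K) (b : K →L[ℂ] K) (q S : C(C.Spec, ℝ)) (t : Part C) : ℝ :=
  C.intA (∑ i, C.theta b q S (t.c i) * C.nu b (q * t.c i))

theorem Good.etaS_dist (h : C.Good b q S k e) {t t' : Part C} (htt : t ≤ t') :
    ‖C.etaS b q S t C.Ω - C.etaS b q S t' C.Ω‖ ^ 2 ≤
      captured C b q S t - captured C b q S t' := by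
  set θ := fun i => C.theta b q S (t.c i) with hθ
  set θ' := fun i j => C.theta b q S (t.c i * t'.c j) with hθ'
  set d := fun i j => q * t.c i * t'.c j with hd
  have hle : ∀ i j, θ i * θ' i j = θ' i j := fun i j =>
    h.theta_mul_of_le (t.idem i) (C.idem_mul (t.idem i) (t'.idem j))
      (by rw [← mul_assoc, t.idem])
  have ediff : C.etaS b q S t - C.etaS b q S t' =
      ∑ ij : Fin t.n × Fin t'.n, C.op (d ij.1 ij.2) * b * C.op (θ ij.1 - θ' ij.1 ij.2) := by
    have e2 : C.etaS b q S t' = ∑ i, ∑ j, C.op (d i j) * b * C.op (θ' i j) := by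
      rw [etaS, C.sum_split (fun f => C.op (q * f) * b * C.op (C.theta b q S f))
        (by simp [h.theta_zero]) htt]
      simp only [hd, hθ', mul_assoc q]
    have e3 : C.etaS b q S t = ∑ i, ∑ j, C.op (d i j) * b * C.op (θ i) := by
      refine Finset.sum_congr rfl fun i _ => ?_
      rw [← Finset.sum_mul, ← Finset.sum_mul, ← map_sum, ← Finset.mul_sum, t'.sum_eq, mul_one]
    rw [e2, e3, ← Finset.sum_sub_distrib, Fintype.sum_prod_type]
    refine Finset.sum_congr rfl fun i _ => ?_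
    rw [← Finset.sum_sub_distrib]
    simp only [map_sub, mul_sub]
  have hnrm : ∀ f g : C(C.Spec, ℝ), f * f = f →
      C.nrm (C.op f * b * C.op g) ^ 2 = C.intA (g * g * C.nu b f) := by
    intro f g hf
    have hm := C.nu_mem h.hb f
    have hff : C.op f * C.op f = C.op f := by rw [← map_mul, hf]
    have eq : star (C.op f * b * C.op g) * (C.op f * b * C.op g) =
        C.op g * (star b * C.op f * b) * C.op g := by
      rw [star_mul, star_mul, (C.op_sa f).star_eq, (C.op_sa g).star_eq]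
      simp only [mul_assoc]
      rw [← mul_assoc (C.op f) (C.op f), hff]
    have hcalc : C.Er (C.op g * (star b * C.op f * b) * C.op g) = g * g * C.nu b f := by
      rw [C.Er_mul_op g (mul_mem (C.op_mem_M g) hm), C.Er_op_mul g hm, nu]
      ring
    have hsa : IsSelfAdjoint (C.op g * (star b * C.op f * b) * C.op g) := by
      rw [← eq]; exact IsSelfAdjoint.star_mul_self _
    rw [← hcalc, C.intA_Er (mul_mem (mul_mem (C.op_mem_M g) hm) (C.op_mem_M g)) hsa, ← eq,
      C.tr_star_mul_self, ← Complex.ofReal_pow, Complex.ofReal_re]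
  rw [← sub_apply, ediff, _root_.sum_apply]
  rw [show (∑ ij : Fin t.n × Fin t'.n,
      (C.op (d ij.1 ij.2) * b * C.op (θ ij.1 - θ' ij.1 ij.2)) C.Ω) = ∑ ij : Fin t.n × Fin t'.n,
      C.op (d ij.1 ij.2) (b (C.op (θ ij.1 - θ' ij.1 ij.2) C.Ω)) from rfl,
    C.norm_sq_sum_orth _ (fun x _ y _ hxy => by
      rcases ne_or_eq x.1 y.1 with h1 | h1
      · simp only [hd, mul_mul_mul_comm _ _ _ (t'.c y.2), h.orth_cells t h1, zero_mul]
      · have h2 : x.2 ≠ y.2 := fun e => hxy (Prod.ext h1 e)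
        simp only [hd, mul_mul_mul_comm _ _ _ (t'.c y.2), t'.orth h2, mul_zero])]
  have hidem : ∀ i j, d i j * d i j = d i j := fun i j =>
    C.idem_mul (C.idem_mul h.hq (t.idem i)) (t'.idem j)
  have hterm : ∀ ij : Fin t.n × Fin t'.n,
      ‖C.op (d ij.1 ij.2) (b (C.op (θ ij.1 - θ' ij.1 ij.2) C.Ω))‖ ^ 2 =
        C.intA (θ ij.1 * C.nu b (d ij.1 ij.2) - θ' ij.1 ij.2 * C.nu b (d ij.1 ij.2)) := by
    intro ij
    refine (hnrm _ _ (hidem ij.1 ij.2)).trans (congrArg _ ?_)
    have hsq : (θ ij.1 - θ' ij.1 ij.2) * (θ ij.1 - θ' ij.1 ij.2) = θ ij.1 - θ' ij.1 ij.2 := by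
      have e1 : θ ij.1 * θ ij.1 = θ ij.1 := h.theta_idem _
      have e2 : θ' ij.1 ij.2 * θ' ij.1 ij.2 = θ' ij.1 ij.2 := h.theta_idem _
      linear_combination e1 + e2 - 2 * hle ij.1 ij.2
    rw [hsq, sub_mul]
  rw [Finset.sum_congr rfl fun ij _ => hterm ij, ← C.intA_sum, captured, captured, ← C.intA_sub,
    C.sum_split (fun f => C.theta b q S f * C.nu b (q * f)) (by simp [C.nu_zero]) htt,
    ← Finset.sum_sub_distrib, Fintype.sum_prod_type]
  refine le_of_eq (congrArg _ (Finset.sum_congr rfl fun i _ => ?_))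
  rw [Finset.sum_sub_distrib]
  dsimp only
  rw [← Finset.mul_sum, ← C.nu_sum h.hb]
  simp only [hd, hθ, hθ', mul_assoc q]
  rw [← Finset.mul_sum, ← Finset.mul_sum, t'.sum_eq, mul_one]

/-- The intertwiner of a good part of the spectrum. -/
theorem Good.exists_eta (h : C.Good b q S k e) : ∃ η : K →L[ℂ] K,
    C.Inter η ∧ C.Inherit b η ∧ (∀ v, ‖η v‖ ≤ ‖b‖ * ‖v‖) ∧ C.op q * η = η ∧
      ∀ v, Tendsto (fun t => C.etaS b q S t v) atTop (𝓝 (η v)) := by
  obtain ⟨η, hM, hn, hlim⟩ := C.exists_strong_limit (x := C.etaS b q S) (s0 := Part.top C)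
    (β := ‖b‖) (G := captured C b q S) (fun t _ => h.etaS_mem t) (fun t _ => h.etaS_norm t)
    ⟨0, by
      rintro _ ⟨t, -, rfl⟩
      refine C.intA_nonneg fun χ => ?_
      rw [ContinuousMap.sum_apply]
      exact Finset.sum_nonneg fun i _ => mul_nonneg (C.idem_nonneg (h.theta_idem _) χ)
        (C.nu_cell_nonneg h.hb h.hq (t.idem i) χ)⟩
    (fun s t _ hst => h.etaS_dist hst)
  refine ⟨η, ⟨hM, fun p hp => ⟨C.theta b q S p, ?_⟩⟩, fun f g hfg => ?_, hn, ?_, hlim⟩
  · ext v
    refine tendsto_nhds_unique (((C.op p).continuous.tendsto _).comp (hlim v))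
      ((hlim (C.op (C.theta b q S p) v)).congr' ?_)
    filter_upwards [eventually_ge_atTop (Part.pair p hp)] with t ht
    have e : C.etaS b q S t * C.op (C.theta b q S p) = C.op p * C.etaS b q S t := by
      rw [etaS, Finset.sum_mul, Finset.mul_sum]
      refine Finset.sum_congr rfl fun j _ => ?_
      rw [mul_assoc _ (C.op _) (C.op _), ← map_mul, ← mul_assoc (C.op p), ← mul_assoc (C.op p),
        ← map_mul, mul_left_comm]
      rcases Part.resolve ht j with hj | hj
      · rw [hj, mul_comm (C.theta b q S (t.c j)), h.theta_mul_of_le hp (t.idem j) hj]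
      · rw [hj, mul_comm (C.theta b q S (t.c j)), h.theta_mul_of_orth hp (t.idem j) hj]
        simp
    exact congrArg (fun R : K →L[ℂ] K => R v) e
  · ext v
    refine tendsto_nhds_unique (hlim (C.op f v))
      (((C.op g).continuous.tendsto _).comp (hlim v) |>.congr fun t => ?_)
    have e : C.op g * C.etaS b q S t = C.etaS b q S t * C.op f := by
      rw [etaS, Finset.sum_mul, Finset.mul_sum]
      refine Finset.sum_congr rfl fun j _ => ?_
      rw [mul_assoc _ (C.op _) (C.op f), C.op_comm _ f, ← mul_assoc _ (C.op f),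
        mul_assoc (C.op (q * t.c j)) b (C.op f), hfg, ← mul_assoc (C.op g),
        ← mul_assoc (C.op g), ← mul_assoc (C.op (q * t.c j)), C.op_comm g]
    exact congrArg (fun R : K →L[ℂ] K => R v) e
  · ext v
    refine tendsto_nhds_unique (((C.op q).continuous.tendsto _).comp (hlim v))
      ((hlim v).congr fun t => ?_)
    have e : C.etaS b q S t = C.op q * C.etaS b q S t := by
      rw [etaS, Finset.mul_sum]
      refine Finset.sum_congr rfl fun j _ => ?_
      rw [← mul_assoc (C.op q), ← mul_assoc (C.op q), ← map_mul, ← mul_assoc, h.hq]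
    exact congrArg (fun R : K →L[ℂ] K => R v) e

/-- Only the concentrated piece matters on the good set. -/
theorem Good.sum_sqf_le (h : C.Good b q S k e) {y : K →L[ℂ] K} (hy : y ∈ C.M) (t : Part C)
    {χ : C.Spec} (hχ : S χ = 1) :
    ∑ j, C.sqf (C.E (y * C.op (q * t.c j) * b)) χ ≤
      e / k * C.nu (star y) q χ + C.sqf (C.E (y * C.etaS b q S t)) χ := by
  obtain ⟨j0, h1, h0⟩ := h.exists_big t hχ
  have hm : ∀ j, y * C.op (q * t.c j) * b ∈ C.M := fun j =>
    mul_mem (mul_mem hy (C.op_mem_M _)) h.hb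
  have efn : C.fn (C.E (y * C.etaS b q S t)) χ = C.fn (C.E (y * C.op (q * t.c j0) * b)) χ := by
    have e1 : y * C.etaS b q S t =
        ∑ j, y * C.op (q * t.c j) * b * C.op (C.theta b q S (t.c j)) := by
      rw [etaS, Finset.mul_sum]
      simp only [mul_assoc]
    rw [e1, C.E_sum _ fun j _ => mul_mem (hm j) (C.op_mem_M _), C.fn_sum _ fun j _ => C.E_mem _,
      ContinuousMap.sum_apply, Finset.sum_eq_single j0]
    · rw [C.E_mul_right (C.op_mem _) (hm j0), C.fn_mul (C.E_mem _) (C.op_mem _),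
        ContinuousMap.mul_apply, C.fn_op, h1, Complex.ofReal_one, mul_one]
    · intro j _ hj
      rw [C.E_mul_right (C.op_mem _) (hm j), C.fn_mul (C.E_mem _) (C.op_mem _),
        ContinuousMap.mul_apply, C.fn_op, (h0 j hj).1, Complex.ofReal_zero, mul_zero]
    · intro hmem; exact absurd (Finset.mem_univ j0) hmem
  have hy' := star_mem hy
  have hrest : ∑ j ∈ Finset.univ.erase j0, C.sqf (C.E (y * C.op (q * t.c j) * b)) χ ≤
      e / k * C.nu (star y) q χ := by
    rw [← C.nu_split hy' q t χ, Finset.mul_sum]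
    refine (Finset.sum_le_sum fun j hj => ?_).trans
      (Finset.sum_le_sum_of_subset_of_nonneg (Finset.erase_subset _ _) fun j _ _ => ?_)
    · refine (C.sqf_E_le hy h.hb (C.idem_mul h.hq (t.idem j)) χ).trans ?_
      rw [mul_comm]
      exact mul_le_mul_of_nonneg_right (h0 j (Finset.ne_of_mem_erase hj)).2
        (C.nu_cell_nonneg hy' h.hq (t.idem j) χ)
    · refine mul_nonneg ?_ (C.nu_cell_nonneg hy' h.hq (t.idem j) χ)
      rcases h.val (t.idem j0) hχ with ⟨-, hv⟩ | ⟨-, hv⟩
      · linarith [C.nu_cell_nonneg (b := b) h.hb h.hq (t.idem j0) χ]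
      · linarith [C.nu_idem_le h.hb h.hq χ, C.nu_split h.hb q t χ,
          Finset.single_le_sum (f := fun j => C.nu b (q * t.c j) χ)
            (fun j _ => C.nu_cell_nonneg h.hb h.hq (t.idem j) χ) (Finset.mem_univ j0)]
  rw [← Finset.add_sum_erase _ _ (Finset.mem_univ j0), C.sqf_apply (C.E (y * C.etaS b q S t)),
    efn, ← C.sqf_apply]
  linarith

variable (C)

/-- The diagonal sums of `f ↦ E (y f b)` are controlled by the intertwiners. -/
theorem eventually_nrm_E_le {y : K →L[ℂ] K} (hy : y ∈ C.M) (hb : b ∈ C.M)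
    (hN : ∀ w, C.Inter w → C.Inherit b w → w C.Ω ∈ C.N) {κ : ℝ}
    (hκ : ∀ v ∈ C.N, ‖⟪v, star y C.Ω⟫_ℂ‖ ≤ κ * ‖v‖) {ε : ℝ} (hε : 0 < ε) :
    ∀ᶠ t : Part C in atTop,
      ∑ j, C.nrm (C.E (y * C.op (t.c j) * b)) ^ 2 ≤ ‖b‖ ^ 2 * κ ^ 2 + ε := by
  have hy' := star_mem hy
  set Ym := C.intA (C.nu (star y) 1)
  have hYm : 0 ≤ Ym := C.intA_nonneg (C.nu_nonneg hy' fun _ => zero_le_one)
  set k := ε / (8 * (Ym + 1)) with hk
  have hk0 : 0 < k := by positivity
  set e := k ^ 2 / 8 with he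
  have he0 : 0 < e := by positivity
  have hek : e / k ≤ k := by
    rw [div_le_iff₀ hk0]; nlinarith
  set D := ‖y‖ ^ 2 * ‖b‖ ^ 2 / e with hD
  have hD0 : 0 ≤ D := by positivity
  set δ := ε / (4 * (D + 1)) with hδ
  have hδ0 : 0 < δ := by positivity
  have hδD : D * δ ≤ ε / 4 := by
    rw [hδ, ← mul_div_assoc, div_le_div_iff₀ (by positivity) (by norm_num)]
    nlinarith
  set Φ := fun t : Part C => C.intA (∑ j, C.nu b (t.c j) * C.nu b (t.c j))
  have hΦ : BddBelow (Set.range Φ) := ⟨0, by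
    rintro _ ⟨t, rfl⟩
    refine C.intA_nonneg fun χ => ?_
    rw [ContinuousMap.sum_apply]
    exact Finset.sum_nonneg fun _ _ => mul_self_nonneg _⟩
  obtain ⟨_, ⟨s, rfl⟩, hs⟩ := exists_lt_of_csInf_lt (Set.range_nonempty _)
    (lt_add_of_pos_right (sInf (Set.range Φ)) hδ0)
  choose L hL hLlim using fun i => C.exists_excess_limit (b := b) hb (s.idem i)
  have hLsum : ∑ i, C.intA (L i) ≤ δ := by
    refine le_of_tendsto (tendsto_finsetSum _ fun i _ => hLlim i) ?_
    filter_upwards [eventually_ge_atTop s] with t ht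
    have h1 : ∑ i, C.intA (C.excess b (s.c i) t) = Φ s - Φ t := by
      simp only [Φ]
      rw [← C.intA_sum, ← C.intA_sub, C.sum_split (fun f => C.nu b f * C.nu b f)
        (by simp [C.nu_zero]) ht, ← Finset.sum_sub_distrib]
      rfl
    linarith [csInf_le hΦ (Set.mem_range_self t)]
  set S := fun i => (1 - C.cutAt (L i) e) * C.cutAt (C.nu b (s.c i)) k with hS
  have hG : ∀ i, C.Good b (s.c i) (S i) k e := fun i =>
    { hb := hb
      hq := s.idem i
      hS := C.idem_mul (C.idem_one_sub (C.cutAt_idem _ _)) (C.cutAt_idem _ _)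
      hk := hk0
      he := by nlinarith
      big := fun χ h1 => by
        refine C.le_of_cutAt_eq_one ?_
        rcases idem_values (C.cutAt_idem (C.nu b (s.c i)) k) χ with h | h
        · simp [hS, h] at h1
        · exact h
      small := fun t χ h1 => by
        refine le_trans (hL i t χ) (C.le_of_cutAt_eq_zero ?_)
        rcases idem_values (C.cutAt_idem (L i) e) χ with h | h
        · exact h
        · simp [hS, h] at h1 }
  choose η hηI hηH hηn hηq hηlim using fun i => (hG i).exists_eta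
  set T := ∑ i, C.nrm (C.E (y * η i)) ^ 2 with hT
  have hTle : T ≤ ‖b‖ ^ 2 * κ ^ 2 := by
    set a := fun i => star (C.E (y * η i)) with ha
    have haA : ∀ i, a i ∈ C.A := fun i => star_mem (C.E_mem _)
    set w := ∑ i, η i * a i with hw
    have hwN : w C.Ω ∈ C.N := by
      rw [hw, _root_.sum_apply]
      refine Submodule.sum_mem _ fun i _ => hN _ ⟨mul_mem (hηI i).1 (C.hAM (haA i)),
        fun p hp => ?_⟩ fun f g hfg => ?_
      · obtain ⟨e', he'⟩ := (hηI i).2 p hp
        exact ⟨e', by rw [← mul_assoc, he', mul_assoc, C.A_comm (C.op_mem _) (haA i), ← mul_assoc]⟩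
      · rw [mul_assoc, C.A_comm (haA i) (C.op_mem _), ← mul_assoc, hηH i f g hfg, mul_assoc]
    have hip : ⟪w C.Ω, star y C.Ω⟫_ℂ = (T : ℂ) := by
      rw [C.inner_apply, hw, star_sum, Finset.sum_mul, C.tr_sum, hT, Complex.ofReal_sum]
      refine Finset.sum_congr rfl fun i _ => ?_
      have hm : y * η i ∈ C.M := mul_mem hy (hηI i).1
      rw [star_mul, mul_assoc, ← star_mul (y) (η i),
        ← C.tr_E (mul_mem (star_mem (C.hAM (haA i))) (star_mem hm)),
        C.E_mul_left (star_mem (haA i)) (star_mem hm), C.E_star hm, C.tr_star_mul_self]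
      simp only [ha]
      rw [C.nrm_star (C.E_mem_M _)]
      simp
    have hwn : ‖w C.Ω‖ ^ 2 ≤ ‖b‖ ^ 2 * T := by
      have hs1 : w C.Ω = ∑ i, C.op (s.c i) ((η i * a i) C.Ω) := by
        rw [hw, _root_.sum_apply]
        refine Finset.sum_congr rfl fun i _ => ?_
        conv_lhs => rw [← hηq i]
        rfl
      rw [hs1, C.norm_sq_sum_orth _ fun i _ j _ hij => s.orth hij, hT, Finset.mul_sum]
      refine Finset.sum_le_sum fun i _ => ?_
      rw [← mul_pow]
      refine pow_le_pow_left₀ (norm_nonneg _) ?_ 2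
      have e1 : C.op (s.c i) ((η i * a i) C.Ω) = η i (a i C.Ω) := by
        change (C.op (s.c i) * η i) (a i C.Ω) = _
        rw [hηq i]
      rw [e1]
      refine (hηn i _).trans_eq ?_
      rw [show ‖a i C.Ω‖ = C.nrm (a i) from rfl, ha, C.nrm_star (C.E_mem_M _)]
    have hT0 : 0 ≤ T := Finset.sum_nonneg fun i _ => sq_nonneg _
    have hb1 := hκ _ hwN
    rw [hip, Complex.norm_real, Real.norm_eq_abs, abs_of_nonneg hT0] at hb1
    rcases hT0.eq_or_lt with h0 | h0
    · rw [← h0]; positivity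
    · have : T ^ 2 ≤ κ ^ 2 * (‖b‖ ^ 2 * T) := by
        refine (pow_le_pow_left₀ hT0 hb1 2).trans ?_
        rw [mul_pow]
        exact mul_le_mul_of_nonneg_left hwn (sq_nonneg _)
      nlinarith
  have hlimT : Tendsto (fun t => ∑ i, C.nrm (C.E (y * C.etaS b (s.c i) (S i) t)) ^ 2) atTop
      (𝓝 T) := by
    refine tendsto_finsetSum _ fun i _ => Tendsto.pow ?_ 2
    simp only [nrm, C.E_apply_Ω (mul_mem hy (hηI i).1),
      C.E_apply_Ω (mul_mem hy ((hG i).etaS_mem _))]
    exact ((C.L.starProjection.continuous.comp y.continuous).norm.tendsto _).comp (hηlim i C.Ω)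
  filter_upwards [eventually_ge_atTop s,
    hlimT.eventually (eventually_le_nhds (lt_add_of_pos_right T (by positivity : (0:ℝ) < ε / 4)))]
    with t ht htT
  have hmain : ∀ i χ, ∑ j, C.sqf (C.E (y * C.op (s.c i * t.c j) * b)) χ ≤
      ((2 * k) • C.nu (star y) (s.c i)) χ + (D • L i) χ +
        C.sqf (C.E (y * C.etaS b (s.c i) (S i) t)) χ := by
    intro i χ
    have hY : 0 ≤ C.nu (star y) (s.c i) χ := C.nu_nonneg hy' (C.idem_nonneg (s.idem i)) χ
    have hL0 : 0 ≤ L i χ := le_trans (C.excess_bounds hb (s.idem i) t χ).1 (hL i t χ)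
    have hsq : 0 ≤ C.sqf (C.E (y * C.etaS b (s.c i) (S i) t)) χ := Complex.normSq_nonneg _
    simp only [ContinuousMap.smul_apply, smul_eq_mul]
    rcases idem_values (hG i).hS χ with h0 | h1
    · have hcrude : ∑ j, C.sqf (C.E (y * C.op (s.c i * t.c j) * b)) χ ≤
          C.nu (star y) (s.c i) χ * C.nu b (s.c i) χ := by
        rw [← C.nu_split hy' (s.c i) t χ, Finset.sum_mul]
        refine Finset.sum_le_sum fun j _ => ?_
        refine (C.sqf_E_le hy hb (C.idem_mul (s.idem i) (t.idem j)) χ).trans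
          (mul_le_mul_of_nonneg_left ?_ (C.nu_cell_nonneg hy' (s.idem i) (t.idem j) χ))
        rw [← C.nu_split hb (s.c i) t χ]
        exact Finset.single_le_sum (f := fun j => C.nu b (s.c i * t.c j) χ)
          (fun j _ => C.nu_cell_nonneg hb (s.idem i) (t.idem j) χ) (Finset.mem_univ j)
      have h0' : C.cutAt (L i) e χ = 1 ∨ C.cutAt (C.nu b (s.c i)) k χ = 0 := by
        simp only [hS, ContinuousMap.mul_apply, ContinuousMap.sub_apply, ContinuousMap.one_apply,
          mul_eq_zero, sub_eq_zero] at h0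
        exact h0.imp Eq.symm id
      rcases h0' with h2 | h2
      · have hLe := C.le_of_cutAt_eq_one h2
        have hc : C.nu (star y) (s.c i) χ * C.nu b (s.c i) χ ≤ D * L i χ := by
          have hy2 := C.nu_idem_le hy' (s.idem i) χ
          rw [norm_star] at hy2
          have hmul := mul_le_mul hy2 (C.nu_idem_le hb (s.idem i) χ)
            (C.nu_nonneg hb (C.idem_nonneg (s.idem i)) χ) (sq_nonneg _)
          have : D * e = ‖y‖ ^ 2 * ‖b‖ ^ 2 := by rw [hD]; field_simp
          nlinarith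
        nlinarith
      · have hνk := C.le_of_cutAt_eq_zero h2
        nlinarith [mul_le_mul_of_nonneg_left hνk hY, mul_nonneg hD0 hL0]
    · refine ((hG i).sum_sqf_le hy t h1).trans ?_
      nlinarith [mul_le_mul_of_nonneg_right hek hY, mul_nonneg hD0 hL0]
  have hint : ∀ i, ∑ j, C.nrm (C.E (y * C.op (s.c i * t.c j) * b)) ^ 2 ≤
      2 * k * C.intA (C.nu (star y) (s.c i)) + D * C.intA (L i) +
        C.nrm (C.E (y * C.etaS b (s.c i) (S i) t)) ^ 2 := by
    intro i
    rw [← C.intA_smul, ← C.intA_smul, ← C.intA_sqf (C.E_mem _), ← C.intA_add, ← C.intA_add,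
      Finset.sum_congr rfl fun j _ => (C.intA_sqf (C.E_mem _)).symm, ← C.intA_sum]
    refine C.intA_mono fun χ => ?_
    rw [ContinuousMap.sum_apply]
    exact hmain i χ
  rw [C.sum_split (fun f => C.nrm (C.E (y * C.op f * b)) ^ 2) (by simp [C.E_zero, nrm]) ht]
  refine (Finset.sum_le_sum fun i _ => hint i).trans ?_
  rw [Finset.sum_add_distrib, Finset.sum_add_distrib, ← Finset.mul_sum, ← Finset.mul_sum,
    ← C.intA_sum, ← C.nu_sum hy', s.sum_eq]
  have h2k : 2 * k * Ym ≤ ε / 4 := by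
    rw [hk, ← mul_div_assoc, div_mul_eq_mul_div, div_le_div_iff₀ (by positivity) (by norm_num)]
    nlinarith
  linarith [mul_le_mul_of_nonneg_left hLsum hD0]

end Ctx

end Vale.Agent.P078.Finite
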