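import Vale.Agent.P078.Finite.Ops

/-!
Auxiliary facts for the analysis of the maps `f ↦ E (y f b)`: the measures `f ↦ E (b* f b)`,
squared symbols, bounded nets that are Cauchy at the trace vector, and orthogonal sums.
-/

noncomputable section

open scoped InnerProductSpace
open Filter Topology

namespace Vale.Agent.P078.Finite

universe u

variable {K : Type u} [NormedAddCommGroup K] [InnerProductSpace ℂ K] [CompleteSpace K]

namespace Ctx

variable (C : Ctx K)

/-- The symbol of `E (b* f b)`. -/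
def nu (b : K →L[ℂ] K) (f : C(C.Spec, ℝ)) : C(C.Spec, ℝ) := C.Er (star b * C.op f * b)

theorem nu_mem {b : K →L[ℂ] K} (hb : b ∈ C.M) (f : C(C.Spec, ℝ)) :
    star b * C.op f * b ∈ C.M :=
  mul_mem (mul_mem (star_mem hb) (C.op_mem_M f)) hb

theorem nu_sa (b : K →L[ℂ] K) (f : C(C.Spec, ℝ)) : IsSelfAdjoint (star b * C.op f * b) := by
  rw [IsSelfAdjoint, star_mul, star_mul, star_star, (C.op_sa f).star_eq, mul_assoc]

theorem op_nu {b : K →L[ℂ] K} (hb : b ∈ C.M) (f : C(C.Spec, ℝ)) :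
    C.op (C.nu b f) = C.E (star b * C.op f * b) :=
  C.op_Er (C.nu_mem hb f) (C.nu_sa b f)

theorem nu_add {b : K →L[ℂ] K} (hb : b ∈ C.M) (f g : C(C.Spec, ℝ)) :
    C.nu b (f + g) = C.nu b f + C.nu b g := by
  rw [nu, nu, nu, ← C.Er_add (C.nu_mem hb f) (C.nu_mem hb g), map_add, mul_add, add_mul]

theorem nu_zero (b : K →L[ℂ] K) : C.nu b 0 = 0 := by
  rw [nu, map_zero, mul_zero, zero_mul, ← map_zero C.op, C.Er_op]

theorem nu_sum {b : K →L[ℂ] K} (hb : b ∈ C.M) {ι : Type*} (s : Finset ι)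
    (f : ι → C(C.Spec, ℝ)) : C.nu b (∑ i ∈ s, f i) = ∑ i ∈ s, C.nu b (f i) :=
  map_sum (AddMonoidHom.mk' (C.nu b) (C.nu_add hb)) f s

theorem nu_nonneg {b : K →L[ℂ] K} (hb : b ∈ C.M) {f : C(C.Spec, ℝ)} (hf : ∀ χ, 0 ≤ f χ)
    (χ : C.Spec) : 0 ≤ C.nu b f χ :=
  C.Er_nonneg (C.nu_mem hb f) (star_left_conjugate_nonneg (C.op_nonneg hf) b) χ

theorem nu_one_le {b : K →L[ℂ] K} (hb : b ∈ C.M) (χ : C.Spec) : C.nu b 1 χ ≤ ‖b‖ ^ 2 := by
  refine ((le_abs_self _).trans ((C.nu b 1).norm_coe_le_norm χ)).trans ?_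
  rw [← C.norm_op, C.op_nu hb, map_one, mul_one]
  refine (C.norm_E_le (mul_mem (star_mem hb) hb)).trans ((norm_mul_le _ _).trans_eq ?_)
  rw [norm_star, sq]

theorem idem_nonneg {p : C(C.Spec, ℝ)} (hp : p * p = p) (χ : C.Spec) : 0 ≤ p χ := by
  rcases idem_values hp χ with h | h <;> simp [h]

theorem idem_le_one {p : C(C.Spec, ℝ)} (hp : p * p = p) (χ : C.Spec) : p χ ≤ 1 := by
  rcases idem_values hp χ with h | h <;> simp [h]

theorem idem_mul {p q : C(C.Spec, ℝ)} (hp : p * p = p) (hq : q * q = q) :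
    p * q * (p * q) = p * q := by
  rw [mul_mul_mul_comm, hp, hq]

theorem idem_one_sub {p : C(C.Spec, ℝ)} (hp : p * p = p) : (1 - p) * (1 - p) = 1 - p := by
  simp [mul_sub, sub_mul, hp]

/-- The squared absolute symbol. -/
def sqf (X : K →L[ℂ] K) : C(C.Spec, ℝ) :=
  ⟨fun χ => Complex.normSq (C.fn X χ), Complex.continuous_normSq.comp (C.fn X).continuous⟩

theorem sqf_apply (X : K →L[ℂ] K) (χ : C.Spec) : C.sqf X χ = Complex.normSq (C.fn X χ) := rfl

theorem op_sqf {X : K →L[ℂ] K} (hX : X ∈ C.A) : C.op (C.sqf X) = star X * X := by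
  conv_rhs => rw [← C.opC_fn hX, ← C.opC_star, ← C.opC_mul]
  rw [C.op_eq]
  congr 1
  ext χ
  exact Complex.normSq_eq_conj_mul_self

theorem intA_sqf {X : K →L[ℂ] K} (hX : X ∈ C.A) : C.intA (C.sqf X) = C.nrm X ^ 2 := by
  rw [intA, C.op_sqf hX, C.tr_star_mul_self, ← Complex.ofReal_pow, Complex.ofReal_re]

theorem intA_re {X : K →L[ℂ] K} (hX : X ∈ C.A) : C.intA (C.re X) = (C.tr X).re := by
  have him : (C.tr (C.op (C.im X))).im = 0 := by
    have h := C.tr_star (C.op (C.im X))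
    rw [(C.op_sa _).star_eq] at h
    exact Complex.conj_eq_iff_im.1 h.symm
  conv_rhs => rw [C.decomp hX, C.tr_add, C.tr_smul]
  simp [intA, him]

/-- Cauchy–Schwarz for the expectation, localised at a projection of `A`. -/
theorem sqf_E_le {y b : K →L[ℂ] K} (hy : y ∈ C.M) (hb : b ∈ C.M) {d : C(C.Spec, ℝ)}
    (hd : d * d = d) (χ : C.Spec) :
    C.sqf (C.E (y * C.op d * b)) χ ≤ C.nu (star y) d χ * C.nu b d χ := by
  have h := C.normSq_fn_E_le (mul_mem (C.op_mem_M d) (star_mem hy))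
    (mul_mem (C.op_mem_M d) hb) χ
  have hdd : C.op d * C.op d = C.op d := by rw [← map_mul, hd]
  have e1 : star (C.op d * star y) * (C.op d * b) = y * C.op d * b := by
    rw [star_mul, star_star, (C.op_sa d).star_eq, mul_assoc, ← mul_assoc (C.op d), hdd, ← mul_assoc]
  have e2 : star (C.op d * star y) * (C.op d * star y) = star (star y) * C.op d * star y := by
    rw [star_mul, (C.op_sa d).star_eq, mul_assoc, ← mul_assoc (C.op d), hdd, ← mul_assoc]
  have e3 : star (C.op d * b) * (C.op d * b) = star b * C.op d * b := by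
    rw [star_mul, (C.op_sa d).star_eq, mul_assoc, ← mul_assoc (C.op d), hdd, ← mul_assoc]
  rw [e1, e2, e3] at h
  exact h

/-- Pythagoras for vectors in the ranges of orthogonal projections of `A`. -/
theorem norm_sq_sum_orth {ι : Type*} (s : Finset ι) {d : ι → C(C.Spec, ℝ)}
    (hd : ∀ i ∈ s, ∀ j ∈ s, i ≠ j → d i * d j = 0) (v : ι → K) :
    ‖∑ i ∈ s, C.op (d i) (v i)‖ ^ 2 = ∑ i ∈ s, ‖C.op (d i) (v i)‖ ^ 2 := by
  classical
  induction s using Finset.induction_on with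
  | empty => simp
  | @insert a s ha ih =>
    have h0 : ⟪C.op (d a) (v a), ∑ i ∈ s, C.op (d i) (v i)⟫_ℂ = 0 := by
      rw [inner_sum]
      refine Finset.sum_eq_zero fun i hi => ?_
      rw [← ContinuousLinearMap.adjoint_inner_right, ← ContinuousLinearMap.star_eq_adjoint,
        (C.op_sa _).star_eq]
      change ⟪v a, (C.op (d a) * C.op (d i)) (v i)⟫_ℂ = 0
      rw [← map_mul, hd a (Finset.mem_insert_self a s) i (Finset.mem_insert_of_mem hi)
        (fun e => ha (e ▸ hi)), map_zero]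
      simp
    rw [Finset.sum_insert ha, Finset.sum_insert ha, sq, sq,
      norm_add_sq_eq_norm_sq_add_norm_sq_of_inner_eq_zero _ _ h0, ← sq, ← sq,
      ih fun i hi j hj => hd i (Finset.mem_insert_of_mem hi) j (Finset.mem_insert_of_mem hj)]

/-- The squared norms of the images under projections with an idempotent sum. -/
theorem sum_norm_sq_le {ι : Type*} (s : Finset ι) {d : ι → C(C.Spec, ℝ)}
    (hd : ∀ i ∈ s, d i * d i = d i) {S : C(C.Spec, ℝ)} (hS : S * S = S)
    (hsum : ∑ i ∈ s, d i = S) (v : K) :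
    ∑ i ∈ s, ‖C.op (d i) v‖ ^ 2 ≤ ‖v‖ ^ 2 := by
  have h : ∀ e : C(C.Spec, ℝ), e * e = e →
      ‖C.op e v‖ ^ 2 = (⟪v, C.op e v⟫_ℂ).re := fun e he => by
    rw [← inner_self_eq_norm_sq (𝕜 := ℂ), ← ContinuousLinearMap.adjoint_inner_right,
      ← ContinuousLinearMap.star_eq_adjoint, (C.op_sa _).star_eq]
    change RCLike.re ⟪v, (C.op e * C.op e) v⟫_ℂ = _
    rw [← map_mul, he]
    rfl
  rw [Finset.sum_congr rfl fun i hi => h (d i) (hd i hi), ← Complex.re_sum, ← inner_sum,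
    ← _root_.sum_apply, ← map_sum, hsum, ← h S hS]
  refine pow_le_pow_left₀ (norm_nonneg _) (((C.op S).le_opNorm v).trans ?_) 2
  refine mul_le_of_le_one_left (norm_nonneg _) ?_
  rw [C.norm_op]
  exact (ContinuousMap.norm_le _ zero_le_one).2 fun χ => by
    rcases idem_values hS χ with e | e <;> simp [e]

/-- A bounded net in `M` which is Cauchy at the trace vector converges strongly. -/
theorem exists_strong_limit {x : Part C → K →L[ℂ] K} {s0 : Part C} {β : ℝ} {G : Part C → ℝ}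
    (hx : ∀ s, s0 ≤ s → x s ∈ C.M) (hβ : ∀ s, s0 ≤ s → ∀ v, ‖x s v‖ ≤ β * ‖v‖)
    (hG : BddBelow (G '' Set.Ici s0))
    (hd : ∀ s t, s0 ≤ s → s ≤ t → ‖x s C.Ω - x t C.Ω‖ ^ 2 ≤ G s - G t) :
    ∃ T ∈ C.M, (∀ v, ‖T v‖ ≤ β * ‖v‖) ∧
      ∀ v, Tendsto (fun s => x s v) atTop (𝓝 (T v)) := by
  have hcau : Cauchy (map (fun s => x s C.Ω) atTop) := by
    refine Metric.cauchy_iff.2 ⟨map_neBot, fun η hη => ?_⟩
    obtain ⟨_, ⟨s1, h1, rfl⟩, hs1⟩ := exists_lt_of_csInf_lt
      ((Set.nonempty_Ici (a := s0)).image G)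
      (lt_add_of_pos_right (sInf (G '' Set.Ici s0)) (pow_pos (half_pos hη) 2))
    refine ⟨(fun s => x s C.Ω) '' Set.Ici s1, image_mem_map (Ici_mem_atTop s1), ?_⟩
    have near : ∀ s, s1 ≤ s → dist (x s1 C.Ω) (x s C.Ω) < η / 2 := by
      intro s hs
      rw [dist_eq_norm, ← pow_lt_pow_iff_left₀ (norm_nonneg _) (half_pos hη).le two_ne_zero]
      have := csInf_le hG ⟨s, le_trans (Set.mem_Ici.1 h1) hs, rfl⟩
      linarith [hd s1 s h1 hs]
    rintro _ ⟨s, hs, rfl⟩ _ ⟨t, ht, rfl⟩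
    have := dist_triangle_left (x s C.Ω) (x t C.Ω) (x s1 C.Ω)
    linarith [near s hs, near t ht]
  obtain ⟨w0, hw0⟩ := CompleteSpace.complete hcau
  have hcomm : ∀ T ∈ C.comm, Tendsto (fun s => x s (T C.Ω)) atTop (𝓝 (T w0)) := by
    intro T hT
    refine ((T.continuous.tendsto w0).comp hw0).congr' ?_
    filter_upwards [eventually_ge_atTop s0] with s hs
    exact congrArg (fun S : K →L[ℂ] K => S C.Ω) (hT _ (hx s hs)).symm
  have hex : ∀ v, ∃ l, Tendsto (fun s => x s v) atTop (𝓝 l) := by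
    intro v
    refine cauchy_map_iff_exists_tendsto.1 (Metric.cauchy_iff.2 ⟨map_neBot, fun η hη => ?_⟩)
    obtain ⟨_, ⟨T, hT, rfl⟩, hdist⟩ := Metric.mem_closure_iff.1 (C.dense_comm v)
      (η / (4 * (|β| + 1))) (by positivity)
    have hclose : ∀ s, s0 ≤ s → dist (x s v) (x s (T C.Ω)) ≤ η / 4 := by
      intro s hs
      rw [dist_eq_norm, ← map_sub]
      refine (hβ s hs _).trans ?_
      rw [dist_eq_norm] at hdist
      calc β * ‖v - T C.Ω‖ ≤ (|β| + 1) * (η / (4 * (|β| + 1))) :=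
            mul_le_mul (by linarith [le_abs_self β]) hdist.le (norm_nonneg _) (by positivity)
        _ = η / 4 := by field_simp
    refine ⟨_, image_mem_map (((hcomm T hT).eventually (Metric.ball_mem_nhds _
      (by positivity : (0 : ℝ) < η / 4))).and (eventually_ge_atTop s0)), ?_⟩
    rintro _ ⟨s, ⟨hs, hs0⟩, rfl⟩ _ ⟨t, ⟨ht, ht0⟩, rfl⟩
    dsimp only
    have := dist_triangle4 (x s v) (x s (T C.Ω)) (T w0) (x t v)
    have := dist_triangle_left (T w0) (x t v) (x t (T C.Ω))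
    linarith [hclose s hs0, hclose t ht0, dist_comm (x t v) (x t (T C.Ω))]
  choose l hl using hex
  let T0 : K →ₗ[ℂ] K :=
    { toFun := l
      map_add' := fun v w => tendsto_nhds_unique (hl (v + w))
        (((hl v).add (hl w)).congr fun s => (map_add _ v w).symm)
      map_smul' := fun c v => tendsto_nhds_unique (hl (c • v))
        (((hl v).const_smul c).congr fun s => (map_smul _ c v).symm) }
  have hbd : ∀ v, ‖T0 v‖ ≤ β * ‖v‖ := fun v =>
    le_of_tendsto (hl v).norm ((eventually_ge_atTop s0).mono fun s hs => hβ s hs v)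
  refine ⟨T0.mkContinuous β hbd, C.mem_M_of_comm fun S hS => ?_, hbd, hl⟩
  ext v
  refine tendsto_nhds_unique (hl (S v)) (((S.continuous.tendsto _).comp (hl v)).congr' ?_)
  filter_upwards [eventually_ge_atTop s0] with s hs
  exact congrArg (fun R : K →L[ℂ] K => R v) (hS _ (hx s hs)).symm

theorem sum_split {α : Type*} [AddCommMonoid α] (f : C(C.Spec, ℝ) → α) (hf : f 0 = 0) {s t : Part C}
    (h : s ≤ t) : ∑ j, f (t.c j) = ∑ i, ∑ j, f (s.c i * t.c j) := by
  rw [Finset.sum_comm]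
  refine Finset.sum_congr rfl fun j _ => ?_
  obtain ⟨χ, hχ⟩ | hnone := Classical.em (∃ χ, t.c j χ = 1)
  · obtain ⟨i, hi⟩ := s.exists_one χ
    have hij : s.c i * t.c j = t.c j := (h i j).resolve_right fun e => by
      have := congrArg (fun F : C(C.Spec, ℝ) => F χ) e
      simp [hi, hχ] at this
    rw [Finset.sum_eq_single i, hij]
    · intro k _ hk
      rw [← hij, ← mul_assoc, s.orth hk, zero_mul, hf]
    · intro hmem; exact absurd (Finset.mem_univ i) hmem
  · have h0 : t.c j = 0 := ContinuousMap.ext fun χ =>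
      (t.values j χ).resolve_right fun h1 => hnone ⟨χ, h1⟩
    simp [h0, hf]

end Ctx

end Vale.Agent.P078.Finite
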