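import Vale.Agent.P078.Finite.Ops

/-!
Propositional instances for the operators on `L`, inherited from the operators on a general Hilbert
space; instance search does not find them through the submodule structures.
-/

noncomputable section

namespace Vale.Agent.P078.Finite

universe u

section general

variable {E : Type u} [NormedAddCommGroup E] [InnerProductSpace ℂ E] [CompleteSpace E]

theorem opIsScalarTower : IsScalarTower ℂ (E →L[ℂ] E) (E →L[ℂ] E) := inferInstance
theorem opSMulCommClass : SMulCommClass ℂ (E →L[ℂ] E) (E →L[ℂ] E) := inferInstance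
theorem opIsScalarTowerReal : IsScalarTower ℝ (E →L[ℂ] E) (E →L[ℂ] E) := inferInstance
theorem opSMulCommClassReal : SMulCommClass ℝ (E →L[ℂ] E) (E →L[ℂ] E) := inferInstance
theorem opStarModuleReal : StarModule ℝ (E →L[ℂ] E) := inferInstance
theorem opTopologicalRing : IsTopologicalRing (E →L[ℂ] E) := inferInstance
theorem opContinuousStar : ContinuousStar (E →L[ℂ] E) := inferInstance
theorem opOrderClosed : OrderClosedTopology (E →L[ℂ] E) := inferInstance
theorem opBoundedSMul : IsBoundedSMul ℂ (E →L[ℂ] E) := inferInstance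
theorem opNormSMulClass : NormSMulClass ℂ (E →L[ℂ] E) := inferInstance
theorem opBoundedSMulReal : IsBoundedSMul ℝ (E →L[ℂ] E) := inferInstance
theorem opNormSMulClassReal : NormSMulClass ℝ (E →L[ℂ] E) := inferInstance
theorem opCFC : ContinuousFunctionalCalculus ℝ (E →L[ℂ] E) IsSelfAdjoint := inferInstance
theorem opCFCComplex : ContinuousFunctionalCalculus ℂ (E →L[ℂ] E) IsStarNormal := inferInstance
theorem opICFC : IsometricContinuousFunctionalCalculus ℝ (E →L[ℂ] E) IsSelfAdjoint := inferInstance

end general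

variable {K : Type u} [NormedAddCommGroup K] [InnerProductSpace ℂ K] [CompleteSpace K]
  (C : Ctx K)

instance : IsScalarTower ℂ (C.L →L[ℂ] C.L) (C.L →L[ℂ] C.L) := opIsScalarTower
instance : SMulCommClass ℂ (C.L →L[ℂ] C.L) (C.L →L[ℂ] C.L) := opSMulCommClass
instance : IsScalarTower ℝ (C.L →L[ℂ] C.L) (C.L →L[ℂ] C.L) := opIsScalarTowerReal
instance : SMulCommClass ℝ (C.L →L[ℂ] C.L) (C.L →L[ℂ] C.L) := opSMulCommClassReal
instance : StarModule ℝ (C.L →L[ℂ] C.L) := opStarModuleReal
instance : IsTopologicalRing (C.L →L[ℂ] C.L) := opTopologicalRing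
instance : IsSemitopologicalSemiring (C.L →L[ℂ] C.L) :=
  (opTopologicalRing (E := C.L)).toIsTopologicalSemiring.toIsSemitopologicalSemiring
instance : ContinuousStar (C.L →L[ℂ] C.L) := opContinuousStar
instance : OrderClosedTopology (C.L →L[ℂ] C.L) := opOrderClosed
instance : IsBoundedSMul ℂ (C.L →L[ℂ] C.L) := opBoundedSMul
instance : NormSMulClass ℂ (C.L →L[ℂ] C.L) := opNormSMulClass
instance : IsBoundedSMul ℝ (C.L →L[ℂ] C.L) := opBoundedSMulReal
instance : NormSMulClass ℝ (C.L →L[ℂ] C.L) := opNormSMulClassReal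
instance : ContinuousFunctionalCalculus ℝ (C.L →L[ℂ] C.L) IsSelfAdjoint := opCFC
instance : ContinuousFunctionalCalculus ℂ (C.L →L[ℂ] C.L) IsStarNormal := opCFCComplex
instance : IsometricContinuousFunctionalCalculus ℝ (C.L →L[ℂ] C.L) IsSelfAdjoint := opICFC

end Vale.Agent.P078.Finite
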