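import Vale.Agent.P078.Finite.Expect

/-!
Operators on the closure of `A Ω`: the maps `f ↦ E (a f b)`, their diagonal sums along a partition,
and the class of operators generated by the normalising partial isometries.
-/

noncomputable section

open scoped InnerProductSpace
open Filter Topology

namespace Vale.Agent.P078.Finite

universe u

variable {K : Type u} [NormedAddCommGroup K] [InnerProductSpace ℂ K] [CompleteSpace K]

namespace Ctx

variable (C : Ctx K)

/-- Shortcut for instance search. -/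
instance instCStarL : CStarAlgebra (C.L →L[ℂ] C.L) := inferInstance

/-- An element of `A` as a vector of `L`. -/
def em : C.A →ₗ[ℂ] C.L where
  toFun a := ⟨(a : K →L[ℂ] K) C.Ω, C.apply_mem_L a.2⟩
  map_add' _ _ := rfl
  map_smul' _ _ := rfl

theorem em_coe (a : C.A) : (C.em a : K) = (a : K →L[ℂ] K) C.Ω := rfl

theorem norm_em (a : C.A) : ‖C.em a‖ = C.nrm a := rfl

theorem denseRange_em : DenseRange C.em := by
  intro v
  rw [closure_subtype]
  refine closure_mono ?_ v.2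
  intro w hw
  obtain ⟨a, ha, rfl⟩ := Submodule.mem_map.1 hw
  exact ⟨C.em ⟨a, ha⟩, Set.mem_range_self _, rfl⟩

/-- A real symbol as a vector of `L`. -/
def vec (f : C(C.Spec, ℝ)) : C.L := C.em ⟨C.op f, C.op_mem f⟩

theorem vec_coe (f : C(C.Spec, ℝ)) : (C.vec f : K) = C.op f C.Ω := rfl

theorem nrm_gam_le {a b : K →L[ℂ] K} (ha : a ∈ C.M) (hb : b ∈ C.M) (f : C.A) :
    C.nrm (C.E (a * f * b)) ≤ ‖a‖ * ‖b‖ * ‖C.em f‖ := by
  refine (C.nrm_E_le (mul_mem (mul_mem ha (C.hAM f.2)) hb)).trans ?_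
  refine (C.nrm_mul_le_right (mul_mem ha (C.hAM f.2)) hb).trans ?_
  refine (mul_le_mul_of_nonneg_right (C.nrm_mul_le_left _ _) (norm_nonneg b)).trans_eq ?_
  rw [C.norm_em]
  ring

/-- The linear map `f ↦ E (a f b) Ω` on `A`. -/
def gamLin (a b : K →L[ℂ] K) (ha : a ∈ C.M) (hb : b ∈ C.M) : C.A →ₗ[ℂ] C.L where
  toFun f := C.em ⟨C.E (a * f * b), C.E_mem _⟩
  map_add' f g := by
    rw [← map_add]
    congr 1
    refine Subtype.ext ?_
    change C.E (a * ((f : K →L[ℂ] K) + g) * b) = C.E (a * f * b) + C.E (a * g * b)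
    rw [mul_add, add_mul, C.E_add (mul_mem (mul_mem ha (C.hAM f.2)) hb)
      (mul_mem (mul_mem ha (C.hAM g.2)) hb)]
  map_smul' c f := by
    rw [← map_smul]
    congr 1
    refine Subtype.ext ?_
    change C.E (a * (c • (f : K →L[ℂ] K)) * b) = c • C.E (a * f * b)
    rw [mul_smul_comm, smul_mul_assoc, C.E_smul _ (mul_mem (mul_mem ha (C.hAM f.2)) hb)]

/-- The operator `f ↦ E (a f b)` on `L` (zero unless `a, b ∈ M`). -/
def gam (a b : K →L[ℂ] K) : C.L →L[ℂ] C.L :=
  open Classical in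
  if h : a ∈ C.M ∧ b ∈ C.M then (C.gamLin a b h.1 h.2).extendOfNorm C.em else 0

theorem gam_em {a b : K →L[ℂ] K} (ha : a ∈ C.M) (hb : b ∈ C.M) (f : C.A) :
    C.gam a b (C.em f) = C.em ⟨C.E (a * f * b), C.E_mem _⟩ := by
  rw [gam, dif_pos ⟨ha, hb⟩]
  exact LinearMap.extendOfNorm_eq C.denseRange_em ⟨‖a‖ * ‖b‖, C.nrm_gam_le ha hb⟩ f

theorem norm_gam_le {a b : K →L[ℂ] K} (ha : a ∈ C.M) (hb : b ∈ C.M) :
    ‖C.gam a b‖ ≤ ‖a‖ * ‖b‖ := by
  rw [gam, dif_pos ⟨ha, hb⟩]
  exact LinearMap.opNorm_extendOfNorm_le C.denseRange_em (by positivity) (C.nrm_gam_le ha hb)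

/-- The diagonal sum of an operator along a partition. -/
def trS (s : Part C) (X : C.L →L[ℂ] C.L) : ℂ := ∑ i, ⟪C.vec (s.c i), X (C.vec (s.c i))⟫_ℂ

/-- The squared diagonal Hilbert–Schmidt size along a partition. -/
def hs (s : Part C) (X : C.L →L[ℂ] C.L) : ℝ := ∑ i, ‖X (C.vec (s.c i))‖ ^ 2

/-- The normalising partial isometries. -/
def GN : Set (K →L[ℂ] K) :=
  {u | u ∈ C.M ∧ u * star u * u = u ∧ (∀ a ∈ C.A, u * a * star u ∈ C.A) ∧
    ∀ a ∈ C.A, star u * a * u ∈ C.A}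

/-- Conjugation by a normalising partial isometry. -/
def uop (u : K →L[ℂ] K) : C.L →L[ℂ] C.L := C.gam u (star u)

/-- The closed span of the normalising partial isometries applied to `Ω`. -/
def N : Submodule ℂ K :=
  (Submodule.span ℂ ((fun u : K →L[ℂ] K => u C.Ω) '' C.GN)).topologicalClosure

instance : CompleteSpace C.N := (Submodule.isClosed_topologicalClosure _).completeSpace_coe

end Ctx

end Vale.Agent.P078.Finite
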