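import Vale.Agent.P078.Finite.Bounds
import Vale.Agent.P078.Finite.Forms

/-!
The dominated second variation is a nonnegative operator.
-/

noncomputable section

namespace Vale.Agent.P078.Finite

universe u

variable {K : Type u} [NormedAddCommGroup K] [InnerProductSpace ℂ K] [CompleteSpace K]

namespace Ctx

variable (C : Ctx K)

theorem op_conj_eq (D v : C(C.Spec, ℝ)) (a b : K →L[ℂ] K) :
    C.op v * (C.op D * a * C.op D) * C.op v * b = C.op (D * v) * a * C.op (D * v) * b := by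
  rw [← mul_assoc (C.op v), ← mul_assoc (C.op v), ← map_mul, mul_assoc (C.op (v * D) * a),
    ← map_mul, mul_comm v D]

theorem re_tr_sandwich_weight {Z : K →L[ℂ] K} (hZ : Z ∈ C.M) (hs : IsSelfAdjoint Z)
    (u G : C(C.Spec, ℝ)) :
    (C.tr (C.op u * Z * C.op G * Z)).re = C.intA (G * C.Er (Z * C.op u * Z)) := by
  have hm : Z * C.op u * Z ∈ C.M := mul_mem (mul_mem hZ (C.op_mem_M u)) hZ
  rw [← C.re_tr_op_mul hm (isSelfAdjoint_ryr hs (C.op_sa u)) G,
    C.tr_comm (mul_mem (mul_mem (C.op_mem_M u) hZ) (C.op_mem_M G)) hZ]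
  rw [show Z * (C.op u * Z * C.op G) = (Z * C.op u * Z) * C.op G by simp only [mul_assoc],
    C.tr_comm hm (C.op_mem_M G)]

theorem re_tr_main {Z V : K →L[ℂ] K} (hZ : Z ∈ C.M) (hV : V ∈ C.M) (u X : C(C.Spec, ℝ)) :
    (C.tr (C.op X * (Z * C.op u * Z) * C.op X * V)).re =
      (C.tr (C.op u * Z * C.op X * V * C.op X * Z)).re := by
  rw [show C.op X * (Z * C.op u * Z) * C.op X * V = (C.op X * Z) * (C.op u * Z * C.op X * V) by
    simp only [mul_assoc],
    C.tr_comm (mul_mem (C.op_mem_M X) hZ)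
      (mul_mem (mul_mem (mul_mem (C.op_mem_M u) hZ) (C.op_mem_M X)) hV)]
  simp only [mul_assoc]

theorem re_tr_cross {Z : K →L[ℂ] K} (hZ : Z ∈ C.M) (Λ X : C(C.Spec, ℝ)) :
    (C.tr (C.op X * ((1 / 2 : ℝ) • (C.op Λ * Z + Z * C.op Λ)) * C.op X * Z)).re =
      (C.tr (C.op Λ * C.op X * Z * C.op X * Z)).re := by
  have e1 : C.op X * (C.op Λ * Z) * C.op X * Z = C.op Λ * C.op X * Z * C.op X * Z := by
    rw [← mul_assoc (C.op X), C.op_comm X Λ]
  have e2 : C.tr (C.op X * (Z * C.op Λ) * C.op X * Z) =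
      C.tr (C.op Λ * C.op X * Z * C.op X * Z) := by
    rw [show C.op X * (Z * C.op Λ) * C.op X * Z = (C.op X * Z) * (C.op Λ * C.op X * Z) by
      simp only [mul_assoc],
      C.tr_comm (mul_mem (C.op_mem_M X) hZ)
        (mul_mem (mul_mem (C.op_mem_M Λ) (C.op_mem_M X)) hZ)]
    simp only [mul_assoc]
  rw [mul_smul_comm, smul_mul_assoc, smul_mul_assoc, ← Complex.coe_smul, C.tr_smul,
    Complex.re_ofReal_mul, mul_add, add_mul, add_mul, C.tr_add, e1, e2, Complex.add_re]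
  ring

end Ctx

namespace St

variable {C : Ctx K} {P : Par} {s : St C P} {y0 : K →L[ℂ] K}

/-- The positive term added to the second variation. -/
def bForm (s : St C P) (i : Fin P.r) (X : C(C.Spec, ℝ)) : ℝ :=
  1 / (4 * P.z ^ 2) * ((C.tr (C.op (s.u i) * s.y i * C.op X * s.W 1 i * C.op X * s.y i)).re +
    (C.tr (C.op (s.u i) * s.y i * C.op X * s.W (-1) i * C.op X * s.y i)).re)

theorem Inv.bForm_nonneg (h : s.Inv y0) (i : Fin P.r) (X : C(C.Spec, ℝ)) : 0 ≤ s.bForm i X := by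
  refine mul_nonneg (one_div_nonneg.2 (mul_nonneg (by norm_num) (sq_nonneg _))) ?_
  have key : ∀ σ : ℝ, |σ| = 1 →
      0 ≤ (C.tr (C.op (s.u i) * s.y i * C.op X * s.W σ i * C.op X * s.y i)).re := by
    intro σ hσ
    have hp : 0 ≤ s.y i * (C.op X * s.W σ i * C.op X) * s.y i := by
      have h1 := star_left_conjugate_nonneg ((h.gap0 i).Zo_nonneg hσ) (C.op X * s.y i)
      rw [star_mul, (h.y_sa i).star_eq, (C.op_sa X).star_eq] at h1
      simpa only [W, mul_assoc] using h1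
    have hm : s.y i * (C.op X * s.W σ i * C.op X) * s.y i ∈ C.M :=
      mul_mem (mul_mem (h.y_mem i) (mul_mem (mul_mem (C.op_mem_M X) (h.W_mem σ i))
        (C.op_mem_M X))) (h.y_mem i)
    have := C.re_tr_op_mul hm (IsSelfAdjoint.of_nonneg hp) (s.u i)
    rw [show C.op (s.u i) * s.y i * C.op X * s.W σ i * C.op X * s.y i =
      C.op (s.u i) * (s.y i * (C.op X * s.W σ i * C.op X) * s.y i) by simp only [mul_assoc], this]
    exact C.intA_nonneg fun χ => mul_nonneg (h.u_nonneg i χ) (C.Er_nonneg hm hp χ)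
  exact add_nonneg (key 1 abs_one) (key (-1) (by norm_num))

theorem Inv.quad_lower (h : s.Inv y0) (i : Fin P.r) (v : C(C.Spec, ℝ)) :
    0 ≤ s.Q i (s.D i * v) + s.bForm i (s.D i * v) + 4 * C.intA (v * v) := by
  set g0 := sqC (s.R i) * s.dir i * v with hg0
  have hf : s.D i * v = g0 * sqC (s.R i) := by
    rw [hg0, D, show sqC (s.R i) * s.dir i * v * sqC (s.R i) =
      sqC (s.R i) * sqC (s.R i) * s.dir i * v by ring, h.sq_R]
  have hquad := C.neg_quadBound_le (h.y_mem i) (h.gap0 i) (β := 1) (u := s.u i) (Λ := s.Lam)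
    one_pos hf h.Lam_nonneg
    (fun χ => by
      rw [sqC_apply, Real.mul_self_sqrt (h.R_nonneg i χ)]
      exact h.Lam_R_le_u i χ)
  set G := g0 * g0 with hG
  have hz : (0 : ℝ) < P.z ^ 2 := pow_pos P.z_pos 2
  have hW : ∀ σ, C.intA (G * s.Wu σ i) =
      (C.tr (C.op (s.u i) * s.Z σ i * C.op G * s.Z σ i)).re := fun σ =>
    (C.re_tr_sandwich_weight (h.Z_mem σ i) (h.Z_sa σ i) (s.u i) G).symm
  have hE : ∀ σ, (C.tr (C.op (s.Lam * G) * s.W σ i)).re =
      C.intA (s.Lam * G * C.Er (s.W σ i)) := fun σ =>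
    C.re_tr_op_mul (h.W_mem σ i) (h.W_sa σ i) _
  have hl : (C.tr (C.op (s.Lam * G) * s.y i * C.op (s.R i) * s.y i)).re =
      P.z ^ 2 * C.intA (s.Lam * G * s.l i) := by
    rw [show C.op (s.Lam * G) * s.y i * C.op (s.R i) * s.y i =
      C.op (s.Lam * G) * (s.y i * C.op (s.R i) * s.y i) by simp only [mul_assoc],
      C.re_tr_op_mul (sandwich_mem (h.y_mem i) _) (sandwich_sa (h.y_sa i) _), l, mul_smul_comm,
      C.intA_smul, ← mul_assoc (P.z ^ 2), mul_inv_cancel₀ hz.ne', one_mul]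
  have hWy : (C.tr (C.op G * s.y i * C.op (s.u i) * s.y i)).re = P.z ^ 2 * C.intA (G * s.Wy i) := by
    rw [show C.op G * s.y i * C.op (s.u i) * s.y i =
      C.op G * (s.y i * C.op (s.u i) * s.y i) by simp only [mul_assoc],
      C.re_tr_op_mul (sandwich_mem (h.y_mem i) _) (sandwich_sa (h.y_sa i) _), Wy, mul_smul_comm,
      C.intA_smul, ← mul_assoc (P.z ^ 2), mul_inv_cancel₀ hz.ne', one_mul]
  -- pointwise budget
  set T : C(C.Spec, ℝ) := G * s.Wu 1 i + G * s.Wu (-1) i +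
    (5 / 4 : ℝ) • (s.Lam * G * C.Er (s.W 1 i) + s.Lam * G * C.Er (s.W (-1) i)) +
    (3 / 2 : ℝ) • (s.Lam * G * s.l i + G * s.Wy i) +
    (1 / 4 : ℝ) • (s.lam * ((s.D i * v) * (s.D i * v)))
  have hT : ∀ χ, T χ ≤ 4 * (v χ * v χ) := by
    intro χ
    have hGχ : G χ = s.R i χ * (s.dir i χ * s.dir i χ) * (v χ * v χ) := by
      simp only [hG, hg0, ContinuousMap.mul_apply, sqC_apply]
      rw [show √(s.R i χ) * s.dir i χ * v χ * (√(s.R i χ) * s.dir i χ * v χ) =
        √(s.R i χ) * √(s.R i χ) * (s.dir i χ * s.dir i χ) * (v χ * v χ) by ring,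
        Real.mul_self_sqrt (h.R_nonneg i χ)]
    have hd := h.dir_sq i χ
    rcases h.free_values i χ with hfr | hfr
    · have hd0 : s.dir i χ = 0 := by rw [dir_apply, hfr, zero_mul]
      simp only [T, ContinuousMap.add_apply, ContinuousMap.mul_apply, ContinuousMap.smul_apply,
        smul_eq_mul, hGχ, D_apply, hd0, mul_zero, zero_mul, add_zero]
      exact mul_nonneg (by norm_num) (mul_self_nonneg _)
    · have f := h.freeAt hfr
      have hb := h.free_budget f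
      rw [hfr] at hd
      have h1 := h.Wu_nonneg 1 i χ
      have h2 := h.Wu_nonneg (-1) i χ
      have h3 := h.Wy_nonneg i χ
      have h4 := mul_nonneg (h.Lam_nonneg χ) (h.e_nonneg i χ)
      have h5 := mul_nonneg (h.Lam_nonneg χ) (h.l_nonneg i χ)
      have hv := mul_self_nonneg (v χ)
      have e : T χ = s.R i χ * (s.dir i χ * s.dir i χ) * (v χ * v χ) *
          (s.Wu 1 i χ + s.Wu (-1) i χ + 5 / 4 * (s.Lam χ * s.e i χ) +
            3 / 2 * (s.Lam χ * s.l i χ + s.Wy i χ) + 1 / 4 * (s.lam χ * s.R i χ)) := by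
        simp only [T, e, ContinuousMap.add_apply, ContinuousMap.mul_apply,
          ContinuousMap.smul_apply, smul_eq_mul, hGχ, D_apply]
        ring
      have h6 : s.Wu 1 i χ + s.Wu (-1) i χ + 5 / 4 * (s.Lam χ * s.e i χ) +
          3 / 2 * (s.Lam χ * s.l i χ + s.Wy i χ) + 1 / 4 * (s.lam χ * s.R i χ) ≤ 4 * s.lam χ := by
        linarith [mul_le_mul_of_nonneg_left f.R_le (h.lam_nonneg χ), h.lam_nonneg χ,
          mul_add (s.Lam χ) (s.e i χ) (s.l i χ)]
      rw [e]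
      calc _ ≤ s.R i χ * (s.dir i χ * s.dir i χ) * (v χ * v χ) * (4 * s.lam χ) :=
            mul_le_mul_of_nonneg_left h6
              (mul_nonneg (mul_nonneg (h.R_nonneg i χ) (mul_self_nonneg _)) hv)
        _ = 4 * (v χ * v χ) * (s.dir i χ * s.dir i χ * (s.R i χ * s.lam χ)) := by ring
        _ = _ := by rw [hd, mul_one]
  have hTint : C.intA T ≤ 4 * C.intA (v * v) := by
    rw [← C.intA_smul]
    exact C.intA_mono hT
  simp only [T, C.intA_add, C.intA_smul] at hTint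
  have hneg : C.quadBound (s.u i) s.Lam (sqC (s.R i) * sqC (s.R i)) g0 (s.D i * v) (s.y i)
        (s.W 1 i) (s.Z 1 i) P.z 1 +
      C.quadBound (s.u i) s.Lam (sqC (s.R i) * sqC (s.R i)) g0 (s.D i * v) (s.y i)
        (s.W (-1) i) (s.Z (-1) i) P.z 1 +
      ((C.tr (C.op (s.Lam * G) * s.y i * C.op (sqC (s.R i) * sqC (s.R i)) * s.y i)).re +
        (C.tr (C.op G * s.y i * C.op (s.u i) * s.y i)).re) / (2 * P.z ^ 2) ≤
      C.intA (G * s.Wu 1 i) + C.intA (G * s.Wu (-1) i) +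
        5 / 4 * (C.intA (s.Lam * G * C.Er (s.W 1 i)) + C.intA (s.Lam * G * C.Er (s.W (-1) i))) +
        3 / 2 * (C.intA (s.Lam * G * s.l i) + C.intA (G * s.Wy i)) +
        s.bForm i (s.D i * v) := by
    rw [h.sq_R]
    have hdiv : ∀ p q : ℝ, (P.z ^ 2 * p + P.z ^ 2 * q) / (2 * P.z ^ 2) = (p + q) / 2 := fun p q => by
      rw [← mul_add, mul_comm (2 : ℝ), mul_div_mul_left _ _ hz.ne']
    simp only [Ctx.quadBound, bForm, ← hG, ← hW, hE, hl, hWy, hdiv, mul_one]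
    refine le_of_eq ?_
    ring
  have hQ : s.Q i (s.D i * v) = C.quadForm (s.u i) s.Lam (s.D i * v) (s.Z 1 i) +
      C.quadForm (s.u i) s.Lam (s.D i * v) (s.Z (-1) i) +
      (C.tr (C.op s.Lam * C.op (s.D i * v) * s.y i * C.op (s.D i * v) * s.y i)).re / P.z ^ 2 -
      1 / 4 * C.intA (s.lam * ((s.D i * v) * (s.D i * v))) := rfl
  simp only [W, Z, rt] at hneg hQ hTint
  linarith

theorem Inv.exists_Sop (h : s.Inv y0) (i : Fin P.r) :
    s.Sop i ∈ C.BB ∧ 0 ≤ s.Sop i ∧ ∃ Sf : C(C.Spec, ℝ) →L[ℝ] C(C.Spec, ℝ),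
      C.Lifts (s.Sop i) Sf ∧ ∀ v, C.intA (v * Sf v) =
        s.Q i (s.D i * v) + s.bForm i (s.D i * v) + 4 * C.intA (v * v) := by
  have mmain : ∀ {a}, a ∈ C.M → s.mainEl i a ∈ C.M := fun ha =>
    mul_mem (mul_mem (C.op_mem_M _) (mul_mem (mul_mem ha (C.op_mem_M _)) ha)) (C.op_mem_M _)
  have mcross : ∀ {a}, a ∈ C.M → s.crossEl i a ∈ C.M := fun ha =>
    mul_mem (mul_mem (C.op_mem_M _) (real_smul_mem (add_mem (mul_mem (C.op_mem_M _) ha)
      (mul_mem ha (C.op_mem_M _))) _)) (C.op_mem_M _)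
  have smain : ∀ {a}, IsSelfAdjoint a → IsSelfAdjoint (s.mainEl i a) := fun sa =>
    isSelfAdjoint_ryr (C.op_sa _) (isSelfAdjoint_ryr sa (C.op_sa _))
  have scross : ∀ {a}, IsSelfAdjoint a → IsSelfAdjoint (s.crossEl i a) := fun sa => by
    refine isSelfAdjoint_ryr (C.op_sa _) ?_
    rw [IsSelfAdjoint, star_smul, star_trivial, star_add, star_mul, star_mul, sa.star_eq,
      (C.op_sa _).star_eq, add_comm]
  have mZ := fun σ => h.Z_mem σ i
  have sZ := fun σ => h.Z_sa σ i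
  have my := h.y_mem i
  have sy := h.y_sa i
  have mW := fun σ => h.W_mem σ i
  have sW := fun σ => h.W_sa σ i
  obtain ⟨T1, l1', q1⟩ := C.exists_sym2_lift (mmain (mZ 1)) (mZ 1) (smain (sZ 1)) (sZ 1)
  obtain ⟨T2, l2', q2⟩ := C.exists_sym2_lift (mcross (mZ 1)) (mZ 1) (scross (sZ 1)) (sZ 1)
  obtain ⟨T3, l3', q3⟩ := C.exists_sym2_lift (mmain (mZ (-1))) (mZ (-1)) (smain (sZ (-1))) (sZ (-1))
  obtain ⟨T4, l4', q4⟩ := C.exists_sym2_lift (mcross (mZ (-1))) (mZ (-1)) (scross (sZ (-1))) (sZ (-1))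
  obtain ⟨T5, l5', q5⟩ := C.exists_sym2_lift (mcross my) my (scross sy) sy
  obtain ⟨T6, l6', q6⟩ := C.exists_sym2_lift (mmain my) (mW 1) (smain sy) (sW 1)
  obtain ⟨T7, l7', q7⟩ := C.exists_sym2_lift (mmain my) (mW (-1)) (smain sy) (sW (-1))
  set m := (1 / 4 : ℝ) • (s.lam * (s.D i * s.D i))
  set Sf := T1 + T2 + T3 + T4 + (P.z ^ 2)⁻¹ • T5 - C.mulMap m + (1 / (4 * P.z ^ 2)) • (T6 + T7) +
    (4 : ℝ) • 1
  have hL : C.Lifts (s.Sop i) Sf :=
    ((((((l1'.add l2').add l3').add l4').add (l5'.smul _)).sub (C.lifts_mulMap m)).add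
      ((l6'.add l7').smul _)).add (Ctx.Lifts.one.smul 4)
  have hsa : IsSelfAdjoint (s.Sop i) := by
    have g1 := fun σ => C.sym2_sa (mmain (mZ σ)) (mZ σ) (smain (sZ σ)) (sZ σ)
    have g2 := fun σ => C.sym2_sa (mcross (mZ σ)) (mZ σ) (scross (sZ σ)) (sZ σ)
    have g3 := C.sym2_sa (mcross my) my (scross sy) sy
    have g4 := fun σ => C.sym2_sa (mmain my) (mW σ) (smain sy) (sW σ)
    rw [IsSelfAdjoint, Sop]
    simp only [star_add, star_sub, star_smul, star_trivial ((P.z ^ 2)⁻¹),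
      star_trivial (1 / (4 * P.z ^ 2)), star_trivial (4 : ℝ), star_one, C.star_gam_op,
      (g1 1).star_eq, (g1 (-1)).star_eq, (g2 1).star_eq, (g2 (-1)).star_eq, g3.star_eq,
      (g4 1).star_eq, (g4 (-1)).star_eq]
  have hval : ∀ v, C.intA (v * Sf v) =
      s.Q i (s.D i * v) + s.bForm i (s.D i * v) + 4 * C.intA (v * v) := by
    intro v
    set X := s.D i * v
    have e1 : ∀ σ, (C.tr (C.op v * s.mainEl i (s.Z σ i) * C.op v * s.Z σ i)).re =
        (C.tr (C.op (s.u i) * s.Z σ i * C.op X * s.Z σ i * C.op X * s.Z σ i)).re := fun σ => by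
      rw [mainEl, C.op_conj_eq, C.re_tr_main (mZ σ) (mZ σ)]
    have e2 : ∀ {a}, a ∈ C.M → (C.tr (C.op v * s.crossEl i a * C.op v * a)).re =
        (C.tr (C.op s.Lam * C.op X * a * C.op X * a)).re := fun ha => by
      rw [crossEl, C.op_conj_eq, C.re_tr_cross ha]
    have e3 : ∀ σ, (C.tr (C.op v * s.mainEl i (s.y i) * C.op v * s.W σ i)).re =
        (C.tr (C.op (s.u i) * s.y i * C.op X * s.W σ i * C.op X * s.y i)).re := fun σ => by
      rw [mainEl, C.op_conj_eq, C.re_tr_main my (mW σ)]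
    have e4 : C.intA (v * (m * v)) = 1 / 4 * C.intA (s.lam * (X * X)) := by
      rw [← C.intA_smul]
      congr 1
      simp only [m, X, smul_mul_assoc, mul_smul_comm]
      congr 1
      ring
    have hlin : ∀ a b : C(C.Spec, ℝ), C.intA (v * (a - b)) = C.intA (v * a) - C.intA (v * b) := by
      intro a b
      rw [eq_sub_iff_add_eq, ← C.intA_add, ← mul_add, sub_add_cancel]
    simp only [Sf, add_apply, sub_apply, smul_apply, one_apply_eq_self, Ctx.mulMap_apply, mul_add,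
      mul_smul_comm, hlin, C.intA_add, C.intA_smul, q1, q2, q3, q4, q5, q6, q7, e1, e3, e4,
      e2 (mZ 1), e2 (mZ (-1)), e2 my]
    simp only [Q, bForm, Ctx.quadForm, X]
    ring
  refine ⟨?_, hL.nonneg hsa fun v => (hval v).symm ▸ h.quad_lower i v, Sf, hL, hval⟩
  rw [Sop, ← Complex.coe_smul, ← Complex.coe_smul, ← Complex.coe_smul]
  exact add_mem (add_mem (sub_mem (add_mem (add_mem (add_mem (add_mem
    (C.sym2_mem (mmain (mZ 1)) (mZ 1)) (C.sym2_mem (mcross (mZ 1)) (mZ 1)))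
    (C.sym2_mem (mmain (mZ (-1))) (mZ (-1)))) (C.sym2_mem (mcross (mZ (-1))) (mZ (-1))))
    (C.BB.smul_mem (C.sym2_mem (mcross my) my) _)) (C.gam_one_mem_BB (C.op_mem m)))
    (C.BB.smul_mem (add_mem (C.sym2_mem (mmain my) (mW 1)) (C.sym2_mem (mmain my) (mW (-1)))) _))
    (C.BB.smul_mem (one_mem _) _)

end St

end Vale.Agent.P078.Finite
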