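import Vale.Agent.P078.StepAlgebra
import Vale.Agent.P078.Finite.Calculus
import Vale.Agent.P078.Finite.Core

/-!
The algebraic lower bound for the second variation of one colour, inside a tracial inclusion.
-/

noncomputable section

namespace Vale.Agent.P078.Finite

universe u

variable {K : Type u} [NormedAddCommGroup K] [InnerProductSpace ℂ K] [CompleteSpace K]

namespace Ctx

variable (C : Ctx K)

/-- Real symbols as elements of `M`. -/
def opM : C(C.Spec, ℝ) →ₐ[ℝ] C.M where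
  toFun f := ⟨C.op f, C.op_mem_M f⟩
  map_one' := Subtype.ext (map_one C.op)
  map_mul' f g := Subtype.ext (map_mul C.op f g)
  map_zero' := Subtype.ext (map_zero C.op)
  map_add' f g := Subtype.ext (map_add C.op f g)
  commutes' r := Subtype.ext (AlgHom.commutes C.op r)

theorem coe_opM (f : C(C.Spec, ℝ)) : (C.opM f : K →L[ℂ] K) = C.op f := rfl

/-- The real part of the trace on `M`. -/
def tauM : C.M →ₗ[ℝ] ℝ where
  toFun x := (C.tr x).re
  map_add' x y := by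
    rw [show ((x + y : C.M) : K →L[ℂ] K) = x + y from rfl, C.tr_add, Complex.add_re]
  map_smul' t x := by
    rw [show ((t • x : C.M) : K →L[ℂ] K) = t • (x : K →L[ℂ] K) from rfl,
      ← Complex.coe_smul, C.tr_smul, Complex.re_ofReal_mul]
    rfl

theorem isRealTrace_tauM : IsRealTrace C.tauM where
  nonneg a := C.tr_nonneg (star_mul_self_nonneg (a : K →L[ℂ] K))
  comm a b := congrArg Complex.re (C.tr_comm a.2 b.2)
  star_eq a := by
    change (C.tr (star (a : K →L[ℂ] K))).re = (C.tr a).re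
    rw [C.tr_star, Complex.conj_re]

theorem star_opM (f : C(C.Spec, ℝ)) : star (C.opM f) = C.opM f := Subtype.ext (C.op_sa f).star_eq

/-- The second variation of one sign, at `Z`. -/
def quadForm (u Λ f : C(C.Spec, ℝ)) (Z : K →L[ℂ] K) : ℝ :=
  (C.tr (C.op u * Z * C.op f * Z * C.op f * Z)).re + (C.tr (C.op Λ * C.op f * Z * C.op f * Z)).re

/-- Its diagonal lower bound, at `Z = σ z⁻¹ y + W`. -/
def quadBound (u Λ R g f : C(C.Spec, ℝ)) (y W Z : K →L[ℂ] K) (z β : ℝ) : ℝ :=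
  (C.tr (C.op u * Z * C.op (g * g) * Z)).re + (1 / 4 + β) * (C.tr (C.op (Λ * (g * g)) * W)).re +
    ((C.tr (C.op (Λ * (g * g)) * y * C.op R * y)).re +
      (C.tr (C.op (g * g) * y * C.op u * y)).re) / (2 * z ^ 2) +
    (C.tr (C.op u * y * C.op f * W * C.op f * y)).re / (4 * β * z ^ 2)

/-- One colour: the two signs and the load form against their diagonal bounds. -/
theorem neg_quadBound_le {y : K →L[ℂ] K} (hy : y ∈ C.M) {z gam β : ℝ}
    {r g f u Λ : C(C.Spec, ℝ)} (h : Gap z gam (C.op r) y) (hβ : 0 < β) (hf : f = g * r)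
    (hΛ : ∀ χ, 0 ≤ Λ χ) (hu : ∀ χ, Λ χ * (r χ * r χ) ≤ u χ) :
    -(C.quadBound u Λ (r * r) g f y (Zo z 1 (C.op r) y) (Zf z 1 (C.op r) y) z β +
        C.quadBound u Λ (r * r) g f y (Zo z (-1) (C.op r) y) (Zf z (-1) (C.op r) y) z β +
        ((C.tr (C.op (Λ * (g * g)) * y * C.op (r * r) * y)).re +
          (C.tr (C.op (g * g) * y * C.op u * y)).re) / (2 * z ^ 2)) ≤
      C.quadForm u Λ f (Zf z 1 (C.op r) y) + C.quadForm u Λ f (Zf z (-1) (C.op r) y) +
        (C.tr (C.op Λ * C.op f * y * C.op f * y)).re / z ^ 2 := by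
  set B := C.op r * y * C.op r with hB
  have hBM : B ∈ C.M := mul_mem (mul_mem (C.op_mem_M r) hy) (C.op_mem_M r)
  -- square roots
  have hk : ∀ σ : ℝ, |σ| = 1 → ∃ k : C.M, star (k : K →L[ℂ] K) * k = Zo z σ (C.op r) y := by
    intro σ hσ
    set φ := fun t : ℝ => √(z⁻¹ * (z - σ * t)⁻¹) with hφ
    have hc : ContinuousOn φ (spectrum ℝ B) := (continuousOn_const.mul (h.contOn hσ)).sqrt
    refine ⟨⟨cfc φ B * C.op r * y, mul_mem (mul_mem (cfc_mem_closed C.isClosed_M φ hBM)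
      (C.op_mem_M r)) hy⟩, ?_⟩
    have e : cfc φ B * cfc φ B = z⁻¹ • res z σ B := by
      rw [← cfc_mul φ φ B hc hc, res, ← cfc_smul z⁻¹ (fun t => (z - σ * t)⁻¹) B (h.contOn hσ)]
      refine cfc_congr fun t ht => ?_
      exact Real.mul_self_sqrt (mul_nonneg (inv_nonneg.2 h.z_pos.le)
        (inv_nonneg.2 (h.pos.le.trans (h.gam_le hσ ht))))
    change star (cfc φ B * C.op r * y) * (cfc φ B * C.op r * y) = _
    rw [star_mul, star_mul, star_cfc, h.hr.star_eq, h.hy.star_eq,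
      show y * (C.op r * cfc φ B) * (cfc φ B * C.op r * y) =
        y * C.op r * (cfc φ B * cfc φ B) * C.op r * y by simp only [mul_assoc], e, Zo]
    simp only [mul_smul_comm, smul_mul_assoc, ← hB]
  have hm : ∀ σ : ℝ, |σ| = 1 →
      ∃ m : C.M, star (m : K →L[ℂ] K) * m = z • (1 : K →L[ℂ] K) + σ • B := by
    intro σ hσ
    set φ := fun t : ℝ => √(z - (-σ) * t) with hφ
    have hc : Continuous φ := by unfold φ; fun_prop
    refine ⟨⟨cfc φ B, cfc_mem_closed C.isClosed_M φ hBM⟩, ?_⟩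
    change star (cfc φ B) * cfc φ B = _
    rw [star_cfc, ← cfc_mul φ φ B hc.continuousOn hc.continuousOn,
      cfc_congr (g := fun t => z - (-σ) * t) fun t ht => Real.mul_self_sqrt
        (h.pos.le.trans (h.gam_le (by rwa [abs_neg]) ht)), hB, h.affine_eq, neg_smul,
      sub_neg_eq_add]
  obtain ⟨k₁, hk₁⟩ := hk 1 abs_one
  obtain ⟨k₂, hk₂⟩ := hk (-1) (by norm_num)
  obtain ⟨m₁, hm₁⟩ := hm 1 abs_one
  obtain ⟨m₂, hm₂⟩ := hm (-1) (by norm_num)
  set lr : C(C.Spec, ℝ) := ⟨fun χ => √(Λ χ), Λ.continuous.sqrt⟩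
  set v : C(C.Spec, ℝ) := ⟨fun χ => √(u χ - Λ χ * (r χ * r χ)),
    (u.continuous.sub (Λ.continuous.mul (r.continuous.mul r.continuous))).sqrt⟩
  have hlr : lr * lr = Λ := ContinuousMap.ext fun χ => Real.mul_self_sqrt (hΛ χ)
  have huv : u = Λ * (r * r) + v * v := ContinuousMap.ext fun χ => by
    change u χ = Λ χ * (r χ * r χ) + √(u χ - Λ χ * (r χ * r χ)) * √(u χ - Λ χ * (r χ * r χ))
    rw [Real.mul_self_sqrt (sub_nonneg.2 (hu χ))]
    ring
  set Y : C.M := ⟨y, hy⟩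
  set Z₁ : C.M := ⟨Zf z 1 (C.op r) y, Zf_mem C.isClosed_M (C.op_mem_M r) hy z 1⟩
  set Z₂ : C.M := ⟨Zf z (-1) (C.op r) y, Zf_mem C.isClosed_M (C.op_mem_M r) hy z (-1)⟩
  have hY : star Y = Y := Subtype.ext h.hy.star_eq
  have hZ₁ : Z₁ = (1 / z) • Y + star k₁ * k₁ := Subtype.ext <| by
    change Zf z 1 (C.op r) y = (1 / z) • y + star (k₁ : K →L[ℂ] K) * k₁
    rw [hk₁, Zf]
  have hZ₂ : Z₂ = ((-1) / z) • Y + star k₂ * k₂ := Subtype.ext <| by
    change Zf z (-1) (C.op r) y = ((-1) / z) • y + star (k₂ : K →L[ℂ] K) * k₂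
    rw [hk₂, Zf]
  have hm₁' : star m₁ * m₁ = z • (1 : C.M) + (1 : ℝ) • (C.opM r * Y * C.opM r) :=
    Subtype.ext hm₁
  have hm₂' : star m₂ * m₂ = z • (1 : C.M) + (-1 : ℝ) • (C.opM r * Y * C.opM r) :=
    Subtype.ext hm₂
  have key := neg_colourBound_le C.isRealTrace_tauM C.star_opM hY hlr huv hf h.z_pos hβ hZ₁ hZ₂
    hm₁' hm₂'
  have hw₁ : ((star k₁ * k₁ : C.M) : K →L[ℂ] K) = Zo z 1 (C.op r) y := hk₁
  have hw₂ : ((star k₂ * k₂ : C.M) : K →L[ℂ] K) = Zo z (-1) (C.op r) y := hk₂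
  simp only [quadBound, quadForm, ← hw₁, ← hw₂]
  exact key

end Ctx

end Vale.Agent.P078.Finite
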