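import Vale.Agent.P078.Finite.Bounds

/-!
Expansion of the potential along a multiplicative shift of the weights, to second order, with a
remainder that only depends on the gap, the floor and the size of the shift.
-/

noncomputable section

namespace Vale.Agent.P078.Finite

universe u

variable {K : Type u} [NormedAddCommGroup K] [InnerProductSpace ℂ K] [CompleteSpace K]

/-- The expansion of `(v + d)⁻¹` with a cubic remainder, for `d` at most half the floor. -/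
theorem inv_add_le {v d η : ℝ} (hη : 0 < η) (hv : η ≤ v) (hd : |d| ≤ η / 2) :
    (v + d)⁻¹ ≤ v⁻¹ - d * (v⁻¹ * v⁻¹) + d * d * (v⁻¹ * v⁻¹ * v⁻¹) + 2 * |d| ^ 3 / η ^ 4 := by
  have hv0 : 0 < v := hη.trans_le hv
  have hvd : η / 2 ≤ v + d := by linarith [(abs_le.1 hd).1]
  have hvd0 : 0 < v + d := (half_pos hη).trans_le hvd
  have e : (v + d)⁻¹ = v⁻¹ - d * (v⁻¹ * v⁻¹) + d * d * (v⁻¹ * v⁻¹ * v⁻¹) -
      d ^ 3 / (v ^ 3 * (v + d)) := by
    field_simp
    ring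
  have h : -(d ^ 3 / (v ^ 3 * (v + d))) ≤ 2 * |d| ^ 3 / η ^ 4 := by
    refine (neg_le_abs _).trans ?_
    rw [abs_div, abs_pow, abs_of_pos (mul_pos (pow_pos hv0 3) hvd0),
      div_le_div_iff₀ (mul_pos (pow_pos hv0 3) hvd0) (pow_pos hη 4)]
    have h1 : η ^ 3 * (η / 2) ≤ v ^ 3 * (v + d) :=
      mul_le_mul (pow_le_pow_left₀ hη.le hv 3) hvd (half_pos hη).le (pow_nonneg hv0.le 3)
    nlinarith [mul_le_mul_of_nonneg_left h1 (pow_nonneg (abs_nonneg d) 3)]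
  linarith

namespace Ctx

variable (C : Ctx K)

theorem intA_diff (f g : C(C.Spec, ℝ)) : C.intA (f - g) = C.intA f - C.intA g := by
  rw [eq_sub_iff_add_eq, ← C.intA_add, sub_add_cancel]

theorem conj_op_mem {Z : K →L[ℂ] K} (hZ : Z ∈ C.M) (f : C(C.Spec, ℝ)) :
    Z * C.op f * Z ∈ C.M :=
  mul_mem (mul_mem hZ (C.op_mem_M f)) hZ

theorem conj_op_sa {Z : K →L[ℂ] K} (hZ : IsSelfAdjoint Z) (f : C(C.Spec, ℝ)) :
    IsSelfAdjoint (Z * C.op f * Z) := by
  rw [IsSelfAdjoint]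
  simp only [star_mul, hZ.star_eq, (C.op_sa f).star_eq, mul_assoc]

/-- The integral of a symbol against an expectation. -/
theorem intA_mul_Er (f : C(C.Spec, ℝ)) {x : K →L[ℂ] K} (hx : x ∈ C.M) (h : IsSelfAdjoint x) :
    C.intA (f * C.Er x) = (C.tr (C.op f * x)).re := by
  rw [intA, map_mul, C.op_Er hx h, ← C.E_mul_left (C.op_mem f) hx,
    C.tr_E (mul_mem (C.op_mem_M f) hx)]

/-- Moving a weight across a sandwich. -/
theorem intA_conj_swap {Z : K →L[ℂ] K} (hZ : Z ∈ C.M) (hs : IsSelfAdjoint Z)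
    (f g : C(C.Spec, ℝ)) :
    C.intA (f * C.Er (Z * C.op g * Z)) = C.intA (g * C.Er (Z * C.op f * Z)) := by
  rw [C.intA_mul_Er f (C.conj_op_mem hZ g) (C.conj_op_sa hs g),
    C.intA_mul_Er g (C.conj_op_mem hZ f) (C.conj_op_sa hs f),
    show C.op f * (Z * C.op g * Z) = (C.op f * Z) * (C.op g * Z) by simp only [mul_assoc],
    C.tr_comm (mul_mem (C.op_mem_M f) hZ) (mul_mem (C.op_mem_M g) hZ)]
  simp only [mul_assoc]

/-- The expectation of a sandwich is monotone in the symbol. -/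
theorem Er_conj_abs_le {y : K →L[ℂ] K} (hy : y ∈ C.M) (hs : IsSelfAdjoint y) {X R : C(C.Spec, ℝ)}
    {b : ℝ} (h : ∀ χ, |X χ| ≤ b * R χ) (χ : C.Spec) :
    |C.Er (y * C.op X * y) χ| ≤ b * C.Er (y * C.op R * y) χ := by
  have mono : ∀ {f g : C(C.Spec, ℝ)}, (∀ χ, f χ ≤ g χ) →
      C.Er (y * C.op f * y) χ ≤ C.Er (y * C.op g * y) χ := fun {f g} hfg => by
    refine C.Er_mono (C.conj_op_mem hy f) (C.conj_op_mem hy g) ?_ χ
    have h1 := star_left_conjugate_le_conjugate (C.op_mono hfg) y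
    rwa [hs.star_eq] at h1
  have e : ∀ t : ℝ, C.Er (y * C.op (t • R) * y) χ = t * C.Er (y * C.op R * y) χ := fun t => by
    rw [map_smul, mul_smul_comm, smul_mul_assoc, C.Er_smul _ (C.conj_op_mem hy R)]
    rfl
  rw [abs_le]
  refine ⟨?_, ?_⟩
  · have := mono (f := (-b) • R) (g := X) fun χ' => by
      rw [ContinuousMap.smul_apply, smul_eq_mul, neg_mul]
      exact (abs_le.1 (h χ')).1
    rwa [e, neg_mul] at this
  · have := mono (f := X) (g := b • R) fun χ' => by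
      rw [ContinuousMap.smul_apply, smul_eq_mul]
      exact (abs_le.1 (h χ')).2
    rwa [e] at this

end Ctx

namespace St

variable {C : Ctx K} {P : Par} (s : St C P)

/-- The quadratic coefficient of the resolvent load. -/
def e2 (i : Fin P.r) (X : C(C.Spec, ℝ)) : C(C.Spec, ℝ) :=
  C.Er (s.Z 1 i * C.op X * s.Z 1 i * C.op X * s.Z 1 i) +
    C.Er (s.Z (-1) i * C.op X * s.Z (-1) i * C.op X * s.Z (-1) i)

/-- The quadratic coefficient of the surplus of one colour. -/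
def psi2 (i : Fin P.r) (X : C(C.Spec, ℝ)) : C(C.Spec, ℝ) :=
  (1 / 4 : ℝ) • (X * X) - (1000000 : ℝ) • (X * (s.e1 i X + s.l1 i X) + s.R i * s.e2 i X)

theorem shift_R (t : ℝ) (x : Fin P.r → C(C.Spec, ℝ)) (i : Fin P.r) (χ : C.Spec) :
    (s.shift t x).R i χ = s.R i χ + t * (s.R i χ * x i χ) := by
  change s.R i χ * (1 + t * x i χ) = _
  ring

variable {s} {y0 : K →L[ℂ] K} {gam : ℝ}

theorem Inv.colour_gap (h : s.Inv y0) (hg : 0 < gam) {i : Fin P.r} (hi : ‖s.B i‖ ≤ P.z - gam) :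
    Gap P.z gam (s.rt i) (s.y i) :=
  ⟨C.op_sa _, h.y_sa i, hg, by linarith [norm_nonneg (s.B i)], hi⟩

theorem Inv.rt_op_rt (h : s.Inv y0) (i : Fin P.r) (f : C(C.Spec, ℝ)) :
    s.rt i * C.op f * s.rt i = C.op (s.R i * f) := by
  rw [show s.rt i * C.op f = C.op f * s.rt i from C.op_comm _ _, mul_assoc, h.rt_mul_rt, ← map_mul,
    mul_comm f]

/-- A sandwich by `Z r` is controlled by the load. -/
theorem Inv.Er_conj_le (h : s.Inv y0) (hg : 0 < gam) {i : Fin P.r} (hi : ‖s.B i‖ ≤ P.z - gam)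
    {σ : ℝ} (hσ : |σ| = 1) {T : K →L[ℂ] K} (hT : IsSelfAdjoint T) (hTM : T ∈ C.M) {k : ℝ}
    (hk : ‖T‖ ≤ k) (χ : C.Spec) :
    |C.Er (s.Z σ i * s.rt i * T * s.rt i * s.Z σ i) χ| ≤
      k * (P.z / gam) * C.Er (s.W σ i) χ := by
  have g := h.colour_gap hg hi
  have hm : s.Z σ i * s.rt i * T * s.rt i * s.Z σ i ∈ C.M :=
    mul_mem (mul_mem (mul_mem (mul_mem (h.Z_mem σ i) (rt_mem i)) hTM) (rt_mem i)) (h.Z_mem σ i)
  have hWM : ∀ t : ℝ, t • s.W σ i ∈ C.M := fun t => real_smul_mem (h.W_mem σ i) t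
  have hW0 := C.Er_nonneg (h.W_mem σ i) (g.Zo_nonneg hσ) χ
  have e : ∀ t : ℝ, C.Er (t • s.W σ i) χ = t * C.Er (s.W σ i) χ := fun t => by
    rw [C.Er_smul _ (h.W_mem σ i)]; rfl
  obtain ⟨h1, h2⟩ := g.Zf_conj_le hσ hT
  rw [← neg_smul] at h1
  have hle : ‖T‖ * (P.z / gam) ≤ k * (P.z / gam) :=
    mul_le_mul_of_nonneg_right hk (div_nonneg P.z_pos.le hg.le)
  have a := C.Er_mono (hWM _) hm h1 χ
  have b := C.Er_mono hm (hWM _) h2 χ
  rw [e] at a b
  have := mul_le_mul_of_nonneg_right hle hW0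
  rw [neg_mul] at a
  exact abs_le.2 ⟨le_trans (neg_le_neg this) a, le_trans b this⟩

/-- The constants in front of the first, second and cubic coefficient of the load. -/
theorem Inv.load_bounds (h : s.Inv y0) (hg : 0 < gam) {i : Fin P.r}
    (hi : ‖s.B i‖ ≤ P.z - gam) {b : ℝ} (hb : 0 ≤ b) {x : C(C.Spec, ℝ)} (hx : ∀ χ, |x χ| ≤ b)
    (χ : C.Spec) :
    |s.e1 i (s.R i * x) χ| + |s.l1 i (s.R i * x) χ| ≤
        b * (P.z / gam + 1) * (s.e i χ + s.l i χ) ∧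
      |s.e2 i (s.R i * x) χ| ≤ 2 * b ^ 2 * (P.z / gam) ^ 2 * (s.e i χ + s.l i χ) := by
  have g := h.colour_gap hg hi
  have el := h.l_nonneg i χ
  have hnx : ‖C.op x‖ ≤ b := by
    rw [C.norm_op, ContinuousMap.norm_le _ hb]
    exact hx
  have ha : 0 ≤ P.z / gam := div_nonneg P.z_pos.le hg.le
  have hX : ∀ σ, s.Z σ i * C.op (s.R i * x) * s.Z σ i =
      s.Z σ i * s.rt i * C.op x * s.rt i * s.Z σ i := fun σ => by
    rw [← h.rt_op_rt]; simp only [mul_assoc]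
  have he1 : |s.e1 i (s.R i * x) χ| ≤ b * (P.z / gam) * s.e i χ := by
    rw [e1, e, ContinuousMap.add_apply, ContinuousMap.add_apply, hX, hX, mul_add]
    exact (abs_add_le _ _).trans
      (add_le_add (h.Er_conj_le hg hi abs_one (C.op_sa x) (C.op_mem_M x) hnx χ)
        (h.Er_conj_le hg hi (by norm_num) (C.op_sa x) (C.op_mem_M x) hnx χ))
  have hl1 : |s.l1 i (s.R i * x) χ| ≤ b * s.l i χ := by
    rw [l1, l, ContinuousMap.smul_apply, ContinuousMap.smul_apply, smul_eq_mul, smul_eq_mul,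
      abs_mul, abs_of_nonneg (inv_nonneg.2 (sq_nonneg P.z)), mul_left_comm b]
    refine mul_le_mul_of_nonneg_left (C.Er_conj_abs_le (h.y_mem i) (h.y_sa i) (fun χ' => ?_) χ)
      (inv_nonneg.2 (sq_nonneg _))
    rw [ContinuousMap.mul_apply, abs_mul, abs_of_nonneg (h.R_nonneg i χ'), mul_comm b]
    exact mul_le_mul_of_nonneg_left (hx χ') (h.R_nonneg i χ')
  refine ⟨?_, ?_⟩
  · have e' : s.e i χ = C.Er (s.W 1 i) χ + C.Er (s.W (-1) i) χ := rfl
    nlinarith [mul_nonneg hb el, mul_nonneg (mul_nonneg hb ha) el, mul_nonneg hb (h.e_nonneg i χ)]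
  · have hN : ∀ σ, |σ| = 1 → ‖C.op x * (s.rt i * s.Z σ i * s.rt i) * C.op x‖ ≤
        2 * b ^ 2 * (P.z / gam) := fun σ hσ => by
      have : ‖s.rt i * s.Z σ i * s.rt i‖ ≤ 2 * (P.z / gam) := g.norm_r_Zf_r_le hσ
      calc ‖C.op x * (s.rt i * s.Z σ i * s.rt i) * C.op x‖
          ≤ ‖C.op x‖ * ‖s.rt i * s.Z σ i * s.rt i‖ * ‖C.op x‖ :=
            (norm_mul_le _ _).trans (mul_le_mul_of_nonneg_right (norm_mul_le _ _) (norm_nonneg _))
        _ ≤ b * (2 * (P.z / gam)) * b := by gcongr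
        _ = 2 * b ^ 2 * (P.z / gam) := by ring
    have hX2 : ∀ σ, s.Z σ i * C.op (s.R i * x) * s.Z σ i * C.op (s.R i * x) * s.Z σ i =
        s.Z σ i * s.rt i * (C.op x * (s.rt i * s.Z σ i * s.rt i) * C.op x) * s.rt i * s.Z σ i :=
      fun σ => by rw [← h.rt_op_rt]; simp only [mul_assoc]
    have hT : ∀ σ, IsSelfAdjoint (C.op x * (s.rt i * s.Z σ i * s.rt i) * C.op x) := fun σ => by
      rw [IsSelfAdjoint]
      simp only [star_mul, (C.op_sa x).star_eq, (h.Z_sa σ i).star_eq, g.hr.star_eq, mul_assoc]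
    have hTM : ∀ σ, C.op x * (s.rt i * s.Z σ i * s.rt i) * C.op x ∈ C.M := fun σ =>
      mul_mem (mul_mem (C.op_mem_M x) (mul_mem (mul_mem (rt_mem i) (h.Z_mem σ i)) (rt_mem i)))
        (C.op_mem_M x)
    have h2 : |s.e2 i (s.R i * x) χ| ≤
        2 * b ^ 2 * (P.z / gam) * (P.z / gam) * s.e i χ := by
      rw [e2, e, ContinuousMap.add_apply, ContinuousMap.add_apply, hX2, hX2, mul_add]
      exact (abs_add_le _ _).trans
        (add_le_add (h.Er_conj_le hg hi abs_one (hT 1) (hTM 1) (hN 1 abs_one) χ)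
          (h.Er_conj_le hg hi (by norm_num) (hT _) (hTM _) (hN (-1) (by norm_num)) χ))
    refine h2.trans ?_
    nlinarith [mul_nonneg (mul_nonneg (sq_nonneg b) (mul_nonneg ha ha)) el]

/-- Expansion of the loads of one colour. -/
theorem Inv.load_expand (h : s.Inv y0) (hg : 0 < gam) {i : Fin P.r}
    (hi : ‖s.B i‖ ≤ P.z - gam) {b : ℝ} (hb : 0 ≤ b) {x : Fin P.r → C(C.Spec, ℝ)}
    (hx : ∀ χ, |x i χ| ≤ b) {t : ℝ} (ht : |t| * b * (2 * (P.z / gam)) ≤ 1 / 2) :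
    ‖(s.shift t x).B i‖ ≤ P.z - gam / 2 ∧ ∀ χ, ∃ ρ : ℝ,
      |ρ| ≤ 8 * (P.z / gam) ^ 3 * b ^ 3 * |t| ^ 3 * (s.e i χ + s.l i χ) ∧
      (s.shift t x).e i χ + (s.shift t x).l i χ = s.e i χ + s.l i χ +
        t * (s.e1 i (s.R i * x i) χ + s.l1 i (s.R i * x i) χ) +
        t ^ 2 * s.e2 i (s.R i * x i) χ + ρ := by
  have g := h.colour_gap hg hi
  have ha : 1 ≤ P.z / gam := (one_le_div hg).2 g.le
  have htb : |t| * b ≤ 1 / 2 := by
    nlinarith [mul_le_mul_of_nonneg_left ha (mul_nonneg (abs_nonneg t) hb),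
      mul_nonneg (abs_nonneg t) hb]
  have hpos : ∀ χ, 0 ≤ 1 + t * x i χ := fun χ => by
    have : |t * x i χ| ≤ 1 / 2 := by
      rw [abs_mul]
      exact (mul_le_mul_of_nonneg_left (hx χ) (abs_nonneg t)).trans htb
    linarith [(abs_le.1 this).1]
  set c := C.op (sqC (1 + t • x i)) with hc
  have hcc : c * c - 1 = t • C.op (x i) := by
    rw [hc, ← map_mul, show sqC (1 + t • x i) * sqC (1 + t • x i) = 1 + t • x i from
      ContinuousMap.ext fun χ => Real.mul_self_sqrt (hpos χ), map_add, map_one, map_smul,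
      add_sub_cancel_left]
  have hnx : ‖C.op (x i)‖ ≤ b := by
    rw [C.norm_op, ContinuousMap.norm_le _ hb]
    exact hx
  have hnc : ‖c * c - 1‖ ≤ |t| * b := by
    rw [hcc, norm_smul, Real.norm_eq_abs]
    exact mul_le_mul_of_nonneg_left hnx (abs_nonneg t)
  have hnc' : ‖c * c - 1‖ * (2 * (P.z / gam)) ≤ 1 / 2 :=
    (mul_le_mul_of_nonneg_right hnc (by linarith)).trans ht
  have hcom : Commute (s.rt i) c := C.op_comm _ _
  have hrt : (s.shift t x).rt i = s.rt i * c := by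
    rw [hc, rt, rt, ← map_mul]
    congr 1
    exact ContinuousMap.ext fun χ => Real.sqrt_mul (h.R_nonneg i χ) _
  obtain ⟨g', -⟩ := g.gap_perturb (C.op_sa _) hcom hnc'
  refine ⟨?_, fun χ => ?_⟩
  · rw [B, hrt]
    exact g'.norm_le
  set X := s.R i * x i with hX
  -- one sign
  have hone : ∀ σ, |σ| = 1 → ∃ ρ : ℝ,
      |ρ| ≤ 8 * (P.z / gam) ^ 3 * b ^ 3 * |t| ^ 3 * C.Er (s.W σ i) χ ∧
      C.Er ((s.shift t x).W σ i) χ = C.Er (s.W σ i) χ +
        t * C.Er (s.Z σ i * C.op X * s.Z σ i) χ +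
        t ^ 2 * C.Er (s.Z σ i * C.op X * s.Z σ i * C.op X * s.Z σ i) χ + ρ := by
    intro σ hσ
    obtain ⟨Q, hQs, hQn, hQe⟩ := g.perturb hσ (C.op_sa _) hcom hnc'
    have hZf := Zf_sub_Zo P.z σ (s.rt i) (s.rt i * c) (s.y i)
    change Zf P.z σ (s.rt i * c) (s.y i) = _ at hQe
    set Z := s.Z σ i with hZ
    change Zf P.z σ (s.rt i * c) (s.y i) =
      Z + Z * s.rt i * (c * c - 1) * s.rt i * Z +
        Z * s.rt i * ((c * c - 1) * (s.rt i * Z * s.rt i) * (c * c - 1)) * s.rt i * Z +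
        Z * s.rt i * Q * s.rt i * Z at hQe
    have hW' : (s.shift t x).W σ i = s.W σ i + t • (Z * C.op X * Z) +
        t ^ 2 • (Z * C.op X * Z * C.op X * Z) + Z * s.rt i * Q * s.rt i * Z := by
      have e1 : (s.shift t x).W σ i = Zf P.z σ (s.rt i * c) (s.y i) - (Z - s.W σ i) := by
        rw [hZ, W, W, St.Z, hrt, ← hZf]
        exact (sub_sub_cancel _ _).symm
      rw [e1, hQe, hcc, hX, ← h.rt_op_rt]
      simp only [mul_smul_comm, smul_mul_assoc, smul_smul, mul_assoc, sq]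
      abel
    have hQM : Z * s.rt i * Q * s.rt i * Z ∈ C.M := by
      have e : Z * s.rt i * Q * s.rt i * Z = (s.shift t x).W σ i - (s.W σ i +
          t • (Z * C.op X * Z) + t ^ 2 • (Z * C.op X * Z * C.op X * Z)) := by
        rw [hW']; abel
      rw [e]
      refine sub_mem ?_ (add_mem (add_mem (h.W_mem σ i) (real_smul_mem
        (C.conj_op_mem (h.Z_mem σ i) X) _)) (real_smul_mem (mul_mem (mul_mem
          (C.conj_op_mem (h.Z_mem σ i) X) (C.op_mem_M X)) (h.Z_mem σ i)) _))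
      exact Zo_mem C.isClosed_M (C.op_mem_M _) (h.y_mem i) _ _
    refine ⟨C.Er (Z * s.rt i * Q * s.rt i * Z) χ, ?_, ?_⟩
    · have hWM : ∀ t : ℝ, t • s.W σ i ∈ C.M := fun t => real_smul_mem (h.W_mem σ i) t
      obtain ⟨h1, h2⟩ := g.Zf_conj_le hσ hQs
      rw [← neg_smul] at h1
      have a := C.Er_mono (hWM _) hQM h1 χ
      have b' := C.Er_mono hQM (hWM _) h2 χ
      simp only [C.Er_smul _ (h.W_mem σ i), ContinuousMap.smul_apply, smul_eq_mul, neg_mul] at a b'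
      have hk : ‖Q‖ * (P.z / gam) ≤ 8 * (P.z / gam) ^ 3 * b ^ 3 * |t| ^ 3 := by
        have : ‖c * c - 1‖ ^ 3 ≤ (|t| * b) ^ 3 := pow_le_pow_left₀ (norm_nonneg _) hnc 3
        calc ‖Q‖ * (P.z / gam) ≤ 8 * (P.z / gam) ^ 2 * (|t| * b) ^ 3 * (P.z / gam) :=
              mul_le_mul_of_nonneg_right (hQn.trans (mul_le_mul_of_nonneg_left this (by positivity)))
                (by linarith)
          _ = _ := by ring
      have := mul_le_mul_of_nonneg_right hk (C.Er_nonneg (h.W_mem σ i) (g.Zo_nonneg hσ) χ)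
      exact abs_le.2 ⟨le_trans (neg_le_neg this) a, le_trans b' this⟩
    · rw [hW', C.Er_add (add_mem (add_mem (h.W_mem σ i) (real_smul_mem
        (C.conj_op_mem (h.Z_mem σ i) X) _)) (real_smul_mem (mul_mem (mul_mem
          (C.conj_op_mem (h.Z_mem σ i) X) (C.op_mem_M X)) (h.Z_mem σ i)) _)) hQM,
        C.Er_add (add_mem (h.W_mem σ i) (real_smul_mem (C.conj_op_mem (h.Z_mem σ i) X) _))
          (real_smul_mem (mul_mem (mul_mem (C.conj_op_mem (h.Z_mem σ i) X) (C.op_mem_M X))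
            (h.Z_mem σ i)) _),
        C.Er_add (h.W_mem σ i) (real_smul_mem (C.conj_op_mem (h.Z_mem σ i) X) _),
        C.Er_smul _ (C.conj_op_mem (h.Z_mem σ i) X),
        C.Er_smul _ (mul_mem (mul_mem (C.conj_op_mem (h.Z_mem σ i) X) (C.op_mem_M X))
          (h.Z_mem σ i))]
      rfl
  obtain ⟨ρ₁, hρ₁, he₁⟩ := hone 1 abs_one
  obtain ⟨ρ₂, hρ₂, he₂⟩ := hone (-1) (by norm_num)
  refine ⟨ρ₁ + ρ₂, ?_, ?_⟩
  · refine (abs_add_le _ _).trans ((add_le_add hρ₁ hρ₂).trans ?_)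
    have := h.l_nonneg i χ
    have e' : s.e i χ = C.Er (s.W 1 i) χ + C.Er (s.W (-1) i) χ := rfl
    rw [e']
    have hk : 0 ≤ 8 * (P.z / gam) ^ 3 * b ^ 3 * |t| ^ 3 := by positivity
    nlinarith [mul_nonneg hk this]
  · have hl : (s.shift t x).l i χ = s.l i χ + t * s.l1 i X χ := by
      have e' : (s.shift t x).R i = s.R i + t • X := ContinuousMap.ext fun χ' => by
        rw [shift_R]; rfl
      change ((P.z ^ 2)⁻¹ • C.Er (s.y i * C.op ((s.shift t x).R i) * s.y i)) χ = _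
      rw [e', map_add, map_smul, mul_add, add_mul, mul_smul_comm, smul_mul_assoc,
        C.Er_add (C.conj_op_mem (h.y_mem i) _) (real_smul_mem (C.conj_op_mem (h.y_mem i) _) _),
        C.Er_smul _ (C.conj_op_mem (h.y_mem i) _)]
      simp only [l, l1, ContinuousMap.smul_apply, ContinuousMap.add_apply, smul_eq_mul]
      ring
    have he : (s.shift t x).e i χ =
        C.Er ((s.shift t x).W 1 i) χ + C.Er ((s.shift t x).W (-1) i) χ := rfl
    rw [he, hl, he₁, he₂]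
    simp only [e, e1, e2, ContinuousMap.add_apply]
    ring

/-- First variation of the weighted loads of one colour. -/
theorem Inv.intA_first (h : s.Inv y0) (i : Fin P.r) (X : C(C.Spec, ℝ)) :
    P.eps0 * C.intA (X * (s.e i + s.l i) + (1 + s.R i) * (s.e1 i X + s.l1 i X)) -
      C.intA (s.lam * s.psi1 i X) = C.intA (X * s.g i) := by
  rw [← C.intA_smul, ← C.intA_diff,
    show P.eps0 • (X * (s.e i + s.l i) + (1 + s.R i) * (s.e1 i X + s.l1 i X)) -
        s.lam * s.psi1 i X =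
      (s.u i * (s.e1 i X + s.l1 i X)) + (X * (s.Lam * (s.e i + s.l i) -
        s.lam * (1 - (1 / 4 : ℝ) • (1 - (2 : ℝ) • s.R i)))) by
      ext χ
      simp only [u, Lam, psi1, ContinuousMap.smul_apply, ContinuousMap.mul_apply,
        ContinuousMap.add_apply, ContinuousMap.sub_apply, ContinuousMap.one_apply, smul_eq_mul]
      ring,
    C.intA_add]
  have hu : C.intA (s.u i * (s.e1 i X + s.l1 i X)) =
      C.intA (X * (s.Wu 1 i + s.Wu (-1) i + s.Wy i)) := by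
    simp only [e1, l1, Wu, Wy, mul_add, C.intA_add, mul_smul_comm, C.intA_smul]
    rw [C.intA_conj_swap (h.Z_mem 1 i) (h.Z_sa 1 i) (s.u i) X,
      C.intA_conj_swap (h.Z_mem (-1) i) (h.Z_sa (-1) i) (s.u i) X,
      C.intA_conj_swap (h.y_mem i) (h.y_sa i) (s.u i) X]
  rw [hu, ← C.intA_add, ← mul_add, g]
  congr 2
  abel

/-- Second variation of the weighted loads of one colour. -/
theorem Inv.intA_second (h : s.Inv y0) (i : Fin P.r) (X : C(C.Spec, ℝ)) :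
    P.eps0 * C.intA (X * (s.e1 i X + s.l1 i X) + (1 + s.R i) * s.e2 i X) -
      C.intA (s.lam * s.psi2 i X) = s.Q i X := by
  rw [← C.intA_smul, ← C.intA_diff,
    show P.eps0 • (X * (s.e1 i X + s.l1 i X) + (1 + s.R i) * s.e2 i X) - s.lam * s.psi2 i X =
      (s.u i * s.e2 i X + s.Lam * X * (s.e1 i X + s.l1 i X)) -
        (1 / 4 : ℝ) • (s.lam * (X * X)) by
      ext χ
      simp only [u, Lam, psi2, ContinuousMap.smul_apply, ContinuousMap.mul_apply,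
        ContinuousMap.add_apply, ContinuousMap.sub_apply, ContinuousMap.one_apply, smul_eq_mul]
      ring,
    C.intA_diff, C.intA_smul]
  have hm : ∀ σ, s.Z σ i * C.op X * s.Z σ i * C.op X * s.Z σ i ∈ C.M := fun σ =>
    mul_mem (mul_mem (C.conj_op_mem (h.Z_mem σ i) X) (C.op_mem_M X)) (h.Z_mem σ i)
  have hs : ∀ σ, IsSelfAdjoint (s.Z σ i * C.op X * s.Z σ i * C.op X * s.Z σ i) := fun σ => by
    rw [IsSelfAdjoint]
    simp only [star_mul, (h.Z_sa σ i).star_eq, (C.op_sa X).star_eq, mul_assoc]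
  simp only [e1, e2, l1, mul_add, C.intA_add, mul_smul_comm, C.intA_smul]
  rw [C.intA_mul_Er _ (hm 1) (hs 1), C.intA_mul_Er _ (hm (-1)) (hs (-1)),
    C.intA_mul_Er _ (C.conj_op_mem (h.Z_mem 1 i) X) (C.conj_op_sa (h.Z_sa 1 i) X),
    C.intA_mul_Er _ (C.conj_op_mem (h.Z_mem (-1) i) X) (C.conj_op_sa (h.Z_sa (-1) i) X),
    C.intA_mul_Er _ (C.conj_op_mem (h.y_mem i) X) (C.conj_op_sa (h.y_sa i) X)]
  simp only [Q, Ctx.quadForm, map_mul, mul_assoc]
  ring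

/-- The bookkeeping for one colour of the expansion at a point. -/
theorem psi_step {R X G D E ρ t a b c1 c2 c3 M : ℝ} (hR0 : 0 ≤ R) (hR : R ≤ 1 / 2)
    (hX : |X| ≤ b * R) (hG : 0 ≤ G) (hM : R * G ≤ M) (hD : |D| ≤ c1 * G) (hE : |E| ≤ c2 * G)
    (hρ : |ρ| ≤ c3 * |t| ^ 3 * G) (htb : |t| * b ≤ 1 / 2) (hb : 0 ≤ b) (ha : 0 ≤ a)
    (h1 : 0 ≤ c1) (h2 : 0 ≤ c2) (h3 : 0 ≤ c3) :
    |X * (1 - 1 / 4 * (1 - 2 * R)) - a * (X * G + R * D)| ≤ b + a * ((b + c1) * M) ∧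
    |1 / 4 * (X * X) - a * (X * D + R * E)| ≤ b ^ 2 + a * ((b * c1 + c2) * M) ∧
    |-(a * (t ^ 3 * (X * E) + (R + t * X) * ρ))| ≤ a * ((b * c2 + 2 * c3) * M) * |t| ^ 3 := by
  have hXb : |X| ≤ b := hX.trans (mul_le_of_le_one_right hb (by linarith))
  have hXG : |X| * G ≤ b * M := by
    calc |X| * G ≤ b * R * G := mul_le_mul_of_nonneg_right hX hG
      _ = b * (R * G) := by ring
      _ ≤ b * M := mul_le_mul_of_nonneg_left hM hb
  have hRY : ∀ {c Y : ℝ}, 0 ≤ c → |Y| ≤ c * G → R * |Y| ≤ c * M := fun {c Y} hc hY =>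
    ((mul_le_mul_of_nonneg_left hY hR0).trans_eq (by ring)).trans
      (mul_le_mul_of_nonneg_left hM hc)
  have hXY : ∀ {c Y : ℝ}, 0 ≤ c → |Y| ≤ c * G → |X| * |Y| ≤ c * (b * M) := fun {c Y} hc hY =>
    ((mul_le_mul_of_nonneg_left hY (abs_nonneg X)).trans_eq (by ring)).trans
      (mul_le_mul_of_nonneg_left hXG hc)
  refine ⟨?_, ?_, ?_⟩
  · refine (abs_sub _ _).trans (add_le_add ?_ ?_)
    · rw [abs_mul]
      refine (mul_le_mul hXb (abs_le.2 ⟨by linarith, by linarith⟩ : _ ≤ (1 : ℝ)) (abs_nonneg _)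
        hb).trans_eq (mul_one b)
    · rw [abs_mul, abs_of_nonneg ha]
      refine mul_le_mul_of_nonneg_left ((abs_add_le _ _).trans ?_) ha
      rw [abs_mul, abs_mul, abs_of_nonneg hG, abs_of_nonneg hR0, add_mul]
      exact add_le_add hXG (hRY h1 hD)
  · refine (abs_sub _ _).trans (add_le_add ?_ ?_)
    · rw [abs_mul, abs_mul, abs_of_nonneg (by norm_num : (0 : ℝ) ≤ 1 / 4)]
      nlinarith [mul_le_mul hXb hXb (abs_nonneg X) hb]
    · rw [abs_mul, abs_of_nonneg ha]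
      refine mul_le_mul_of_nonneg_left ((abs_add_le _ _).trans ?_) ha
      rw [abs_mul, abs_mul, abs_of_nonneg hR0]
      exact (add_le_add (hXY h1 hD) (hRY h2 hE)).trans_eq (by ring)
  · rw [abs_neg, abs_mul, abs_of_nonneg ha, mul_assoc]
    refine mul_le_mul_of_nonneg_left ((abs_add_le _ _).trans ?_) ha
    have hRX : |R + t * X| ≤ 2 * R := by
      refine (abs_add_le _ _).trans ?_
      rw [abs_of_nonneg hR0, abs_mul]
      nlinarith [mul_le_mul_of_nonneg_left hX (abs_nonneg t), mul_le_mul_of_nonneg_right htb hR0]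
    rw [abs_mul, abs_mul, abs_mul, abs_pow]
    calc |t| ^ 3 * (|X| * |E|) + |R + t * X| * |ρ|
        ≤ |t| ^ 3 * (c2 * (b * M)) + 2 * R * (c3 * |t| ^ 3 * G) :=
          add_le_add (mul_le_mul_of_nonneg_left (hXY h2 hE) (pow_nonneg (abs_nonneg t) 3))
            (mul_le_mul hRX hρ (abs_nonneg _) (by linarith))
      _ = |t| ^ 3 * (c2 * (b * M)) + 2 * c3 * |t| ^ 3 * (R * G) := by ring
      _ ≤ |t| ^ 3 * (c2 * (b * M)) + 2 * c3 * |t| ^ 3 * M :=
          add_le_add le_rfl (mul_le_mul_of_nonneg_left hM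
            (mul_nonneg (by linarith) (pow_nonneg (abs_nonneg t) 3)))
      _ = (b * c2 + 2 * c3) * M * |t| ^ 3 := by ring

/-- Expansion of the surplus and of the weighted loads at a point. -/
theorem Inv.point_expand (h : s.Inv y0) (hg : 0 < gam) (hgap : ∀ i, ‖s.B i‖ ≤ P.z - gam)
    {b : ℝ} (hb : 1 ≤ b) {x : Fin P.r → C(C.Spec, ℝ)} (hx : ∀ i χ, |x i χ| ≤ b) {t : ℝ}
    (ht : |t| * b * (2 * (P.z / gam)) ≤ 1 / 2) (i : Fin P.r) (χ : C.Spec) :
    let X := s.R i * x i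
    let c1 := b * (P.z / gam + 1)
    let c2 := 2 * b ^ 2 * (P.z / gam) ^ 2
    let c3 := 8 * (P.z / gam) ^ 3 * b ^ 3
    (1 + (s.shift t x).R i χ) * ((s.shift t x).e i χ + (s.shift t x).l i χ) ≤
        (1 + s.R i χ) * (s.e i χ + s.l i χ) +
          t * (X * (s.e i + s.l i) + (1 + s.R i) * (s.e1 i X + s.l1 i X)) χ +
          t ^ 2 * (X * (s.e1 i X + s.l1 i X) + (1 + s.R i) * s.e2 i X) χ +
          (b * c2 + 2 * c3) * |t| ^ 3 * ((1 + s.R i χ) * (s.e i χ + s.l i χ)) ∧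
    (s.U χ = 1 → ∃ δ : ℝ, |δ| ≤ 1000000 * ((b * c2 + 2 * c3) * P.r) * |t| ^ 3 ∧
      (s.shift t x).psi i χ = s.psi i χ + t * s.psi1 i X χ + t ^ 2 * s.psi2 i X χ + δ ∧
      |s.psi1 i X χ| ≤ b + 1000000 * ((b + c1) * P.r) ∧
      |s.psi2 i X χ| ≤ b ^ 2 + 1000000 * ((b * c1 + c2) * P.r)) := by
  intro X c1 c2 c3
  have g := h.colour_gap hg (hgap i)
  have ha : 1 ≤ P.z / gam := (one_le_div hg).2 g.le
  have hb0 : 0 ≤ b := by linarith
  have htb : |t| * b ≤ 1 / 2 := by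
    nlinarith [mul_le_mul_of_nonneg_left ha (mul_nonneg (abs_nonneg t) hb0),
      mul_nonneg (abs_nonneg t) hb0]
  obtain ⟨ρ, hρ, hG'⟩ := (h.load_expand hg (hgap i) hb0 (hx i) ht).2 χ
  obtain ⟨hD, hE⟩ := h.load_bounds hg (hgap i) hb0 (hx i) χ
  have hR0 := h.R_nonneg i χ
  have hR := h.R_le i χ
  have hG : 0 ≤ s.e i χ + s.l i χ := by
    exact h.el_nonneg i χ
  have hX : |X χ| ≤ b * s.R i χ := by
    rw [ContinuousMap.mul_apply, abs_mul, abs_of_nonneg hR0, mul_comm b]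
    exact mul_le_mul_of_nonneg_left (hx i χ) hR0
  have hR' : (s.shift t x).R i χ = s.R i χ + t * X χ := shift_R s t x i χ
  have hDD : |s.e1 i X χ + s.l1 i X χ| ≤ c1 * (s.e i χ + s.l i χ) := (abs_add_le _ _).trans hD
  have hρ' : |ρ| ≤ c3 * |t| ^ 3 * (s.e i χ + s.l i χ) := hρ
  have hc1 : 0 ≤ c1 := mul_nonneg hb0 (by linarith)
  have hc2 : 0 ≤ c2 := by positivity
  have hc3 : 0 ≤ c3 := by
    have : 0 ≤ P.z / gam := by linarith
    positivity
  refine ⟨?_, fun hF => ?_⟩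
  · rw [hG', hR']
    simp only [ContinuousMap.mul_apply, ContinuousMap.add_apply, ContinuousMap.one_apply]
    have hXb : |X χ| ≤ b := hX.trans (mul_le_of_le_one_right hb0 (by linarith))
    have k1 : t ^ 3 * (X χ * s.e2 i X χ) ≤ |t| ^ 3 * (b * (c2 * (s.e i χ + s.l i χ))) := by
      refine (le_abs_self _).trans ?_
      rw [abs_mul, abs_mul, abs_pow]
      exact mul_le_mul_of_nonneg_left (mul_le_mul hXb hE (abs_nonneg _) hb0)
        (pow_nonneg (abs_nonneg t) 3)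
    have k2 : (1 + (s.R i χ + t * X χ)) * ρ ≤ 2 * (c3 * |t| ^ 3 * (s.e i χ + s.l i χ)) := by
      refine (le_abs_self _).trans ?_
      rw [abs_mul]
      refine mul_le_mul ?_ hρ' (abs_nonneg _) (by norm_num)
      have : |t * X χ| ≤ s.R i χ := by
        rw [abs_mul]
        refine (mul_le_mul_of_nonneg_left hX (abs_nonneg t)).trans ?_
        nlinarith [mul_le_mul_of_nonneg_right htb hR0]
      rw [abs_le] at this ⊢
      constructor <;> linarith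
    have k3 : (b * c2 + 2 * c3) * |t| ^ 3 * (s.e i χ + s.l i χ) ≤
        (b * c2 + 2 * c3) * |t| ^ 3 * ((1 + s.R i χ) * (s.e i χ + s.l i χ)) :=
      mul_le_mul_of_nonneg_left (le_mul_of_one_le_left hG (by linarith)) (by positivity)
    linarith
  · obtain ⟨b1, b2, b3⟩ := psi_step (a := 1000000) hR0 hR hX hG (M := (P.r : ℝ)) ((le_mul_of_one_le_left (mul_nonneg hR0 hG) (by norm_num : (1 : ℝ) ≤ 1000000)).trans
      ((h.R_el_le hF i).trans (half_le_self P.r_pos.le))) hDD hE hρ'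
      htb hb0 (by norm_num) hc1 hc2 hc3
    refine ⟨-(1000000 * (t ^ 3 * (X χ * s.e2 i X χ) + (s.R i χ + t * X χ) * ρ)), b3, ?_, ?_, ?_⟩
    · simp only [psi, psi1, psi2, ContinuousMap.smul_apply, ContinuousMap.mul_apply,
        ContinuousMap.add_apply, ContinuousMap.sub_apply, ContinuousMap.one_apply, smul_eq_mul,
        hG', hR']
      ring
    · refine le_of_eq_of_le ?_ b1
      simp only [psi1, ContinuousMap.smul_apply, ContinuousMap.mul_apply,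
        ContinuousMap.add_apply, ContinuousMap.sub_apply, ContinuousMap.one_apply, smul_eq_mul]
    · refine le_of_eq_of_le ?_ b2
      simp only [psi2, ContinuousMap.smul_apply, ContinuousMap.mul_apply,
        ContinuousMap.add_apply, ContinuousMap.sub_apply, smul_eq_mul]
      rfl

/-- The barrier at a point. -/
theorem barrier_step {v η t Q1 Q2 δ p1 p2 p3 : ℝ} (hη : 0 < η) (hv : η ≤ v) (ht : |t| ≤ 1)
    (ht' : |t| * (p1 + p2 + p3) ≤ η / 2) (hp2 : 0 ≤ p2) (hp3 : 0 ≤ p3) (h1 : |Q1| ≤ p1)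
    (h2 : |Q2| ≤ p2) (hδ : |δ| ≤ p3 * |t| ^ 3) :
    |t * Q1 + t ^ 2 * Q2 + δ| ≤ η / 2 ∧
      (v + (t * Q1 + t ^ 2 * Q2 + δ))⁻¹ ≤ v⁻¹ - t * (v⁻¹ * v⁻¹ * Q1) +
        t ^ 2 * (v⁻¹ * v⁻¹ * v⁻¹ * (Q1 * Q1) - v⁻¹ * v⁻¹ * Q2) +
        (p3 / η ^ 2 + (2 * p1 * (p2 + p3) + (p2 + p3) ^ 2) / η ^ 3 +
          2 * (p1 + p2 + p3) ^ 3 / η ^ 4) * |t| ^ 3 := by
  have ht0 : 0 ≤ |t| := abs_nonneg t
  have hp1 : 0 ≤ p1 := (abs_nonneg _).trans h1
  have htle : |t| ^ 2 ≤ |t| := pow_le_of_le_one ht0 ht two_ne_zero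
  have ht3 : |t| ^ 3 ≤ |t| ^ 2 := pow_le_pow_of_le_one ht0 ht (by norm_num)
  obtain ⟨R, hR⟩ : ∃ R, R = t ^ 2 * Q2 + δ := ⟨_, rfl⟩
  obtain ⟨d, hd⟩ : ∃ d, d = t * Q1 + R := ⟨_, rfl⟩
  have hR' : |R| ≤ |t| ^ 2 * (p2 + p3) := by
    rw [hR, mul_add]
    refine (abs_add_le _ _).trans (add_le_add ?_ (hδ.trans ?_))
    · rw [abs_mul, abs_pow]
      exact mul_le_mul_of_nonneg_left h2 (sq_nonneg _)
    · rw [mul_comm (|t| ^ 2)]
      exact mul_le_mul_of_nonneg_left ht3 hp3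
  have hdb : |d| ≤ |t| * (p1 + p2 + p3) := by
    rw [hd, add_assoc p1, mul_add |t| p1]
    refine (abs_add_le _ _).trans (add_le_add ?_ (hR'.trans ?_))
    · rw [abs_mul]
      exact mul_le_mul_of_nonneg_left h1 ht0
    · exact mul_le_mul_of_nonneg_right htle (add_nonneg hp2 hp3)
  rw [add_assoc (t * Q1), ← hR, ← hd]
  have hdη : |d| ≤ η / 2 := hdb.trans ht'
  refine ⟨hdη, ?_⟩
  have key := inv_add_le hη hv hdη
  set i := v⁻¹
  have hi : i ≤ 1 / η := by rw [one_div]; exact inv_anti₀ hη hv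
  have hi0 : 0 ≤ i := inv_nonneg.2 (hη.le.trans hv)
  have hi2 : i * i ≤ 1 / η ^ 2 := (mul_le_mul hi hi hi0 (by positivity)).trans_eq (by ring)
  have hi3 : i * i * i ≤ 1 / η ^ 3 :=
    (mul_le_mul hi2 hi hi0 (by positivity)).trans_eq (by ring)
  have k1 : -δ * (i * i) ≤ |t| ^ 3 * (p3 / η ^ 2) := by
    refine (le_abs_self _).trans ?_
    rw [abs_mul, abs_neg, abs_of_nonneg (mul_nonneg hi0 hi0)]
    exact (mul_le_mul hδ hi2 (mul_nonneg hi0 hi0) (by positivity)).trans_eq (by ring)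
  have k2 : (2 * (t * Q1) * R + R ^ 2) * (i * i * i) ≤
      |t| ^ 3 * ((2 * p1 * (p2 + p3) + (p2 + p3) ^ 2) / η ^ 3) := by
    refine (le_abs_self _).trans ?_
    rw [abs_mul, abs_of_nonneg (mul_nonneg (mul_nonneg hi0 hi0) hi0)]
    refine (mul_le_mul ?_ hi3 (mul_nonneg (mul_nonneg hi0 hi0) hi0) ?_).trans_eq
      (show |t| ^ 3 * (2 * p1 * (p2 + p3) + (p2 + p3) ^ 2) * (1 / η ^ 3) = _ by ring)
    · refine (abs_add_le _ _).trans ?_
      rw [abs_mul, abs_mul, abs_mul, abs_pow, abs_two, mul_add]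
      refine add_le_add ?_ ?_
      · calc 2 * (|t| * |Q1|) * |R| ≤ 2 * (|t| * p1) * (|t| ^ 2 * (p2 + p3)) :=
              mul_le_mul (by gcongr) hR' (abs_nonneg _) (by positivity)
          _ = |t| ^ 3 * (2 * p1 * (p2 + p3)) := by ring
      · calc |R| ^ 2 ≤ (|t| ^ 2 * (p2 + p3)) ^ 2 := pow_le_pow_left₀ (abs_nonneg _) hR' 2
          _ = |t| ^ 3 * |t| * (p2 + p3) ^ 2 := by ring
          _ ≤ |t| ^ 3 * 1 * (p2 + p3) ^ 2 := by gcongr
          _ = |t| ^ 3 * (p2 + p3) ^ 2 := by ring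
    · positivity
  have k3 : 2 * |d| ^ 3 / η ^ 4 ≤ |t| ^ 3 * (2 * (p1 + p2 + p3) ^ 3 / η ^ 4) := by
    calc 2 * |d| ^ 3 / η ^ 4 ≤ 2 * (|t| * (p1 + p2 + p3)) ^ 3 / η ^ 4 := by gcongr
      _ = _ := by ring
  subst hd hR
  linarith [key, k1, k2, k3]

theorem Inv.shift_inv (h : s.Inv y0) {x : Fin P.r → C(C.Spec, ℝ)} {t : ℝ}
    (hx : ∀ i χ, |t * x i χ| ≤ 1) (hUx : ∀ i, s.U * x i = x i)
    (hR : ∀ i χ, (s.shift t x).R i χ ≤ 1 / 2) (hgap : ∀ i, ‖(s.shift t x).B i‖ < P.z)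
    (hF : ∀ χ, s.U χ = 1 → 128 + P.η / 2 ≤ (s.shift t x).F χ) : (s.shift t x).Inv y0 := by
  refine ⟨h.U_idem, h.fin_idem, h.fit, fun i χ => ?_, hR, fun i χ hf => ?_, h.y_mem, h.y_sa,
    h.corr_mem, h.corr_nonneg, h.diff_le, hgap, hF⟩
  · change 0 ≤ s.R i χ * (1 + t * x i χ)
    exact mul_nonneg (h.R_nonneg i χ) (by linarith [(abs_le.1 (hx i χ)).1])
  · have hf' : s.fin i χ = 1 := hf
    have hU : s.U χ = 0 := by
      have h1 := h.fit χ
      have h2 : s.fin i χ ≤ ∑ j, s.fin j χ :=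
        Finset.single_le_sum (f := fun j => s.fin j χ) (fun j _ => by
          rcases idem_values (h.fin_idem j) χ with e | e <;> simp [e]) (Finset.mem_univ i)
      rcases idem_values h.U_idem χ with e | e
      · exact e
      · linarith
    have hx0 : x i χ = 0 := by
      have := congrArg (fun F : C(C.Spec, ℝ) => F χ) (hUx i)
      simpa [hU] using this.symm
    rw [shift_R, hx0, mul_zero, mul_zero, add_zero]
    exact h.fin_R i χ hf'

/-- The final arithmetic of the expansion. -/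
theorem final_step {e0 S S' T1 T2 L1 L2 W W' sq k Kw Kc N t : ℝ}
    (h1 : e0 * S' ≤ e0 * ((1 + Kc * k) * S + t * T1 + t ^ 2 * T2))
    (h2 : W' ≤ W - t * L1 + t ^ 2 * (sq - L2) + Kw * k * N) (hS : 0 ≤ e0 * S) (hW : 0 ≤ W)
    (hN : 0 ≤ N) (hk : 0 ≤ k) (hKw : 0 ≤ Kw) (hKc : 0 ≤ Kc) (_he : 0 ≤ e0) :
    e0 * S' + W' ≤ e0 * S + W + t * (e0 * T1 - L1) + t ^ 2 * (e0 * T2 - L2 + sq) +
      (Kw + Kc) * k * (e0 * S + W + N + 1) := by
  nlinarith [mul_nonneg (mul_nonneg hKw hk) (add_nonneg hS hW), mul_nonneg (mul_nonneg hKc hk) hW,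
    mul_nonneg (mul_nonneg hKc hk) hN, mul_nonneg (add_nonneg hKw hKc) hk]

variable (C P)

/-- Expansion of the potential, uniform in the state. -/
theorem taylor (hg : 0 < gam) (b : ℝ) :
    ∃ t0 > 0, ∃ C0 : ℝ, ∀ (s : St C P) (y0 : K →L[ℂ] K) (x : Fin P.r → C(C.Spec, ℝ)) (t : ℝ),
      s.Inv y0 → (∀ i, ‖s.B i‖ ≤ P.z - gam) → (∀ χ, s.U χ = 1 → 128 + P.η ≤ s.F χ) →
      (∀ i χ, |x i χ| ≤ b) → (∀ i, s.U * x i = x i) → |t| ≤ t0 →
      ((∀ i χ, (s.shift t x).R i χ ≤ 1 / 2) → (s.shift t x).Inv y0) ∧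
      (∀ i, ‖(s.shift t x).B i‖ ≤ P.z - gam / 2) ∧
      (s.shift t x).Phi ≤ s.Phi + t * s.L1 (fun i => s.R i * x i) +
        t ^ 2 * (∑ i, s.Q i (s.R i * x i) + s.sqTerm (fun i => s.R i * x i)) +
        C0 * |t| ^ 3 * (s.Phi + ‖C.Ω‖ ^ 2 + 1) := by
  obtain ⟨B, hBdef⟩ : ∃ B, B = max b 1 := ⟨_, rfl⟩
  have hB1 : 1 ≤ B := hBdef ▸ le_max_right b 1
  have hB0 : 0 < B := lt_of_lt_of_le one_pos hB1
  have ha0 : 0 < P.z / gam := div_pos P.z_pos hg
  obtain ⟨c1, hc1⟩ : ∃ c, c = B * (P.z / gam + 1) := ⟨_, rfl⟩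
  obtain ⟨c2, hc2⟩ : ∃ c, c = 2 * B ^ 2 * (P.z / gam) ^ 2 := ⟨_, rfl⟩
  obtain ⟨c3, hc3⟩ : ∃ c, c = 8 * (P.z / gam) ^ 3 * B ^ 3 := ⟨_, rfl⟩
  obtain ⟨p1, hp1⟩ : ∃ c, c = (P.r : ℝ) * (B + 1000000 * ((B + c1) * P.r)) := ⟨_, rfl⟩
  obtain ⟨p2, hp2⟩ : ∃ c, c = (P.r : ℝ) * (B ^ 2 + 1000000 * ((B * c1 + c2) * P.r)) := ⟨_, rfl⟩
  obtain ⟨p3, hp3⟩ : ∃ c, c = (P.r : ℝ) * (1000000 * ((B * c2 + 2 * c3) * P.r)) := ⟨_, rfl⟩
  have hc1p : 0 < c1 := by rw [hc1]; positivity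
  have hc2p : 0 < c2 := by rw [hc2]; positivity
  have hc3p : 0 < c3 := by rw [hc3]; positivity
  have hr := P.r_pos
  have hp1p : 0 < p1 := by rw [hp1]; positivity
  have hp2p : 0 < p2 := by rw [hp2]; positivity
  have hp3p : 0 < p3 := by rw [hp3]; positivity
  have hη := P.hη
  obtain ⟨Kw, hKw⟩ : ∃ c, c = p3 / P.η ^ 2 + (2 * p1 * (p2 + p3) + (p2 + p3) ^ 2) / P.η ^ 3 +
      2 * (p1 + p2 + p3) ^ 3 / P.η ^ 4 := ⟨_, rfl⟩
  have hKwp : 0 < Kw := by rw [hKw]; positivity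
  refine ⟨min (min 1 (1 / (4 * (P.z / gam) * B))) (P.η / (2 * (p1 + p2 + p3))), by positivity,
    Kw + (B * c2 + 2 * c3), ?_⟩
  intro s y0 x t h hgap hF hxb hUx ht
  have ht1 : |t| ≤ 1 := ht.trans ((min_le_left _ _).trans (min_le_left _ _))
  have ht2 : |t| * B * (2 * (P.z / gam)) ≤ 1 / 2 := by
    have := ht.trans ((min_le_left _ _).trans (min_le_right _ _))
    rw [le_div_iff₀ (by positivity)] at this
    linarith
  have ht3 : |t| * (p1 + p2 + p3) ≤ P.η / 2 := by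
    have := ht.trans (min_le_right _ _)
    rw [le_div_iff₀ (by positivity)] at this
    linarith
  have hxB : ∀ i χ, |x i χ| ≤ B := fun i χ => (hxb i χ).trans (hBdef ▸ le_max_left b 1)
  have hgap' : ∀ i, ‖(s.shift t x).B i‖ ≤ P.z - gam / 2 := fun i =>
    (h.load_expand hg (hgap i) hB0.le (hxB i) ht2).1
  set X := fun i => s.R i * x i with hX
  set T1 := fun i => X i * (s.e i + s.l i) + (1 + s.R i) * (s.e1 i (X i) + s.l1 i (X i)) with hT1
  set T2 := fun i => X i * (s.e1 i (X i) + s.l1 i (X i)) + (1 + s.R i) * s.e2 i (X i) with hT2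
  set Q1 := ∑ i, s.psi1 i (X i) with hQ1
  set Q2 := ∑ i, s.psi2 i (X i) with hQ2
  have hlin : ∀ i χ, (1 + (s.shift t x).R i χ) * ((s.shift t x).e i χ + (s.shift t x).l i χ) ≤
      (1 + s.R i χ) * (s.e i χ + s.l i χ) + t * T1 i χ + t ^ 2 * T2 i χ +
        (B * c2 + 2 * c3) * |t| ^ 3 * ((1 + s.R i χ) * (s.e i χ + s.l i χ)) := fun i χ => by
    rw [hc2, hc3]
    exact (h.point_expand hg hgap hB1 hxB ht2 i χ).1
  -- the surplus on the region still in play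
  have hFexp : ∀ χ, s.U χ = 1 → ∃ δ : ℝ, |δ| ≤ p3 * |t| ^ 3 ∧
      (s.shift t x).F χ = s.F χ + t * Q1 χ + t ^ 2 * Q2 χ + δ ∧ |Q1 χ| ≤ p1 ∧ |Q2 χ| ≤ p2 := by
    intro χ hU
    choose δ hδ hpsi h1 h2 using fun i => (h.point_expand hg hgap hB1 hxB ht2 i χ).2 hU
    refine ⟨∑ i, δ i, ?_, ?_, ?_, ?_⟩
    · refine (Finset.abs_sum_le_sum_abs _ _).trans ((Finset.sum_le_sum fun i _ => hδ i).trans_eq ?_)
      rw [Finset.sum_const, Finset.card_univ, Fintype.card_fin, nsmul_eq_mul, hp3, hc2, hc3]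
      ring
    · simp only [F, hQ1, hQ2, ContinuousMap.sum_apply, hpsi, Finset.sum_add_distrib,
        Finset.mul_sum]
      rfl
    · rw [hQ1, ContinuousMap.sum_apply]
      refine (Finset.abs_sum_le_sum_abs _ _).trans ((Finset.sum_le_sum fun i _ => h1 i).trans_eq ?_)
      rw [Finset.sum_const, Finset.card_univ, Fintype.card_fin, nsmul_eq_mul, hp1, hc1]
    · rw [hQ2, ContinuousMap.sum_apply]
      refine (Finset.abs_sum_le_sum_abs _ _).trans ((Finset.sum_le_sum fun i _ => h2 i).trans_eq ?_)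
      rw [Finset.sum_const, Finset.card_univ, Fintype.card_fin, nsmul_eq_mul, hp2, hc1, hc2]
  -- the barrier at a point
  have hwexp : ∀ χ, (s.shift t x).w χ ≤ (s.w - t • (s.lam * Q1) +
      t ^ 2 • (s.w * s.w * s.w * (Q1 * Q1) - s.lam * Q2) +
        algebraMap ℝ C(C.Spec, ℝ) (Kw * |t| ^ 3)) χ := by
    intro χ
    simp only [w, lam, shift, ContinuousMap.mul_apply, ContinuousMap.add_apply,
      ContinuousMap.sub_apply, ContinuousMap.smul_apply, Algebra.algebraMap_eq_smul_one,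
      smul_eq_mul, invC_apply, ContinuousMap.one_apply, mul_one]
    rcases idem_values h.U_idem χ with hU | hU
    · rw [hU]
      simp only [zero_mul, mul_zero, sub_zero, zero_add, add_zero]
      exact mul_nonneg hKwp.le (pow_nonneg (abs_nonneg t) 3)
    obtain ⟨δ, hδ, hFe, hP1, hP2⟩ := hFexp χ hU
    simp only [shift] at hFe
    rw [hU, one_mul, one_mul, hFe]
    have hvη : P.η ≤ s.F χ - 128 := by linarith [hF χ hU]
    obtain ⟨hdη, key⟩ := barrier_step hη hvη ht1 ht3 hp2p.le hp3p.le hP1 hP2 hδ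
    rw [show s.F χ + t * Q1 χ + t ^ 2 * Q2 χ + δ - 128 =
        s.F χ - 128 + (t * Q1 χ + t ^ 2 * Q2 χ + δ) by ring,
      max_eq_left (by linarith [(abs_le.1 hdη).1] :
        P.η / 2 ≤ s.F χ - 128 + (t * Q1 χ + t ^ 2 * Q2 χ + δ)),
      max_eq_left (by linarith : P.η / 2 ≤ s.F χ - 128), hKw]
    exact key.trans_eq (by ring)
  -- assemble
  refine ⟨fun hR => h.shift_inv (fun i χ => ?_) hUx hR
    (fun i => lt_of_le_of_lt (hgap' i) (sub_lt_self _ (half_pos hg))) fun χ hU => ?_, hgap', ?_⟩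
  · have g := h.colour_gap hg (hgap i)
    have h1 : 1 ≤ 2 * (P.z / gam) := by linarith only [(one_le_div hg).2 g.le]
    rw [abs_mul]
    calc |t| * |x i χ| ≤ |t| * B := mul_le_mul_of_nonneg_left (hxB i χ) (abs_nonneg t)
      _ ≤ |t| * B * (2 * (P.z / gam)) :=
          le_mul_of_one_le_right (mul_nonneg (abs_nonneg t) hB0.le) h1
      _ ≤ 1 := ht2.trans (by norm_num)
  · obtain ⟨δ, hδ, hFe, hP1, hP2⟩ := hFexp χ hU
    have hvη : P.η ≤ s.F χ - 128 := le_sub_iff_add_le'.2 (hF χ hU)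
    obtain ⟨hdη, -⟩ := barrier_step hη hvη ht1 ht3 hp2p.le hp3p.le hP1 hP2 hδ
    rw [hFe]
    linarith only [hvη, (abs_le.1 hdη).1]
  have hA : ∀ i, C.intA ((1 + (s.shift t x).R i) * ((s.shift t x).e i + (s.shift t x).l i)) ≤
      (1 + (B * c2 + 2 * c3) * |t| ^ 3) * C.intA ((1 + s.R i) * (s.e i + s.l i)) +
        t * C.intA (T1 i) + t ^ 2 * C.intA (T2 i) := fun i => by
    rw [← C.intA_smul, ← C.intA_smul, ← C.intA_smul, ← C.intA_add, ← C.intA_add]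
    refine C.intA_mono fun χ => ?_
    simp only [ContinuousMap.mul_apply, ContinuousMap.add_apply, ContinuousMap.one_apply,
      ContinuousMap.smul_apply, smul_eq_mul]
    linarith [hlin i χ]
  have hW := C.intA_mono hwexp
  rw [C.intA_add, C.intA_add, C.intA_diff, C.intA_smul, C.intA_smul, C.intA_diff,
    C.intA_const] at hW
  have hL : P.eps0 * ∑ i, C.intA (T1 i) - C.intA (s.lam * Q1) = s.L1 X := by
    rw [hQ1, Finset.mul_sum, Finset.mul_sum, C.intA_sum, ← Finset.sum_sub_distrib, L1]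
    exact Finset.sum_congr rfl fun i _ => h.intA_first i (X i)
  have hQ : P.eps0 * ∑ i, C.intA (T2 i) - C.intA (s.lam * Q2) = ∑ i, s.Q i (X i) := by
    rw [hQ2, Finset.mul_sum, Finset.mul_sum, C.intA_sum, ← Finset.sum_sub_distrib]
    exact Finset.sum_congr rfl fun i _ => h.intA_second i (X i)
  have hw0 : 0 ≤ C.intA s.w := C.intA_nonneg fun χ => by
    simp only [w, ContinuousMap.mul_apply, invC_apply]
    refine mul_nonneg ?_ (inv_nonneg.2 (le_max_of_le_right (half_pos hη).le))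
    rcases idem_values h.U_idem χ with e | e <;> simp [e]
  have hS : 0 ≤ P.eps0 * ∑ i, C.intA ((1 + s.R i) * (s.e i + s.l i)) := by
    refine mul_nonneg P.eps0_pos.le (Finset.sum_nonneg fun i _ => C.intA_nonneg fun χ => ?_)
    refine mul_nonneg ?_ (h.el_nonneg i χ)
    change 0 ≤ 1 + s.R i χ
    linarith [h.R_nonneg i χ]
  have hSum := mul_le_mul_of_nonneg_left
    (Finset.sum_le_sum fun i (_ : i ∈ Finset.univ) => hA i) P.eps0_pos.le
  rw [Finset.sum_add_distrib, Finset.sum_add_distrib, ← Finset.mul_sum, ← Finset.mul_sum,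
    ← Finset.mul_sum] at hSum
  have hPhi : ∀ u : St C P, u.Phi =
      P.eps0 * ∑ i, C.intA ((1 + u.R i) * (u.e i + u.l i)) + C.intA u.w := fun _ => rfl
  have hsq : C.intA (s.w * s.w * s.w * (Q1 * Q1)) = s.sqTerm X := rfl
  rw [hPhi, hPhi, ← hL, ← hQ, ← hsq]
  exact final_step hSum hW hS hw0 (sq_nonneg _) (pow_nonneg (abs_nonneg t) 3) hKwp.le
    (by positivity) P.eps0_pos.le

end St

end Vale.Agent.P078.Finite
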