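import Vale.Agent.P078.Finite.SecondDefs
import Vale.Agent.P078.ScalarBound

/-!
The asymptotic trace of the form dominating the second variation.
-/

noncomputable section

open scoped InnerProductSpace
open Filter Topology

namespace Vale.Agent.P078.Finite

universe u

variable {K : Type u} [NormedAddCommGroup K] [InnerProductSpace ℂ K] [CompleteSpace K]

namespace Ctx

variable (C : Ctx K)

theorem trS_real_smul (s : Part C) (t : ℝ) (X : C.L →L[ℂ] C.L) :
    (C.trS s (t • X)).re = t * (C.trS s X).re := by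
  rw [← Complex.re_ofReal_mul, ← C.trS_smul]
  refine congrArg (fun Y => (C.trS s Y).re) ?_
  exact ContinuousLinearMap.ext fun v => rfl

theorem tendsto_trS_sym2 {a b : K →L[ℂ] K} (ha : a ∈ C.M) (hb : b ∈ C.M) (ha' : IsSelfAdjoint a)
    (hb' : IsSelfAdjoint b) :
    Tendsto (fun s : Part C => (C.trS s (C.sym2 a b)).re) atTop
      (𝓝 (C.intA (C.Er a * C.Er b))) := by
  have e1 : C.E a * C.E b = C.op (C.Er a * C.Er b) := by
    rw [map_mul, C.op_Er ha ha', C.op_Er hb hb']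
  have e2 : C.E b * C.E a = C.op (C.Er a * C.Er b) := by
    rw [C.A_comm (C.E_mem b) (C.E_mem a), e1]
  have h1 := C.tendsto_trS_gam ha hb
  have h2 := C.tendsto_trS_gam hb ha
  rw [e1] at h1
  rw [e2] at h2
  have h := ((Complex.continuous_re.tendsto _).comp h1).add ((Complex.continuous_re.tendsto _).comp h2)
  have h' := h.const_mul (1 / 2 : ℝ)
  rw [show C.intA (C.Er a * C.Er b) =
    1 / 2 * ((C.tr (C.op (C.Er a * C.Er b))).re + (C.tr (C.op (C.Er a * C.Er b))).re) by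
      rw [intA]; ring]
  refine h'.congr fun s => ?_
  rw [sym2, C.trS_real_smul, C.trS_add, Complex.add_re]
  rfl

theorem tendsto_trS_mult (f : C(C.Spec, ℝ)) :
    Tendsto (fun s : Part C => (C.trS s (C.gam (C.op f) 1)).re) atTop (𝓝 (C.intA f)) := by
  have h := C.tendsto_trS_gam (C.op_mem_M f) (one_mem C.M)
  rw [C.E_of_mem (one_mem C.A), mul_one, C.E_of_mem (C.op_mem f)] at h
  exact (Complex.continuous_re.tendsto _).comp h

private theorem abs_Er_le {x : K →L[ℂ] K} (hx : x ∈ C.M) (h : IsSelfAdjoint x) (χ : C.Spec) :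
    |C.Er x χ| ≤ ‖x‖ := by
  refine ((C.Er x).norm_coe_le_norm χ).trans ?_
  rw [← C.norm_op, C.op_Er hx h]
  exact C.norm_E_le hx

theorem op_conj_sa {x : K →L[ℂ] K} (h : IsSelfAdjoint x) (f : C(C.Spec, ℝ)) :
    IsSelfAdjoint (C.op f * x * C.op f) := by
  have := h.conjugate (C.op f)
  rwa [(C.op_sa f).star_eq] at this

theorem Er_conj {x : K →L[ℂ] K} (hx : x ∈ C.M) (f : C(C.Spec, ℝ)) :
    C.Er (C.op f * x * C.op f) = f * C.Er x * f := by
  rw [C.Er_mul_op f (mul_mem (C.op_mem_M f) hx), C.Er_op_mul f hx]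

theorem Er_conj_op_nonneg {a : K →L[ℂ] K} (ha : a ∈ C.M) (h : IsSelfAdjoint a)
    {f : C(C.Spec, ℝ)} (hf : ∀ χ, 0 ≤ f χ) (χ : C.Spec) : 0 ≤ C.Er (a * C.op f * a) χ := by
  refine C.Er_nonneg (mul_mem (mul_mem ha (C.op_mem_M f)) ha) ?_ χ
  have := star_left_conjugate_nonneg (C.op_nonneg hf) a
  rwa [h.star_eq] at this

end Ctx

namespace St

variable {C : Ctx K} {P : Par} {s : St C P} {y0 : K →L[ℂ] K} {gam : ℝ}

theorem gapOf (h : s.Inv y0) (i : Fin P.r) (hg : 0 < gam) (hgap : ‖s.B i‖ ≤ P.z - gam) :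
    Gap P.z gam (s.rt i) (s.y i) :=
  ⟨C.op_sa _, h.y_sa i, hg, by linarith [norm_nonneg (s.B i)], hgap⟩

theorem mem_W (h : s.Inv y0) (σ : ℝ) (i : Fin P.r) : s.W σ i ∈ C.M :=
  Zo_mem C.isClosed_M (C.op_mem_M _) (h.y_mem i) _ _

theorem sa_W (h : s.Inv y0) (σ : ℝ) (i : Fin P.r) : IsSelfAdjoint (s.W σ i) :=
  Zo_sa (C.op_sa _) (h.y_sa i)

theorem mem_Z (h : s.Inv y0) (σ : ℝ) (i : Fin P.r) : s.Z σ i ∈ C.M :=
  Zf_mem C.isClosed_M (C.op_mem_M _) (h.y_mem i) _ _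

theorem sa_Z (h : s.Inv y0) (σ : ℝ) (i : Fin P.r) : IsSelfAdjoint (s.Z σ i) :=
  Zf_sa (C.op_sa _) (h.y_sa i)

theorem Er_Z (h : s.Inv y0) (σ : ℝ) (i : Fin P.r) :
    C.Er (s.Z σ i) = (σ / P.z) • C.Er (s.y i) + C.Er (s.W σ i) := by
  rw [← C.Er_smul _ (h.y_mem i)]
  exact C.Er_add (C.M.smul_mem (h.y_mem i) ((σ / P.z : ℝ) : ℂ)) (s.mem_W h σ i)

theorem mem_mainEl (i : Fin P.r) {a : K →L[ℂ] K} (ha : a ∈ C.M) : s.mainEl i a ∈ C.M :=
  mul_mem (mul_mem (C.op_mem_M _) (mul_mem (mul_mem ha (C.op_mem_M _)) ha)) (C.op_mem_M _)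

theorem sa_mainEl (i : Fin P.r) {a : K →L[ℂ] K} (h : IsSelfAdjoint a) :
    IsSelfAdjoint (s.mainEl i a) := by
  refine C.op_conj_sa ?_ _
  have := (C.op_sa (s.u i)).conjugate a
  rwa [h.star_eq] at this

theorem mem_crossEl (i : Fin P.r) {a : K →L[ℂ] K} (ha : a ∈ C.M) : s.crossEl i a ∈ C.M :=
  mul_mem (mul_mem (C.op_mem_M _) (real_smul_mem
    (add_mem (mul_mem (C.op_mem_M _) ha) (mul_mem ha (C.op_mem_M _))) _)) (C.op_mem_M _)

theorem sa_crossEl (i : Fin P.r) {a : K →L[ℂ] K} (h : IsSelfAdjoint a) :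
    IsSelfAdjoint (s.crossEl i a) := by
  refine C.op_conj_sa (IsSelfAdjoint.smul (IsSelfAdjoint.all (1 / 2 : ℝ)) ?_) _
  rw [IsSelfAdjoint, star_add, star_mul, star_mul, h.star_eq, (C.op_sa _).star_eq, add_comm]

theorem Er_mainEl (i : Fin P.r) {a : K →L[ℂ] K} (ha : a ∈ C.M) :
    C.Er (s.mainEl i a) = s.D i * C.Er (a * C.op (s.u i) * a) * s.D i :=
  C.Er_conj (mul_mem (mul_mem ha (C.op_mem_M _)) ha) _

theorem Er_crossEl (i : Fin P.r) {a : K →L[ℂ] K} (ha : a ∈ C.M) :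
    C.Er (s.crossEl i a) = s.D i * (s.Lam * C.Er a) * s.D i := by
  have h1 := mul_mem (C.op_mem_M s.Lam) ha
  have h2 := mul_mem ha (C.op_mem_M s.Lam)
  rw [crossEl, C.Er_conj (real_smul_mem (add_mem h1 h2) _), C.Er_smul _ (add_mem h1 h2),
    C.Er_add h1 h2, C.Er_op_mul _ ha, C.Er_mul_op _ ha]
  ext χ
  simp only [ContinuousMap.mul_apply, ContinuousMap.smul_apply, ContinuousMap.add_apply, smul_eq_mul]
  ring

/-- The limit of the diagonal sums of the dominating form, as a symbol. -/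
def traceSym (s : St C P) (i : Fin P.r) : C(C.Spec, ℝ) :=
  C.Er (s.mainEl i (s.Z 1 i)) * C.Er (s.Z 1 i) + C.Er (s.crossEl i (s.Z 1 i)) * C.Er (s.Z 1 i) +
    C.Er (s.mainEl i (s.Z (-1) i)) * C.Er (s.Z (-1) i) +
    C.Er (s.crossEl i (s.Z (-1) i)) * C.Er (s.Z (-1) i) +
    (P.z ^ 2)⁻¹ • (C.Er (s.crossEl i (s.y i)) * C.Er (s.y i)) -
    (1 / 4 : ℝ) • (s.lam * (s.D i * s.D i)) +
    (1 / (4 * P.z ^ 2)) •
      (C.Er (s.mainEl i (s.y i)) * C.Er (s.W 1 i) + C.Er (s.mainEl i (s.y i)) * C.Er (s.W (-1) i))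

theorem tendsto_trS_Sop (h : s.Inv y0) (i : Fin P.r) :
    Tendsto (fun p : Part C => (C.trS p (s.Sop i)).re) atTop
      (𝓝 (C.intA (s.traceSym i) + 4 * ‖C.Ω‖ ^ 2)) := by
  have hy := h.y_mem i
  have hys := h.y_sa i
  have t1 := C.tendsto_trS_sym2 (s.mem_mainEl i (s.mem_Z h 1 i)) (s.mem_Z h 1 i)
    (s.sa_mainEl i (s.sa_Z h 1 i)) (s.sa_Z h 1 i)
  have t2 := C.tendsto_trS_sym2 (s.mem_crossEl i (s.mem_Z h 1 i)) (s.mem_Z h 1 i)
    (s.sa_crossEl i (s.sa_Z h 1 i)) (s.sa_Z h 1 i)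
  have t3 := C.tendsto_trS_sym2 (s.mem_mainEl i (s.mem_Z h (-1) i)) (s.mem_Z h (-1) i)
    (s.sa_mainEl i (s.sa_Z h (-1) i)) (s.sa_Z h (-1) i)
  have t4 := C.tendsto_trS_sym2 (s.mem_crossEl i (s.mem_Z h (-1) i)) (s.mem_Z h (-1) i)
    (s.sa_crossEl i (s.sa_Z h (-1) i)) (s.sa_Z h (-1) i)
  have t5 := (C.tendsto_trS_sym2 (s.mem_crossEl i hy) hy (s.sa_crossEl i hys) hys).const_mul
    (P.z ^ 2)⁻¹
  have t6 := C.tendsto_trS_mult ((1 / 4 : ℝ) • (s.lam * (s.D i * s.D i)))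
  have t7 := ((C.tendsto_trS_sym2 (s.mem_mainEl i hy) (s.mem_W h 1 i) (s.sa_mainEl i hys)
    (s.sa_W h 1 i)).add (C.tendsto_trS_sym2 (s.mem_mainEl i hy) (s.mem_W h (-1) i)
    (s.sa_mainEl i hys) (s.sa_W h (-1) i))).const_mul (1 / (4 * P.z ^ 2))
  have ht := ((((((t1.add t2).add t3).add t4).add t5).sub t6).add t7).add
    (tendsto_const_nhds (x := 4 * ‖C.Ω‖ ^ 2) (f := (atTop : Filter (Part C))))
  have hsub : ∀ f g : C(C.Spec, ℝ), C.intA (f - g) = C.intA f - C.intA g := fun f g => by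
    rw [eq_sub_iff_add_eq, ← C.intA_add, sub_add_cancel]
  have e : C.intA (s.traceSym i) + 4 * ‖C.Ω‖ ^ 2 =
      C.intA (C.Er (s.mainEl i (s.Z 1 i)) * C.Er (s.Z 1 i)) +
        C.intA (C.Er (s.crossEl i (s.Z 1 i)) * C.Er (s.Z 1 i)) +
        C.intA (C.Er (s.mainEl i (s.Z (-1) i)) * C.Er (s.Z (-1) i)) +
        C.intA (C.Er (s.crossEl i (s.Z (-1) i)) * C.Er (s.Z (-1) i)) +
        (P.z ^ 2)⁻¹ * C.intA (C.Er (s.crossEl i (s.y i)) * C.Er (s.y i)) -
        C.intA ((1 / 4 : ℝ) • (s.lam * (s.D i * s.D i))) +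
        1 / (4 * P.z ^ 2) * (C.intA (C.Er (s.mainEl i (s.y i)) * C.Er (s.W 1 i)) +
          C.intA (C.Er (s.mainEl i (s.y i)) * C.Er (s.W (-1) i))) + 4 * ‖C.Ω‖ ^ 2 := by
    simp only [traceSym, C.intA_add, hsub, C.intA_smul]
  rw [e]
  refine ht.congr fun p => ?_
  simp only [Sop, C.trS_add, C.trS_sub, Complex.add_re, Complex.sub_re, C.trS_real_smul, C.trS_one]
  rw [← Complex.ofReal_pow, Complex.ofReal_re]

theorem free_idem_values (h : s.Inv y0) (i : Fin P.r) (χ : C.Spec) :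
    s.free i χ = 0 ∨ (s.free i χ = 1 ∧ s.U χ = 1 ∧ P.zeta ≤ s.R i χ ∧
      s.e i χ + s.l i χ ≤ 1 / 10000 ∧ s.g i χ ≤ s.lam χ) := by
  have hv : ∀ f t, C.cutAt f t χ = 0 ∨ C.cutAt f t χ = 1 := fun f t =>
    idem_values (C.cutAt_idem f t) χ
  have hfin : s.finishable χ = 0 ∨ s.finishable χ = 1 := by
    have key : ∀ t : Finset (Fin P.r),
        (∏ j ∈ t, (1 - C.cutAt (s.R j) (1 / 4))) χ = 0 ∨
          (∏ j ∈ t, (1 - C.cutAt (s.R j) (1 / 4))) χ = 1 := by
      intro t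
      induction t using Finset.induction_on with
      | empty => exact Or.inr rfl
      | @insert j t hj ih =>
        rw [Finset.prod_insert hj, ContinuousMap.mul_apply, ContinuousMap.sub_apply,
          ContinuousMap.one_apply]
        rcases hv (s.R j) (1 / 4) with e | e <;> rcases ih with e' | e' <;> rw [e, e'] <;> norm_num
    rcases key Finset.univ with e | e <;>
      rw [finishable, ContinuousMap.sub_apply, ContinuousMap.one_apply, e] <;> norm_num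
  simp only [free, ContinuousMap.mul_apply, ContinuousMap.sub_apply, ContinuousMap.one_apply]
  rcases idem_values h.U_idem χ with hU | hU
  · simp [hU]
  rcases hfin with hF | hF
  swap
  · simp [hF]
  rcases hv (s.R i) P.zeta with hR | hR
  · simp [hR]
  rcases hv (s.e i + s.l i) (1 / 10000) with he | he
  swap
  · rw [he]; simp
  rcases hv (s.g i - s.lam) 0 with hg | hg
  swap
  · simp [hg]
  refine Or.inr ⟨by rw [hU, hF, hR, he, hg]; norm_num, hU, C.le_of_cutAt_eq_one hR, ?_, ?_⟩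
  · simpa using C.le_of_cutAt_eq_zero he
  · simpa using C.le_of_cutAt_eq_zero hg

theorem e_part_nonneg (h : s.Inv y0) (σ : ℝ) (hσ : |σ| = 1) (i : Fin P.r) (χ : C.Spec) :
    0 ≤ C.Er (s.W σ i) χ :=
  C.Er_nonneg (s.mem_W h σ i)
    ((s.gapOf h i (sub_pos.2 (h.gap i)) (by rw [sub_sub_cancel])).Zo_nonneg hσ) χ

theorem l_nonneg (h : s.Inv y0) (i : Fin P.r) (χ : C.Spec) : 0 ≤ s.l i χ := by
  simp only [l, ContinuousMap.smul_apply, smul_eq_mul]
  exact mul_nonneg (inv_nonneg.2 (sq_nonneg _))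
    (C.Er_conj_op_nonneg (h.y_mem i) (h.y_sa i) (h.R_nonneg i) χ)

theorem lam_nonneg' (χ : C.Spec) : 0 ≤ s.lam χ := mul_self_nonneg (s.w χ)

theorem Lam_nonneg' (χ : C.Spec) : 0 ≤ s.Lam χ := by
  simp only [Lam, ContinuousMap.add_apply, ContinuousMap.smul_apply, ContinuousMap.one_apply,
    smul_eq_mul]
  exact add_nonneg (mul_nonneg P.eps0_pos.le zero_le_one)
    (mul_nonneg (by norm_num) (lam_nonneg' χ))

theorem u_nonneg' (h : s.Inv y0) (i : Fin P.r) (χ : C.Spec) : 0 ≤ s.u i χ := by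
  simp only [u, ContinuousMap.add_apply, ContinuousMap.mul_apply, ContinuousMap.smul_apply,
    ContinuousMap.one_apply, smul_eq_mul]
  exact add_nonneg (mul_nonneg P.eps0_pos.le zero_le_one)
    (mul_nonneg (Lam_nonneg' χ) (h.R_nonneg i χ))

theorem two_div_r_le_w (h : s.Inv y0) {χ : C.Spec} (hU : s.U χ = 1)
    (hfloor : 128 + P.η ≤ s.F χ) : 2 / (P.r : ℝ) ≤ s.w χ := by
  have hF : s.F χ ≤ P.r / 2 := by
    have : ∀ i, s.psi i χ ≤ 1 / 2 := by
      intro i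
      have h1 := h.R_nonneg i χ
      have h2 := h.R_le i χ
      have he : 0 ≤ s.e i χ + s.l i χ := by
        have := s.e_part_nonneg h 1 abs_one i χ
        have := s.e_part_nonneg h (-1) (by norm_num) i χ
        have := s.l_nonneg h i χ
        simp only [e, ContinuousMap.add_apply]
        linarith
      simp only [psi, ContinuousMap.sub_apply, ContinuousMap.mul_apply, ContinuousMap.smul_apply,
        ContinuousMap.add_apply, ContinuousMap.one_apply, smul_eq_mul]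
      nlinarith [mul_nonneg h1 he, mul_nonneg h1 (sub_nonneg.2 (h2.trans one_half_lt_one.le))]
    calc s.F χ = ∑ i, s.psi i χ := by simp [F]
      _ ≤ ∑ _i : Fin P.r, (1 / 2 : ℝ) := Finset.sum_le_sum fun i _ => this i
      _ = P.r / 2 := by simp [div_eq_mul_inv]
  have hη := P.hη
  simp only [w, ContinuousMap.mul_apply, hU, invC_apply, ContinuousMap.sub_apply,
    ContinuousMap.smul_apply, ContinuousMap.one_apply, smul_eq_mul, mul_one, one_mul]
  rw [le_inv_comm₀ (by positivity [P.r_pos]) (lt_max_of_lt_right (half_pos hη)), inv_div]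
  exact max_le (by linarith) (by linarith)

theorem mul_abs_Er_y_le (h : s.Inv y0) (i : Fin P.r) (χ : C.Spec) :
    s.R i χ * |C.Er (s.y i) χ| ≤ P.z := by
  have hb : IsSelfAdjoint (s.B i) := C.op_conj_sa (h.y_sa i) _
  have hm : s.B i ∈ C.M := mul_mem (mul_mem (C.op_mem_M _) (h.y_mem i)) (C.op_mem_M _)
  have h1 := C.abs_Er_le hm hb χ
  rw [B, rt, C.Er_conj (h.y_mem i), ContinuousMap.mul_apply, ContinuousMap.mul_apply, sqC_apply,
    mul_right_comm, Real.mul_self_sqrt (h.R_nonneg i χ), abs_mul,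
    abs_of_nonneg (h.R_nonneg i χ)] at h1
  exact h1.trans (h.gap i).le

theorem abs_Er_y_le_corr (h : s.Inv y0) (hy0 : y0 ∈ C.M) (hE : C.E y0 = 0) (i : Fin P.r)
    (χ : C.Spec) : |C.Er (s.y i) χ| ≤ C.Er (s.corr i) χ := by
  have h0 : C.Er y0 χ = 0 := by
    have : C.op (C.Er y0) = C.op 0 := by
      rw [Ctx.Er, map_zero, hE]
      refine C.op_re (zero_mem _) (IsSelfAdjoint.zero _) |>.trans rfl
    rw [C.op_inj this]
    rfl
  have h1 := C.Er_mono (sub_mem hy0 (h.y_mem i)) (h.corr_mem i) (h.diff_le i).1 χ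
  have h2 := C.Er_mono (sub_mem (h.y_mem i) hy0) (h.corr_mem i) (h.diff_le i).2 χ
  rw [C.Er_sub hy0 (h.y_mem i), ContinuousMap.sub_apply, h0] at h1
  rw [C.Er_sub (h.y_mem i) hy0, ContinuousMap.sub_apply, h0] at h2
  exact abs_le.2 ⟨by linarith, by linarith⟩

/-- The constant in front of the correction in the trace bound. -/
def traceConst (P : Par) : ℝ := (2 + 5 * (1000000 + 1 / 4)) / P.z

theorem traceSym_le (h : s.Inv y0) (hfloor : ∀ χ, s.U χ = 1 → 128 + P.η ≤ s.F χ)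
    (hy0 : y0 ∈ C.M) (hE : C.E y0 = 0) (i : Fin P.r) (χ : C.Spec) :
    s.traceSym i χ ≤
      -(1 / 5) * (s.free i χ * s.R i χ) + traceConst P * C.Er (s.corr i) χ := by
  have hz := P.z_pos
  have hC : 0 ≤ traceConst P := by unfold traceConst; positivity
  have hcorr : 0 ≤ C.Er (s.corr i) χ := (abs_nonneg _).trans (s.abs_Er_y_le_corr h hy0 hE i χ)
  set a := C.Er (s.y i) χ
  set ep := C.Er (s.W 1 i) χ
  set em := C.Er (s.W (-1) i) χ
  set d := s.D i χ
  have hform : s.traceSym i χ = d * d * ((ep + a / P.z) * s.Wu 1 i χ +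
      (em - a / P.z) * s.Wu (-1) i χ + s.Lam χ * (ep + a / P.z) ^ 2 +
      s.Lam χ * (em - a / P.z) ^ 2 + s.Lam χ * (a / P.z) ^ 2 + (ep + em) * s.Wy i χ / (4 * 1)) -
      1 / 4 * s.lam χ * (d * d) := by
    simp only [traceSym, s.Er_mainEl i (s.mem_Z h _ i), s.Er_crossEl i (s.mem_Z h _ i),
      s.Er_mainEl i (h.y_mem i), s.Er_crossEl i (h.y_mem i), s.Er_Z h, Wu, Wy,
      ContinuousMap.add_apply, ContinuousMap.sub_apply, ContinuousMap.mul_apply,
      ContinuousMap.smul_apply, smul_eq_mul, a, ep, em, d]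
    field_simp
    ring
  rw [hform]
  rcases s.free_idem_values h i χ with hf | ⟨hf, hU, hRz, hK, hg⟩
  · have hd : d = 0 := by simp [d, D, dir, hf]
    rw [hd, hf]
    simp only [mul_zero, zero_mul, sub_zero, zero_add]
    exact mul_nonneg hC hcorr
  have hR0 := h.R_nonneg i χ
  have hw := s.two_div_r_le_w h hU (hfloor χ hU)
  have hr := P.r_pos
  have hlam4 : 4 / (P.r : ℝ) ^ 2 ≤ s.lam χ := by
    have e : (4 : ℝ) / (P.r : ℝ) ^ 2 = 2 / P.r * (2 / P.r) := by ring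
    rw [e]
    exact mul_le_mul hw hw (by positivity) ((by positivity : (0 : ℝ) ≤ 2 / P.r).trans hw)
  have hlam : 0 < s.lam χ := lt_of_lt_of_le (by positivity) hlam4
  have hRpos : 0 < s.R i χ := P.zeta_pos.trans_le hRz
  have hd : d * d = s.R i χ / s.lam χ := by
    have hmax : max (√(s.R i χ * s.lam χ)) (√P.zeta / P.r) = √(s.R i χ * s.lam χ) := by
      refine max_eq_left ?_
      have e : √P.zeta / (P.r : ℝ) = √(P.zeta / (P.r : ℝ) ^ 2) := by
        rw [Real.sqrt_div P.zeta_pos.le, Real.sqrt_sq hr.le]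
      rw [e]
      refine Real.sqrt_le_sqrt ?_
      have : (1 : ℝ) / (P.r : ℝ) ^ 2 ≤ s.lam χ := le_trans (by gcongr; norm_num) hlam4
      calc P.zeta / (P.r : ℝ) ^ 2 = P.zeta * (1 / (P.r : ℝ) ^ 2) := by ring
        _ ≤ s.R i χ * s.lam χ := mul_le_mul hRz this (by positivity) hR0
    simp only [d, D, dir, ContinuousMap.mul_apply, hf, invC_apply, sqC_apply, hmax, one_mul]
    rw [mul_mul_mul_comm, ← mul_inv, Real.mul_self_sqrt (by positivity)]
    field_simp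
  have hep : 0 ≤ ep := s.e_part_nonneg h 1 abs_one i χ
  have hem : 0 ≤ em := s.e_part_nonneg h (-1) (by norm_num) i χ
  have hl := s.l_nonneg h i χ
  have hW : ∀ σ, 0 ≤ s.Wu σ i χ := fun σ =>
    C.Er_conj_op_nonneg (s.mem_Z h σ i) (s.sa_Z h σ i) (s.u_nonneg' h i) χ
  have hWy : 0 ≤ s.Wy i χ := by
    simp only [Wy, ContinuousMap.smul_apply, smul_eq_mul]
    exact mul_nonneg (inv_nonneg.2 (sq_nonneg _))
      (C.Er_conj_op_nonneg (h.y_mem i) (h.y_sa i) (s.u_nonneg' h i) χ)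
  have hK' : ep + em ≤ 1 / 10000 := by
    simp only [e, ContinuousMap.add_apply] at hK
    linarith
  have hLam : s.Lam χ ≤ (1000000 + 1 / 4) * s.lam χ := by
    have : P.eps0 ≤ 1 / 4 * s.lam χ := by
      rw [Par.eps0]
      calc (1 : ℝ) / (P.r : ℝ) ^ 2 = 1 / 4 * (4 / (P.r : ℝ) ^ 2) := by ring
        _ ≤ _ := mul_le_mul_of_nonneg_left hlam4 (by norm_num)
    simp only [Lam, ContinuousMap.add_apply, ContinuousMap.smul_apply, ContinuousMap.one_apply,
      smul_eq_mul, mul_one]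
    linarith
  have hbudget : s.Wu 1 i χ + s.Wu (-1) i χ + s.Wy i χ + s.Lam χ * (ep + em) ≤ 2 * s.lam χ := by
    have hg' := hg
    simp only [g, e, ContinuousMap.add_apply, ContinuousMap.sub_apply, ContinuousMap.mul_apply,
      ContinuousMap.smul_apply, ContinuousMap.one_apply, smul_eq_mul] at hg'
    nlinarith [mul_nonneg (Lam_nonneg' (s := s) χ) hl,
      mul_nonneg hlam.le (sub_nonneg.2 (h.R_le i χ))]
  have key := Vale.Agent.P078.trace_form_le (κ := 1 / 4) hR0 ((h.R_le i χ).trans (by norm_num))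
    hlam hz hep hem (hW 1) (hW (-1)) hWy hK' one_pos (s.mul_abs_Er_y_le h i χ) (Lam_nonneg' χ)
    hLam hbudget
  rw [hd, hf]
  have e1 : 1 / 4 * s.lam χ * (s.R i χ / s.lam χ) = 1 / 4 * s.R i χ := by field_simp
  rw [e1]
  refine key.trans (add_le_add ?_ ?_)
  · linarith
  · have := mul_le_mul_of_nonneg_left (s.abs_Er_y_le_corr h hy0 hE i χ) hC
    refine le_trans (le_of_eq ?_) this
    simp only [traceConst]
    ring

/-- Eventual upper bound for the diagonal sums of the dominating forms. -/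
theorem eventually_trS_Sop_le (h : s.Inv y0) (hfloor : ∀ χ, s.U χ = 1 → 128 + P.η ≤ s.F χ)
    (hy0 : y0 ∈ C.M) (hE : C.E y0 = 0) {η' : ℝ} (hη' : 0 < η') :
    ∀ᶠ p : Part C in atTop,
      ∑ i, (C.trS p (s.Sop i)).re ≤
        -(1 / 5) * ∑ i, C.intA (s.free i * s.R i) + 4 * P.r * ‖C.Ω‖ ^ 2 +
          traceConst P * ∑ i, (C.tr (s.corr i)).re + η' := by
  have ht : Tendsto (fun p : Part C => ∑ i, (C.trS p (s.Sop i)).re) atTop
      (𝓝 (∑ i, (C.intA (s.traceSym i) + 4 * ‖C.Ω‖ ^ 2))) :=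
    tendsto_finsetSum _ fun i _ => s.tendsto_trS_Sop h i
  have hle : ∑ i, (C.intA (s.traceSym i) + 4 * ‖C.Ω‖ ^ 2) ≤
      -(1 / 5) * ∑ i, C.intA (s.free i * s.R i) + 4 * P.r * ‖C.Ω‖ ^ 2 +
        traceConst P * ∑ i, (C.tr (s.corr i)).re := by
    have hi : ∀ i, C.intA (s.traceSym i) ≤
        -(1 / 5) * C.intA (s.free i * s.R i) + traceConst P * (C.tr (s.corr i)).re := by
      intro i
      rw [← C.intA_Er (h.corr_mem i) (IsSelfAdjoint.of_nonneg (h.corr_nonneg i)), ← C.intA_smul,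
        ← C.intA_smul, ← C.intA_add]
      exact C.intA_mono fun χ => by simpa using s.traceSym_le h hfloor hy0 hE i χ
    refine (Finset.sum_le_sum fun i _ => add_le_add_left (hi i) _).trans_eq ?_
    simp only [Finset.sum_add_distrib, Finset.mul_sum, Finset.sum_const, Finset.card_univ,
      Fintype.card_fin, nsmul_eq_mul]
    ring
  exact (ht.eventually (eventually_le_nhds (lt_add_of_le_of_pos hle hη'))).mono fun p hp => hp

end St

end Vale.Agent.P078.Finite
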