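import Vale.Agent.P078.Finite.Kernel
import Vale.Agent.P078.Finite.LopBounds
import Vale.Agent.P078.Finite.Positive
import Vale.Agent.P078.Finite.TraceBound
import Vale.Agent.P078.Finite.Moves
import Vale.Agent.P078.Finite.Taylor

/-!
One step of the iteration: the potential drops by a fixed amount.
-/

noncomputable section

open Filter

namespace Vale.Agent.P078.Finite

universe u

variable {K : Type u} [NormedAddCommGroup K] [InnerProductSpace ℂ K] [CompleteSpace K]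

namespace St

variable {C : Ctx K} {P : Par} {s : St C P} {y0 : K →L[ℂ] K} {gam : ℝ}

/-- Where a colour has a large gradient and can be lowered. -/
def bad (s : St C P) (i : Fin P.r) : C(C.Spec, ℝ) :=
  s.U * C.cutAt (s.R i) P.zeta * C.cutAt (s.g i - s.lam) 0

theorem bad_apply (i : Fin P.r) (χ : C.Spec) :
    s.bad i χ = s.U χ * C.cutAt (s.R i) P.zeta χ * C.cutAt (s.g i - s.lam) 0 χ := rfl

theorem Inv.bad_values (h : s.Inv y0) (i : Fin P.r) (χ : C.Spec) :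
    s.bad i χ = 0 ∨ s.bad i χ = 1 := by
  rw [bad_apply]
  rcases h.U_values χ with a | a <;> rw [a] <;>
    rcases idem_values (C.cutAt_idem (s.R i) P.zeta) χ with c | c <;> rw [c] <;>
    rcases idem_values (C.cutAt_idem (s.g i - s.lam) 0) χ with e | e <;> rw [e] <;> simp

theorem Inv.bad_spec (h : s.Inv y0) {i : Fin P.r} {χ : C.Spec} (hb : s.bad i χ = 1) :
    s.U χ = 1 ∧ P.zeta ≤ s.R i χ ∧ s.lam χ ≤ s.g i χ := by
  rw [bad_apply] at hb
  rcases h.U_values χ with a | a <;> rw [a] at hb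
  · simp at hb
  rcases idem_values (C.cutAt_idem (s.R i) P.zeta) χ with c | c <;> rw [c] at hb
  · simp at hb
  rcases idem_values (C.cutAt_idem (s.g i - s.lam) 0) χ with e | e <;> rw [e] at hb
  · simp at hb
  have e' := C.le_of_cutAt_eq_one e
  rw [ContinuousMap.sub_apply, sub_nonneg] at e'
  exact ⟨a, C.le_of_cutAt_eq_one c, e'⟩

/-- The free part carries most of the weights. -/
theorem Inv.free_lower (h : s.Inv y0) (χ : C.Spec) :
    110 * (s.U χ * (1 - s.finishable χ)) ≤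
      ∑ i, s.free i χ * s.R i χ + 1 / 2 * ∑ i, s.bad i χ := by
  have h0 : 0 ≤ ∑ i, s.free i χ * s.R i χ := Finset.sum_nonneg fun i _ => mul_nonneg
    (by rcases h.free_values i χ with e | e <;> simp [e]) (h.R_nonneg i χ)
  have h1 : 0 ≤ ∑ i, s.bad i χ := Finset.sum_nonneg fun i _ => by
    rcases h.bad_values i χ with e | e <;> simp [e]
  rcases h.U_values χ with hU | hU
  · rw [hU]; linarith
  rcases finishable_values (s := s) χ with hf | hf
  case inr => rw [hf]; linarith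
  have hi : ∀ i, s.R i χ ≤ s.free i χ * s.R i χ + P.zeta +
      10000 * (s.R i χ * (s.e i χ + s.l i χ)) + 1 / 2 * s.bad i χ := fun i => by
    have hR := h.R_nonneg i χ
    have hel := mul_nonneg hR (h.el_nonneg i χ)
    have hz := P.zeta_pos
    have hR4 := R_le_of_not_finishable hf i
    rw [free_apply, bad_apply, hU, hf]
    rcases idem_values (C.cutAt_idem (s.R i) P.zeta) χ with c | c <;> rw [c]
    · have := C.le_of_cutAt_eq_zero c
      linarith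
    rcases idem_values (C.cutAt_idem (s.e i + s.l i) (1 / 10000)) χ with d | d <;> rw [d]
    · rcases idem_values (C.cutAt_idem (s.g i - s.lam) 0) χ with e | e <;> rw [e] <;> linarith
    · have hd : 1 / 10000 ≤ s.e i χ + s.l i χ := C.le_of_cutAt_eq_one d
      have := mul_le_mul_of_nonneg_left hd hR
      rcases idem_values (C.cutAt_idem (s.g i - s.lam) 0) χ with e | e <;> rw [e] <;> linarith
  have hs := Finset.sum_le_sum fun i (_ : i ∈ Finset.univ) => hi i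
  simp only [Finset.sum_add_distrib, ← Finset.mul_sum, Finset.sum_const, Finset.card_univ,
    Fintype.card_fin, nsmul_eq_mul] at hs
  have hz : (P.r : ℝ) * P.zeta = 16 := by
    rw [Par.zeta]
    field_simp [P.r_pos.ne']
  have hsum : 128 + P.η / 2 ≤ ∑ i, s.R i χ := by
    have := Finset.sum_nonneg fun i (_ : i ∈ (Finset.univ : Finset (Fin P.r))) =>
      mul_nonneg (h.R_nonneg i χ) (h.el_nonneg i χ)
    linarith [h.load_le χ, h.floor χ hU]
  have := h.load_le χ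
  rw [hU, hf]
  linarith [h.floor χ hU, P.hη]

/-- A move along which the second variation is controlled by the free part. -/
theorem Inv.exists_move (h : s.Inv y0) (hg : 0 < gam) (hgz : gam ≤ P.z)
    (hgap : ∀ i, ‖s.B i‖ ≤ P.z - gam) (hfloor : ∀ χ, s.U χ = 1 → 128 + P.η ≤ s.F χ)
    (hy0 : y0 ∈ C.M) (hE : C.E y0 = 0) (n : ℕ) {e : ℝ} (he : 0 < e) :
    ∃ x : Fin P.r → C(C.Spec, ℝ),
      (∀ i χ, |x i χ| ≤ P.r / √P.zeta * Ctx.dirBound P.r n (opBound P gam)) ∧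
      (∀ i, s.U * x i = x i) ∧ (∀ i χ, x i χ ≠ 0 → s.R i χ ≤ 1 / 4) ∧
      ∑ i, s.Q i (s.R i * x i) + s.sqTerm (fun i => s.R i * x i) ≤
        -(1 / 5) * ∑ i, C.intA (s.free i * s.R i) + 4 * C.intA s.U +
          traceConst P * ∑ i, (C.tr (s.corr i)).re + 2 * e +
          (P.r * opBound P gam ^ 2 + 1) * (P.r * ‖C.Ω‖ ^ 2) / (2 * n + 1) := by
  choose hLB Lf Lt hLo hLt hLfn hLtn hUL hLf using fun i => h.exists_Lop hg hgz (hgap i)
  choose hSB hS0 Sf hSl hSf using fun i => h.exists_Sop i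
  have hUl : ∀ v, C.gam (C.op s.U) 1 (C.vec v) = C.vec (s.U * v) := fun v => C.lifts_mulMap s.U v
  have hdir := C.exists_direction n (C1 := 4) (by norm_num) he h.U_idem hLo hLt hLfn hLtn hLB
    hUL hUl hS0 hSB hSl
  obtain ⟨p, ⟨v, hv, hform, hker⟩, htr⟩ :=
    (hdir.and (eventually_trS_Sop_le h hfloor hy0 hE he)).exists
  refine ⟨fun i => s.dir i * v i, fun i χ => ?_, fun i => ?_, fun i χ hne => ?_, ?_⟩
  · rw [ContinuousMap.mul_apply, abs_mul]
    exact mul_le_mul (h.abs_dir_le i χ) (((v i).norm_coe_le_norm χ).trans (hv i)) (abs_nonneg _)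
      (div_nonneg P.r_pos.le (Real.sqrt_nonneg _))
  · ext χ
    simp only [ContinuousMap.mul_apply, dir_apply]
    rw [← mul_assoc, ← mul_assoc, h.free_U]
  · refine (h.freeAt ((h.free_values i χ).resolve_left fun hf => hne ?_)).R_le
    simp [dir_apply, hf]
  have hX : (fun i => s.R i * (s.dir i * v i)) = fun i => s.D i * v i :=
    funext fun i => (mul_assoc _ _ _).symm
  have hq : ∑ i, s.Q i (s.D i * v i) ≤
      ∑ i, (C.intA (v i * Sf i (v i)) - 4 * C.intA (v i * v i)) :=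
    Finset.sum_le_sum fun i _ => by
      rw [hSf]
      linarith [h.bForm_nonneg i (s.D i * v i)]
  have hsq : s.sqTerm (fun i => s.D i * v i) = ‖∑ i, s.Lop i (C.vec (v i))‖ ^ 2 := by
    rw [Finset.sum_congr rfl fun i _ => hLo i (v i), ← C.vec_sum, C.sq_norm_vec, sqTerm]
    simp only [hLf, ← Finset.mul_sum]
    congr 1
    ext χ
    have hw : 0 ≤ s.w χ * s.w χ * s.w χ :=
      mul_nonneg (mul_nonneg (h.w_nonneg χ) (h.w_nonneg χ)) (h.w_nonneg χ)
    simp only [ContinuousMap.mul_apply, w32, sqC_apply]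
    linear_combination (-(((∑ i, s.psi1 i (s.D i * v i)) χ) * ((∑ i, s.psi1 i (s.D i * v i)) χ))) *
      Real.mul_self_sqrt hw
  rw [hX, hsq, Finset.sum_congr rfl fun i _ =>
    show s.Q i (s.R i * (s.dir i * v i)) = s.Q i (s.D i * v i) by rw [← mul_assoc]; rfl]
  linarith

/-- A bound on the quadratic coefficient along bounded moves. -/
theorem Inv.second_le (h : s.Inv y0) (hg : 0 < gam) (hgap : ∀ i, ‖s.B i‖ ≤ P.z - gam)
    {x : Fin P.r → C(C.Spec, ℝ)} (hx : ∀ i χ, |x i χ| ≤ 1) :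
    ∑ i, s.Q i (s.R i * x i) + s.sqTerm (fun i => s.R i * x i) ≤
      ((P.z / gam + 1) + 2 * (P.z / gam) ^ 2) * s.Phi +
        ((2 / P.η) ^ 2 * (P.r * (1 + 1000000 * (((P.z / gam + 1) + 2 * (P.z / gam) ^ 2) * P.r))) +
          (2 / P.η) ^ 3 * (P.r * (1 + 1000000 * ((1 + (P.z / gam + 1)) * P.r))) ^ 2) *
          ‖C.Ω‖ ^ 2 := by
  set X := fun i => s.R i * x i with hX
  obtain ⟨c, hc⟩ : ∃ c, c = (P.z / gam + 1) + 2 * (P.z / gam) ^ 2 := ⟨_, rfl⟩
  obtain ⟨p1, hp1⟩ : ∃ c, c = (P.r : ℝ) * (1 + 1000000 * ((1 + (P.z / gam + 1)) * P.r)) :=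
    ⟨_, rfl⟩
  obtain ⟨p2, hp2⟩ : ∃ d, d = (P.r : ℝ) * (1 + 1000000 * (c * P.r)) := ⟨_, rfl⟩
  rw [← hc, ← hp1, ← hp2]
  set T2 := fun i => X i * (s.e1 i (X i) + s.l1 i (X i)) + (1 + s.R i) * s.e2 i (X i) with hT2
  set Q1 := ∑ i, s.psi1 i (X i) with hQ1
  set Q2 := ∑ i, s.psi2 i (X i) with hQ2
  have hQ : P.eps0 * ∑ i, C.intA (T2 i) - C.intA (s.lam * Q2) = ∑ i, s.Q i (X i) := by
    rw [hQ2, Finset.mul_sum, Finset.mul_sum, C.intA_sum, ← Finset.sum_sub_distrib]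
    exact Finset.sum_congr rfl fun i _ => h.intA_second i (X i)
  have ha : 0 ≤ P.z / gam := div_nonneg P.z_pos.le hg.le
  have hb : ∀ χ, s.U χ = 1 → |Q1 χ| ≤ p1 ∧ |Q2 χ| ≤ p2 := by
    intro χ hU
    have hpe := fun i => ((h.point_expand hg hgap le_rfl hx (t := 0) (by norm_num) i χ).2 hU)
    choose δ _ _ h1 h2 using hpe
    rw [hQ1, hQ2, ContinuousMap.sum_apply, ContinuousMap.sum_apply]
    constructor
    · refine (Finset.abs_sum_le_sum_abs _ _).trans ((Finset.sum_le_sum fun i _ => h1 i).trans_eq ?_)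
      rw [Finset.sum_const, Finset.card_univ, Fintype.card_fin, nsmul_eq_mul, hp1]
      ring
    · refine (Finset.abs_sum_le_sum_abs _ _).trans ((Finset.sum_le_sum fun i _ => h2 i).trans_eq ?_)
      rw [Finset.sum_const, Finset.card_univ, Fintype.card_fin, nsmul_eq_mul, hp2, hc]
      ring
  have hη : 0 ≤ 2 / P.η := (div_pos two_pos P.hη).le
  have hp1' : 0 ≤ p1 := by rw [hp1]; positivity
  have hp2' : 0 ≤ p2 := by rw [hp2, hc]; positivity
  have hrest : C.intA (s.w * s.w * s.w * (Q1 * Q1) + (-1 : ℝ) • (s.lam * Q2)) ≤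
      ((2 / P.η) ^ 2 * p2 + (2 / P.η) ^ 3 * p1 ^ 2) * ‖C.Ω‖ ^ 2 := by
    rw [← C.intA_const]
    refine C.intA_mono fun χ => ?_
    simp only [lam, ContinuousMap.add_apply, ContinuousMap.mul_apply, ContinuousMap.smul_apply,
      smul_eq_mul, Algebra.algebraMap_eq_smul_one, ContinuousMap.one_apply, mul_one]
    rcases h.U_values χ with hU | hU
    · rw [show s.w χ = 0 by rw [w_apply, hU, zero_mul]]
      have : 0 ≤ (2 / P.η) ^ 2 * p2 + (2 / P.η) ^ 3 * p1 ^ 2 := by positivity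
      linarith
    obtain ⟨b1, b2⟩ := hb χ hU
    have w0 := h.w_nonneg χ
    have w1 := h.w_le χ
    have k1 : s.w χ * s.w χ * s.w χ * (Q1 χ * Q1 χ) ≤ (2 / P.η) ^ 3 * p1 ^ 2 := by
      rw [show s.w χ * s.w χ * s.w χ = s.w χ ^ 3 by ring, ← sq (Q1 χ), ← sq_abs (Q1 χ)]
      exact mul_le_mul (pow_le_pow_left₀ w0 w1 3) (pow_le_pow_left₀ (abs_nonneg _) b1 2)
        (sq_nonneg _) (pow_nonneg hη 3)
    have k2 : -1 * (s.w χ * s.w χ * Q2 χ) ≤ (2 / P.η) ^ 2 * p2 := by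
      rw [show -1 * (s.w χ * s.w χ * Q2 χ) = s.w χ ^ 2 * (-Q2 χ) by ring]
      exact mul_le_mul_of_nonneg_left ((neg_le_abs _).trans b2) (sq_nonneg _) |>.trans
        (mul_le_mul_of_nonneg_right (pow_le_pow_left₀ w0 w1 2) hp2')
    linarith
  rw [C.intA_add, C.intA_smul] at hrest
  have hfirst : ∀ i, C.intA (T2 i) ≤ c * C.intA ((1 + s.R i) * (s.e i + s.l i)) := fun i => by
    rw [← C.intA_smul]
    refine C.intA_mono fun χ => ?_
    obtain ⟨hD, hE⟩ := h.load_bounds hg (hgap i) zero_le_one (hx i) χ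
    simp only [hT2, ContinuousMap.add_apply, ContinuousMap.mul_apply, ContinuousMap.smul_apply,
      ContinuousMap.one_apply, smul_eq_mul]
    have hR := h.R_nonneg i χ
    have hel := h.el_nonneg i χ
    have hXa : |X i χ| ≤ s.R i χ := by
      rw [hX, ContinuousMap.mul_apply, abs_mul, abs_of_nonneg hR]
      exact mul_le_of_le_one_right hR (hx i χ)
    have k1 : X i χ * (s.e1 i (X i) χ + s.l1 i (X i) χ) ≤
        s.R i χ * (1 * (P.z / gam + 1) * (s.e i χ + s.l i χ)) := by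
      refine (le_abs_self _).trans ?_
      rw [abs_mul]
      exact mul_le_mul hXa ((abs_add_le _ _).trans hD) (abs_nonneg _) hR
    have k2 : (1 + s.R i χ) * s.e2 i (X i) χ ≤
        (1 + s.R i χ) * (2 * 1 ^ 2 * (P.z / gam) ^ 2 * (s.e i χ + s.l i χ)) :=
      mul_le_mul_of_nonneg_left ((le_abs_self _).trans hE) (by linarith)
    have k3 : 0 ≤ (P.z / gam + 1) * (s.e i χ + s.l i χ) := by positivity
    rw [hc]
    linarith
  have hPhi : P.eps0 * ∑ i, C.intA ((1 + s.R i) * (s.e i + s.l i)) ≤ s.Phi :=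
    le_add_of_nonneg_right (C.intA_nonneg h.w_nonneg)
  have hc0 : 0 ≤ c := by rw [hc]; positivity
  have hf := mul_le_mul_of_nonneg_left
    (Finset.sum_le_sum fun i (_ : i ∈ Finset.univ) => hfirst i) P.eps0_pos.le
  rw [← Finset.mul_sum] at hf
  have := mul_le_mul_of_nonneg_left hPhi hc0
  have hsq : s.sqTerm X = C.intA (s.w * s.w * s.w * (Q1 * Q1)) := rfl
  rw [← hQ, hsq]
  linarith

theorem Budget.shift {Φ0 : ℝ} (hb : s.Budget gam Φ0) (hgam : 0 ≤ gam) {t : ℝ}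
    {x : Fin P.r → C(C.Spec, ℝ)} (hle : (s.shift t x).Phi ≤ s.Phi) :
    (s.shift t x).Budget gam Φ0 :=
  ⟨hb.corr_le.trans (mul_le_mul_of_nonneg_left (by linarith)
      (div_nonneg (by linarith) P.eps0_pos.le)),
    le_trans hb.removed_le (mul_le_mul_of_nonneg_left (by linarith) P.hη.le)⟩

/-- Lowering a colour with a large gradient. -/
theorem Inv.exists_lower (h : s.Inv y0) {Φ0 d K1 A C1 τ : ℝ} (hbud : s.Budget gam Φ0)
    (hg : 0 < gam) {i : Fin P.r}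
    (hi : d ≤ C.intA (s.bad i)) (hτ0 : 0 < τ) (hτ1 : τ ≤ 1)
    (hexp : ∀ x : Fin P.r → C(C.Spec, ℝ), (∀ j χ, |x j χ| ≤ 1) → (∀ j, s.U * x j = x j) →
      ((∀ j χ, (s.shift τ x).R j χ ≤ 1 / 2) → (s.shift τ x).Inv y0) ∧
      (s.shift τ x).Phi ≤ s.Phi + τ * s.L1 (fun j => s.R j * x j) +
        τ ^ 2 * (∑ j, s.Q j (s.R j * x j) + s.sqTerm (fun j => s.R j * x j)) +
        C1 * |τ| ^ 3 * (s.Phi + ‖C.Ω‖ ^ 2 + 1))
    (hK : ∀ x : Fin P.r → C(C.Spec, ℝ), (∀ j χ, |x j χ| ≤ 1) →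
      ∑ j, s.Q j (s.R j * x j) + s.sqTerm (fun j => s.R j * x j) ≤ K1)
    (hA : C1 * (s.Phi + ‖C.Ω‖ ^ 2 + 1) ≤ A) (hA0 : 0 ≤ A)
    (hτ : τ * (2 * (K1 + A)) ≤ P.zeta * P.eps0 * d) (hd : 0 ≤ d) :
    ∃ t : St C P, t.Inv y0 ∧ t.Budget gam Φ0 ∧
      t.Phi ≤ s.Phi - τ * (P.zeta * P.eps0 * d) / 2 := by
  classical
  set x : Fin P.r → C(C.Spec, ℝ) := fun j => if j = i then -s.bad i else 0 with hxdef
  have hxi : x i = -s.bad i := if_pos rfl
  have hxj : ∀ {j}, j ≠ i → x j = 0 := fun hj => if_neg hj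
  have hbv : ∀ χ, 0 ≤ s.bad i χ ∧ s.bad i χ ≤ 1 := fun χ => by
    rcases h.bad_values i χ with e | e <;> rw [e] <;> norm_num
  have hx : ∀ j χ, -1 ≤ x j χ ∧ x j χ ≤ 0 := fun j χ => by
    by_cases hj : j = i
    · subst hj
      rw [hxi, ContinuousMap.neg_apply]
      constructor <;> linarith [(hbv χ).1, (hbv χ).2]
    · rw [hxj hj, ContinuousMap.zero_apply]
      norm_num
  have hx' : ∀ j χ, |x j χ| ≤ 1 := fun j χ => abs_le.2 ⟨(hx j χ).1, by linarith [(hx j χ).2]⟩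
  have hUx : ∀ j, s.U * x j = x j := fun j => by
    by_cases hj : j = i
    · subst hj
      rw [hxi]
      ext χ
      rw [ContinuousMap.mul_apply, ContinuousMap.neg_apply]
      rcases h.bad_values j χ with e | e
      · rw [e, neg_zero, mul_zero]
      · rw [e, (h.bad_spec e).1, one_mul]
    · rw [hxj hj, mul_zero]
  obtain ⟨hinv, hstep⟩ := hexp x hx' hUx
  have hR : ∀ j χ, (s.shift τ x).R j χ ≤ 1 / 2 := fun j χ => by
    rw [shift_R]
    exact le_trans (add_le_of_nonpos_right (mul_nonpos_of_nonneg_of_nonpos hτ0.le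
      (mul_nonpos_of_nonneg_of_nonpos (h.R_nonneg j χ) (hx j χ).2))) (h.R_le j χ)
  have hL : s.L1 (fun j => s.R j * x j) ≤ -(P.zeta * P.eps0 * d) := by
    rw [L1, Finset.sum_eq_single i (fun j _ hj => by
      rw [hxj hj, mul_zero, zero_mul, ← zero_smul ℝ (0 : C(C.Spec, ℝ)), C.intA_smul, zero_mul])
      (fun hh => absurd (Finset.mem_univ i) hh)]
    have hge : P.zeta * P.eps0 * C.intA (s.bad i) ≤ C.intA (s.bad i * (s.R i * s.g i)) := by
      rw [← C.intA_smul]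
      refine C.intA_mono fun χ => ?_
      simp only [ContinuousMap.mul_apply, ContinuousMap.smul_apply, smul_eq_mul]
      rcases h.bad_values i χ with e | e <;> rw [e]
      · simp
      obtain ⟨eU, eR, eg⟩ := h.bad_spec e
      rw [one_mul, mul_one]
      exact mul_le_mul eR ((h.le_lam eU).trans eg) P.eps0_pos.le (h.R_nonneg i χ)
    rw [hxi, show s.R i * -s.bad i * s.g i = (-1 : ℝ) • (s.bad i * (s.R i * s.g i)) by
      rw [neg_one_smul]; ring, C.intA_smul]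
    linarith [mul_le_mul_of_nonneg_left hi (mul_nonneg P.zeta_pos.le P.eps0_pos.le)]
  have h1 := mul_le_mul_of_nonneg_left hL hτ0.le
  have h2 := mul_le_mul_of_nonneg_left (hK x hx') (sq_nonneg τ)
  have h3 : C1 * |τ| ^ 3 * (s.Phi + ‖C.Ω‖ ^ 2 + 1) ≤ τ ^ 2 * A := by
    rw [abs_of_pos hτ0, mul_comm C1, mul_assoc]
    exact (mul_le_mul_of_nonneg_left hA (pow_nonneg hτ0.le 3)).trans
      (mul_le_mul_of_nonneg_right (pow_le_pow_of_le_one hτ0.le hτ1 (by norm_num)) hA0)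
  have h5 := mul_le_mul_of_nonneg_left hτ hτ0.le
  have key : (s.shift τ x).Phi ≤ s.Phi - τ * (P.zeta * P.eps0 * d) / 2 := by linarith
  have : 0 ≤ τ * (P.zeta * P.eps0 * d) :=
    mul_nonneg hτ0.le (mul_nonneg (mul_nonneg P.zeta_pos.le P.eps0_pos.le) hd)
  exact ⟨_, hinv hR, hbud.shift hg.le (by linarith), key⟩

/-- Moving along a direction of negative second variation. -/
theorem Inv.exists_bend (h : s.Inv y0) {Φ0 b q A C2 τ : ℝ} (hbud : s.Budget gam Φ0) (hg : 0 < gam)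
    {x : Fin P.r → C(C.Spec, ℝ)} (hxb : ∀ i χ, |x i χ| ≤ b)
    (hxR : ∀ i χ, x i χ ≠ 0 → s.R i χ ≤ 1 / 4)
    (hQ : ∑ i, s.Q i (s.R i * x i) + s.sqTerm (fun i => s.R i * x i) ≤ -(2 * q))
    (hexp : ∀ t : ℝ, |t| = τ →
      ((∀ i χ, (s.shift t x).R i χ ≤ 1 / 2) → (s.shift t x).Inv y0) ∧
      (s.shift t x).Phi ≤ s.Phi + t * s.L1 (fun i => s.R i * x i) +
        t ^ 2 * (∑ i, s.Q i (s.R i * x i) + s.sqTerm (fun i => s.R i * x i)) +
        C2 * |t| ^ 3 * (s.Phi + ‖C.Ω‖ ^ 2 + 1))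
    (hA : C2 * (s.Phi + ‖C.Ω‖ ^ 2 + 1) ≤ A) (hq : 0 ≤ q) (hτ0 : 0 < τ) (hτb : τ * b ≤ 1)
    (hτ : τ * A ≤ q) :
    ∃ t : St C P, t.Inv y0 ∧ t.Budget gam Φ0 ∧ t.Phi ≤ s.Phi - q * τ ^ 2 := by
  obtain ⟨σ, hσ, hσL⟩ : ∃ σ : ℝ, |σ| = τ ∧ σ * s.L1 (fun i => s.R i * x i) ≤ 0 := by
    rcases le_total (s.L1 fun i => s.R i * x i) 0 with hl | hl
    · exact ⟨τ, abs_of_pos hτ0, mul_nonpos_of_nonneg_of_nonpos hτ0.le hl⟩
    · exact ⟨-τ, by rw [abs_neg, abs_of_pos hτ0],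
        mul_nonpos_of_nonpos_of_nonneg (by linarith) hl⟩
  obtain ⟨hinv, hstep⟩ := hexp σ hσ
  have hR : ∀ i χ, (s.shift σ x).R i χ ≤ 1 / 2 := fun i χ => by
    rw [shift_R]
    by_cases h0 : x i χ = 0
    · rw [h0, mul_zero, mul_zero, add_zero]; exact h.R_le i χ
    have hR4 := hxR i χ h0
    have hσx : |σ * x i χ| ≤ 1 := by
      rw [abs_mul, hσ]
      exact (mul_le_mul_of_nonneg_left (hxb i χ) hτ0.le).trans hτb
    have h1 : σ * (s.R i χ * x i χ) ≤ s.R i χ * 1 := by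
      rw [mul_left_comm]
      exact mul_le_mul_of_nonneg_left ((le_abs_self _).trans hσx) (h.R_nonneg i χ)
    linarith
  have e : σ ^ 2 = τ ^ 2 := by rw [← sq_abs σ, hσ]
  have h2 := mul_le_mul_of_nonneg_left hQ (sq_nonneg τ)
  have h3 : C2 * |σ| ^ 3 * (s.Phi + ‖C.Ω‖ ^ 2 + 1) ≤ τ ^ 2 * (τ * A) := by
    rw [hσ, show τ ^ 2 * (τ * A) = τ ^ 3 * A by ring, mul_comm C2, mul_assoc]
    exact mul_le_mul_of_nonneg_left hA (pow_nonneg hτ0.le 3)
  have h4 := mul_le_mul_of_nonneg_left hτ (sq_nonneg τ)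
  rw [e] at hstep
  have key : (s.shift σ x).Phi ≤ s.Phi - q * τ ^ 2 := by linarith
  exact ⟨_, hinv hR, hbud.shift hg.le (by linarith [mul_nonneg hq (sq_nonneg τ)]), key⟩

/-- The free part is large when little can be finished or lowered. -/
theorem Inv.free_sum (h : s.Inv y0) {d : ℝ} (hfin : C.intA (s.U * s.finishable) ≤ d)
    (hbad : ∀ i, C.intA (s.bad i) ≤ d) :
    110 * C.intA s.U - 110 * d - P.r * d / 2 ≤ ∑ i, C.intA (s.free i * s.R i) := by
  have hm : C.intA ((110 : ℝ) • (s.U * (1 - s.finishable))) ≤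
      C.intA (∑ i, s.free i * s.R i + (1 / 2 : ℝ) • ∑ i, s.bad i) :=
    C.intA_mono fun χ => by simpa [ContinuousMap.sum_apply] using h.free_lower χ
  rw [C.intA_add, C.intA_smul, C.intA_smul, C.intA_sum, C.intA_sum, mul_sub, mul_one,
    C.intA_diff] at hm
  have hs : ∑ i, C.intA (s.bad i) ≤ P.r * d :=
    (Finset.sum_le_sum fun i _ => hbad i).trans_eq (by simp)
  linarith

/-- One step: as long as much of the algebra is in play, the potential drops by a fixed amount. -/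
theorem exists_step {δ Φ0 : ℝ} (hδ : 0 < δ) (hΦ0 : 0 ≤ Φ0) (hg : 0 < gam) (hgz : gam ≤ P.z)
    (htr : traceConst P * (2 * gam / P.eps0 * Φ0) ≤ δ) (hy0 : y0 ∈ C.M) (hE : C.E y0 = 0) :
    ∃ c > 0, ∀ s : St C P, s.Inv y0 → s.Budget gam Φ0 → s.Phi ≤ Φ0 →
      (∀ i, ‖s.B i‖ ≤ P.z - gam) → (∀ χ, s.U χ = 1 → 128 + P.η ≤ s.F χ) → δ < C.intA s.U →
      ∃ t : St C P, t.Inv y0 ∧ t.Budget gam Φ0 ∧ t.Phi ≤ s.Phi - c := by
  have hr := P.r_pos
  obtain ⟨m, hm⟩ : ∃ m, m = (P.r * opBound P gam ^ 2 + 1) * (P.r * ‖C.Ω‖ ^ 2) := ⟨_, rfl⟩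
  obtain ⟨n, hn⟩ := exists_nat_ge (m / δ)
  have hn' : m / (2 * n + 1) ≤ δ := by
    rw [div_le_iff₀ hδ] at hn
    rw [div_le_iff₀ (by positivity)]
    linarith [mul_nonneg (Nat.cast_nonneg (α := ℝ) n) hδ.le]
  obtain ⟨d, hd⟩ : ∃ d, d = δ / (30 + P.r) := ⟨_, rfl⟩
  have hd0 : 0 < d := hd ▸ div_pos hδ (by linarith)
  have hdd : 30 * d + P.r * d = δ := by
    rw [hd, ← add_mul, mul_div_cancel₀ _ (by positivity : (30 + P.r : ℝ) ≠ 0)]
  have ha0 : 0 < P.zeta * P.eps0 * d := mul_pos (mul_pos P.zeta_pos P.eps0_pos) hd0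
  obtain ⟨b, hb⟩ : ∃ b, b = max (P.r / √P.zeta * Ctx.dirBound P.r n (opBound P gam)) 1 := ⟨_, rfl⟩
  have hb1 : 1 ≤ b := hb ▸ le_max_right _ _
  obtain ⟨t2, ht2, C2, hT2⟩ := taylor C P hg b
  obtain ⟨t1, ht1, C1, hT1⟩ := taylor C P hg 1
  obtain ⟨A, hA⟩ : ∃ A, A = Φ0 + ‖C.Ω‖ ^ 2 + 1 := ⟨_, rfl⟩
  have hA0 : 0 < A := by rw [hA]; positivity
  have hz := P.z_pos
  obtain ⟨k, hk⟩ : ∃ k, k = (P.z / gam + 1) + 2 * (P.z / gam) ^ 2 := ⟨_, rfl⟩
  have hk0 : 0 ≤ k := by rw [hk]; positivity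
  obtain ⟨K2, hK2⟩ : ∃ K2, K2 = (2 / P.η) ^ 2 * (P.r * (1 + 1000000 * (k * P.r))) +
      (2 / P.η) ^ 3 * (P.r * (1 + 1000000 * ((1 + (P.z / gam + 1)) * P.r))) ^ 2 := ⟨_, rfl⟩
  have hK20 : 0 ≤ K2 := by have := P.hη; rw [hK2]; positivity
  obtain ⟨K1, hK1⟩ : ∃ K1, K1 = k * Φ0 + K2 * ‖C.Ω‖ ^ 2 := ⟨_, rfl⟩
  have hK10 : 0 ≤ K1 := hK1 ▸ add_nonneg (mul_nonneg hk0 hΦ0) (mul_nonneg hK20 (sq_nonneg _))
  obtain ⟨τ1, hτ1⟩ : ∃ τ, τ =
      min (min t1 1) (P.zeta * P.eps0 * d / (2 * (K1 + |C1| * A) + 1)) := ⟨_, rfl⟩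
  have hτ10 : 0 < τ1 := hτ1 ▸ lt_min (lt_min ht1 one_pos) (div_pos ha0 (by positivity))
  obtain ⟨τ2, hτ2⟩ : ∃ τ, τ = min (min t2 (1 / b)) (5 * δ / (|C2| * A + 1)) := ⟨_, rfl⟩
  have hτ20 : 0 < τ2 := hτ2 ▸ lt_min (lt_min ht2 (by positivity))
    (div_pos (by linarith) (by positivity))
  refine ⟨min (d / P.r) (min (τ1 * (P.zeta * P.eps0 * d) / 2) (5 * δ * τ2 ^ 2)),
    lt_min (div_pos hd0 hr) (lt_min (by positivity) (by positivity)),
    fun s h hbud hPhi hgap hfloor hU => ?_⟩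
  have hAs : ∀ {c : ℝ}, c * (s.Phi + ‖C.Ω‖ ^ 2 + 1) ≤ |c| * A := fun {c} => by
    have h0 := h.Phi_nonneg
    exact (mul_le_mul_of_nonneg_right (le_abs_self c) (by positivity)).trans
      (mul_le_mul_of_nonneg_left (by rw [hA]; linarith) (abs_nonneg c))
  by_cases hfin : d ≤ C.intA (s.U * s.finishable)
  · obtain ⟨t, ht, htb, htΦ, -, -⟩ := exists_finish h hbud hg.le
    refine ⟨t, ht, htb, htΦ.trans (sub_le_sub_left ((min_le_left _ _).trans ?_) _)⟩
    rw [one_div_mul_eq_div]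
    exact div_le_div_of_nonneg_right hfin hr.le
  rw [not_le] at hfin
  by_cases hbad : ∃ i, d ≤ C.intA (s.bad i)
  · obtain ⟨i, hi⟩ := hbad
    have hτ : τ1 * (2 * (K1 + |C1| * A)) ≤ P.zeta * P.eps0 * d := by
      have : τ1 * (2 * (K1 + |C1| * A) + 1) ≤ P.zeta * P.eps0 * d := by
        rw [← le_div_iff₀ (by positivity), hτ1]
        exact min_le_right _ _
      linarith
    have ht : |τ1| ≤ t1 := by
      rw [abs_of_pos hτ10, hτ1]; exact (min_le_left _ _).trans (min_le_left _ _)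
    obtain ⟨t, a, b', c⟩ := h.exists_lower (τ := τ1) (C1 := C1) (A := |C1| * A) (K1 := K1) hbud hg
      hi hτ10 (by rw [hτ1]; exact (min_le_left _ _).trans (min_le_right _ _))
      (fun x hx hUx =>
        ⟨(hT1 s y0 x τ1 h hgap hfloor hx hUx ht).1, (hT1 s y0 x τ1 h hgap hfloor hx hUx ht).2.2⟩)
      (fun x hx => by
        refine (h.second_le hg hgap hx).trans ?_
        rw [← hk, ← hK2, hK1]
        exact add_le_add (mul_le_mul_of_nonneg_left hPhi hk0) le_rfl)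
      hAs (by positivity) hτ hd0.le
    exact ⟨t, a, b', c.trans (sub_le_sub_left ((min_le_right _ _).trans (min_le_left _ _)) _)⟩
  push Not at hbad
  obtain ⟨x, hx, hUx, hxR, hQ⟩ := h.exists_move hg hgz hgap hfloor hy0 hE n (half_pos hδ)
  rw [← hm] at hQ
  have hfree := h.free_sum hfin.le fun i => (hbad i).le
  have hcorr : traceConst P * ∑ i, (C.tr (s.corr i)).re ≤ δ := by
    refine le_trans (mul_le_mul_of_nonneg_left (hbud.corr_le.trans ?_) ?_) htr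
    · exact mul_le_mul_of_nonneg_left (by linarith [h.Phi_nonneg])
        (div_nonneg (by linarith) P.eps0_pos.le)
    · exact div_nonneg (by norm_num) P.z_pos.le
  have hQ' : ∑ i, s.Q i (s.R i * x i) + s.sqTerm (fun i => s.R i * x i) ≤ -(2 * (5 * δ)) := by
    linarith [mul_nonneg hr.le hd0.le]
  have hxb : ∀ i χ, |x i χ| ≤ b := fun i χ => (hx i χ).trans (hb ▸ le_max_left _ _)
  have hσt : ∀ t : ℝ, |t| = τ2 → |t| ≤ t2 := fun t ht => by
    rw [ht, hτ2]; exact (min_le_left _ _).trans (min_le_left _ _)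
  obtain ⟨t, a, b', c⟩ := h.exists_bend (τ := τ2) (C2 := C2) (A := |C2| * A) hbud hg hxb hxR hQ'
    (fun t ht => ⟨(hT2 s y0 x t h hgap hfloor hxb hUx (hσt t ht)).1,
      (hT2 s y0 x t h hgap hfloor hxb hUx (hσt t ht)).2.2⟩)
    hAs (by linarith) hτ20
    (by rw [← le_div_iff₀ (by linarith), hτ2]; exact (min_le_left _ _).trans (min_le_right _ _))
    (by
      have : τ2 * (|C2| * A + 1) ≤ 5 * δ := by
        rw [← le_div_iff₀ (by positivity), hτ2]
        exact min_le_right _ _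
      linarith)
  exact ⟨t, a, b', c.trans (sub_le_sub_left ((min_le_right _ _).trans (min_le_right _ _)) _)⟩

end St

end Vale.Agent.P078.Finite
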