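import Vale.Agent.P078.Finite.Amplify

/-!
Algebras with a tracial separating vector.
-/

noncomputable section

open scoped InnerProductSpace

namespace Vale.Agent.P078.Finite

universe u

variable {H : Type u} [NormedAddCommGroup H] [InnerProductSpace ℂ H] [CompleteSpace H]

/-- A tracial separating vector gives trace corners for every subalgebra. -/
theorem hasTraceCorners_of_vector {M : VonNeumannAlgebra H} (A : StarSubalgebra ℂ (H →L[ℂ] H))
    {Ω : H} (htr : ∀ x ∈ M, ∀ y ∈ M, ⟪Ω, (x * y) Ω⟫_ℂ = ⟪Ω, (y * x) Ω⟫_ℂ)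
    (hsep : ∀ x ∈ M, x Ω = 0 → x = 0) : HasTraceCorners M A := by
  intro F δ hδ
  refine ⟨1, one_mem A, IsStarProjection.one _, fun v _ => by simpa using hδ,
    fun n => if n = 0 then Ω else 0, fun n => rfl, ?_, fun x hx y hy _ _ => ?_,
    fun x hx _ h0 => hsep x hx (by simpa using h0 0)⟩
  · exact summable_of_ne_finset_zero (s := {0}) fun n hn => by simp_all
  · rw [tsum_eq_single 0 (fun n hn => by simp [hn]), tsum_eq_single 0 (fun n hn => by simp [hn])]
    simpa using htr x hx y hy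

/-- `Ω` is tracial and separating for `M`. -/
def IsTracialSeparating (M : VonNeumannAlgebra H) (Ω : H) : Prop :=
  (∀ x ∈ M, ∀ y ∈ M, ⟪Ω, (x * y) Ω⟫_ℂ = ⟪Ω, (y * x) Ω⟫_ℂ) ∧ ∀ x ∈ M, x Ω = 0 → x = 0

end Vale.Agent.P078.Finite
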