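import Vale.Agent.P078.Finite.Expect
import Vale.Agent.P078.Finite.Calculus

/-!
States of the paving iteration and the potential.
-/

noncomputable section

namespace Vale.Agent.P078.Finite

universe u

variable {X : Type*} [TopologicalSpace X]

/-- Pointwise square root. -/
def sqC (f : C(X, ℝ)) : C(X, ℝ) := ⟨fun x => √(f x), f.continuous.sqrt⟩

/-- Pointwise inverse above a positive floor. -/
def invC {a : ℝ} (ha : 0 < a) (f : C(X, ℝ)) : C(X, ℝ) :=
  ⟨fun x => (max (f x) a)⁻¹, (f.continuous.max continuous_const).inv₀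
    fun _ => (lt_max_of_lt_right ha).ne'⟩

theorem sqC_apply (f : C(X, ℝ)) (x : X) : sqC f x = √(f x) := rfl

theorem invC_apply {a : ℝ} (ha : 0 < a) (f : C(X, ℝ)) (x : X) : invC ha f x = (max (f x) a)⁻¹ :=
  rfl

/-- Number of colours and the floor of the potential. -/
structure Par where
  r : ℕ
  η : ℝ
  hr : 768 ≤ r
  hη : 0 < η

namespace Par

variable (P : Par)

/-- The starting weight of each colour. -/
def rho : ℝ := 384 / P.r

/-- The level of the resolvents. -/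
def z : ℝ := √(20000000 * P.rho)

/-- The weight of the linear part of the potential. -/
def eps0 : ℝ := 1 / (P.r : ℝ) ^ 2

/-- Weights below this are ignored. -/
def zeta : ℝ := 16 / P.r

theorem r_pos : (0 : ℝ) < P.r := by
  have : (768 : ℝ) ≤ P.r := by exact_mod_cast P.hr
  linarith

theorem rho_pos : 0 < P.rho := div_pos (by norm_num) P.r_pos

theorem rho_le : P.rho ≤ 1 / 2 := by
  have : (768 : ℝ) ≤ P.r := by exact_mod_cast P.hr
  rw [rho, div_le_iff₀ P.r_pos]
  linarith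

theorem z_pos : 0 < P.z := Real.sqrt_pos.2 (mul_pos (by norm_num) P.rho_pos)

theorem z_sq : P.z ^ 2 = 20000000 * P.rho :=
  Real.sq_sqrt (mul_nonneg (by norm_num) P.rho_pos.le)

theorem eps0_pos : 0 < P.eps0 := one_div_pos.2 (pow_pos P.r_pos 2)

theorem zeta_pos : 0 < P.zeta := div_pos (by norm_num) P.r_pos

end Par

variable {K : Type u} [NormedAddCommGroup K] [InnerProductSpace ℂ K] [CompleteSpace K]

/-- A state of the iteration. -/
structure St (C : Ctx K) (P : Par) where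
  U : C(C.Spec, ℝ)
  R : Fin P.r → C(C.Spec, ℝ)
  fin : Fin P.r → C(C.Spec, ℝ)
  y : Fin P.r → K →L[ℂ] K
  corr : Fin P.r → K →L[ℂ] K

namespace St

variable {C : Ctx K} {P : Par} (s : St C P)

/-- The square root of a weight as an operator. -/
def rt (i : Fin P.r) : K →L[ℂ] K := C.op (sqC (s.R i))

/-- The sandwiched element. -/
def B (i : Fin P.r) : K →L[ℂ] K := s.rt i * s.y i * s.rt i

/-- The positive part of the resolvent expression. -/
def W (σ : ℝ) (i : Fin P.r) : K →L[ℂ] K := Zo P.z σ (s.rt i) (s.y i)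

/-- The resolvent expression. -/
def Z (σ : ℝ) (i : Fin P.r) : K →L[ℂ] K := Zf P.z σ (s.rt i) (s.y i)

/-- The resolvent load. -/
def e (i : Fin P.r) : C(C.Spec, ℝ) := C.Er (s.W 1 i) + C.Er (s.W (-1) i)

/-- The linear load. -/
def l (i : Fin P.r) : C(C.Spec, ℝ) := (P.z ^ 2)⁻¹ • C.Er (s.y i * C.op (s.R i) * s.y i)

/-- The surplus of one colour. -/
def psi (i : Fin P.r) : C(C.Spec, ℝ) :=
  s.R i * (1 - (1 / 4 : ℝ) • (1 - s.R i)) - (1000000 : ℝ) • (s.R i * (s.e i + s.l i))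

/-- The surplus. -/
def F : C(C.Spec, ℝ) := ∑ i, s.psi i

/-- The barrier weight. -/
def w : C(C.Spec, ℝ) := s.U * invC (half_pos P.hη) (s.F - (128 : ℝ) • 1)

/-- The potential. -/
def Phi : ℝ := P.eps0 * ∑ i, C.intA ((1 + s.R i) * (s.e i + s.l i)) + C.intA s.w

/-- The square of the barrier weight. -/
def lam : C(C.Spec, ℝ) := s.w * s.w

/-- The weight of the cross terms. -/
def Lam : C(C.Spec, ℝ) := P.eps0 • 1 + (1000000 : ℝ) • s.lam

/-- The weight in front of the derivative of the loads. -/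
def u (i : Fin P.r) : C(C.Spec, ℝ) := P.eps0 • 1 + s.Lam * s.R i

/-- The transformed weight. -/
def Wu (σ : ℝ) (i : Fin P.r) : C(C.Spec, ℝ) := C.Er (s.Z σ i * C.op (s.u i) * s.Z σ i)

/-- The transformed weight of the linear load. -/
def Wy (i : Fin P.r) : C(C.Spec, ℝ) := (P.z ^ 2)⁻¹ • C.Er (s.y i * C.op (s.u i) * s.y i)

/-- The gradient of the potential. -/
def g (i : Fin P.r) : C(C.Spec, ℝ) :=
  s.Wu 1 i + s.Wu (-1) i + s.Wy i + s.Lam * (s.e i + s.l i) -
    s.lam * (1 - (1 / 4 : ℝ) • (1 - (2 : ℝ) • s.R i))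

/-- Removed mass. -/
def removed : C(C.Spec, ℝ) := 1 - s.U - ∑ i, s.fin i

/-- The standing properties of a state, relative to the element `y0` being paved. -/
structure Inv (y0 : K →L[ℂ] K) : Prop where
  U_idem : s.U * s.U = s.U
  fin_idem : ∀ i, s.fin i * s.fin i = s.fin i
  fit : ∀ χ, s.U χ + ∑ i, s.fin i χ ≤ 1
  R_nonneg : ∀ i χ, 0 ≤ s.R i χ
  R_le : ∀ i χ, s.R i χ ≤ 1 / 2
  fin_R : ∀ i χ, s.fin i χ = 1 → 1 / 4 ≤ s.R i χ
  y_mem : ∀ i, s.y i ∈ C.M
  y_sa : ∀ i, IsSelfAdjoint (s.y i)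
  corr_mem : ∀ i, s.corr i ∈ C.M
  corr_nonneg : ∀ i, 0 ≤ s.corr i
  diff_le : ∀ i, y0 - s.y i ≤ s.corr i ∧ s.y i - y0 ≤ s.corr i
  gap : ∀ i, ‖s.B i‖ < P.z
  floor : ∀ χ, s.U χ = 1 → 128 + P.η / 2 ≤ s.F χ

/-- The losses so far are paid for by the decrease of the potential from `Φ0`. -/
structure Budget (gam Φ0 : ℝ) : Prop where
  corr_le : ∑ i, (C.tr (s.corr i)).re ≤ 2 * gam / P.eps0 * (Φ0 - s.Phi)
  removed_le : C.intA s.removed ≤ P.η * (Φ0 - s.Phi)

end St

end Vale.Agent.P078.Finite
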