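import Vale.Agent.P078.Finite.State
import Vale.Agent.P078.Finite.Quad

/-!
Finishable region, shifts of the weights and the coefficients of their expansion.
-/

noncomputable section

namespace Vale.Agent.P078.Finite

universe u

variable {K : Type u} [NormedAddCommGroup K] [InnerProductSpace ℂ K] [CompleteSpace K]

namespace St

variable {C : Ctx K} {P : Par} (s : St C P)

/-- Where some weight has reached `1/4`. -/
def finishable : C(C.Spec, ℝ) := 1 - ∏ i, (1 - C.cutAt (s.R i) (1 / 4))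

/-- Shift the weights multiplicatively. -/
def shift (t : ℝ) (x : Fin P.r → C(C.Spec, ℝ)) : St C P :=
  { s with R := fun i => s.R i * (1 + t • x i) }

/-- First variation of the resolvent load. -/
def e1 (i : Fin P.r) (X : C(C.Spec, ℝ)) : C(C.Spec, ℝ) :=
  C.Er (s.Z 1 i * C.op X * s.Z 1 i) + C.Er (s.Z (-1) i * C.op X * s.Z (-1) i)

/-- First variation of the linear load. -/
def l1 (i : Fin P.r) (X : C(C.Spec, ℝ)) : C(C.Spec, ℝ) :=
  (P.z ^ 2)⁻¹ • C.Er (s.y i * C.op X * s.y i)

/-- First variation of the surplus of one colour. -/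
def psi1 (i : Fin P.r) (X : C(C.Spec, ℝ)) : C(C.Spec, ℝ) :=
  X * (1 - (1 / 4 : ℝ) • (1 - (2 : ℝ) • s.R i)) -
    (1000000 : ℝ) • (X * (s.e i + s.l i) + s.R i * (s.e1 i X + s.l1 i X))

/-- The indefinite form of the second variation for one colour. -/
def Q (i : Fin P.r) (X : C(C.Spec, ℝ)) : ℝ :=
  C.quadForm (s.u i) s.Lam X (s.Z 1 i) + C.quadForm (s.u i) s.Lam X (s.Z (-1) i) +
    (C.tr (C.op s.Lam * C.op X * s.y i * C.op X * s.y i)).re / P.z ^ 2 -
    1 / 4 * C.intA (s.lam * (X * X))

/-- The first variation along `X`. -/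
def L1 (X : Fin P.r → C(C.Spec, ℝ)) : ℝ := ∑ i, C.intA (X i * s.g i)

/-- The square part of the second variation. -/
def sqTerm (X : Fin P.r → C(C.Spec, ℝ)) : ℝ :=
  C.intA (s.w * s.w * s.w * ((∑ i, s.psi1 i (X i)) * (∑ i, s.psi1 i (X i))))

end St

end Vale.Agent.P078.Finite
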